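import Mathlib

/-!
# P219 : nonpositively curved symmetric spaces as sets of positive definite matrices

Definitions used in the statement of the sharp Sobolev (isoperimetric) inequality.
The space is `{exp (ι x) : x ∈ ℝⁿ}` with the trace metric `tr (C P⁻¹ dP P⁻¹ dP)`,
read in the coordinate `x`.
-/

open Matrix MeasureTheory
open scoped RealInnerProductSpace

set_option autoImplicit false

namespace Vale.Agent.P219

/-- Square real matrices. -/
abbrev Mat (N : ℕ) := Matrix (Fin N) (Fin N) ℝ

/-- The coordinate space. -/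
abbrev Coord (n : ℕ) := EuclideanSpace ℝ (Fin n)

/-- `ι` is an isometric parametrisation of a Lie triple system of symmetric matrices, for the
inner product `tr (C X Y)`, where `C` is positive definite and commutes with that system. -/
def IsLieTriple {N n : ℕ} (C : Mat N) (ι : Coord n →ₗ[ℝ] Mat N) : Prop :=
  C.PosDef ∧
  (∀ x, (ι x)ᵀ = ι x) ∧
  (∀ x, C * ι x = ι x * C) ∧
  (∀ x y, (C * ι x * ι y).trace = ⟪x, y⟫) ∧
  (∀ x y z, ∃ w, ι w =
    (ι x * ι y - ι y * ι x) * ι z - ι z * (ι x * ι y - ι y * ι x))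

variable {N n : ℕ}

/-- The point of the space with coordinate `x`. -/
noncomputable def pt (ι : Coord n →ₗ[ℝ] Mat N) (x : Coord n) : Mat N :=
  NormedSpace.exp (ι x)

/-- Derivative of `pt` at `x` in the direction `v`, entry by entry. -/
noncomputable def dpt (ι : Coord n →ₗ[ℝ] Mat N) (x v : Coord n) : Mat N :=
  Matrix.of fun i j => deriv (fun t : ℝ => pt ι (x + t • v) i j) 0

/-- The metric tensor `tr (C P⁻¹ dP P⁻¹ dP)` in the coordinate `x`. -/
noncomputable def gram (C : Mat N) (ι : Coord n →ₗ[ℝ] Mat N) (x : Coord n) :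
    Matrix (Fin n) (Fin n) ℝ :=
  Matrix.of fun i j =>
    (C * (pt ι x)⁻¹ * dpt ι x (EuclideanSpace.single i 1) * (pt ι x)⁻¹ *
      dpt ι x (EuclideanSpace.single j 1)).trace

/-- Density of the Riemannian volume in the coordinate `x`. -/
noncomputable def volDensity (C : Mat N) (ι : Coord n →ₗ[ℝ] Mat N) (x : Coord n) : ℝ :=
  Real.sqrt (gram C ι x).det

/-- Riemannian norm of the differential of `u` at `x`. -/
noncomputable def gradNorm (C : Mat N) (ι : Coord n →ₗ[ℝ] Mat N) (u : Coord n → ℝ)
    (x : Coord n) : ℝ :=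
  Real.sqrt ((fun i => fderiv ℝ u x (EuclideanSpace.single i 1)) ⬝ᵥ
    (gram C ι x)⁻¹ *ᵥ (fun i => fderiv ℝ u x (EuclideanSpace.single i 1)))

/-- The sharp Euclidean isoperimetric constant `n ω_n^{1/n}`. -/
noncomputable def isoConst (n : ℕ) : ℝ :=
  n * (volume (Metric.ball (0 : Coord n) 1)).toReal ^ ((1 : ℝ) / n)

end Vale.Agent.P219
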