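import Mathlib
import Vale.Agent.P219.Defs

/-!
# P219 : the adjoint action on matrices and its functional calculus
-/

open Matrix
open scoped Kronecker

set_option autoImplicit false

namespace Vale.Agent.P219

variable {N : ℕ}

/-- Index of a vectorised matrix. -/
abbrev Idx (N : ℕ) := Fin N × Fin N

/-- Operators on vectorised matrices. -/
abbrev Op (N : ℕ) := Matrix (Idx N) (Idx N) ℝ

/-- The matrix of `X ↦ u X - X u`. -/
def adM (u : Mat N) : Op N := (1 : Mat N) ⊗ₖ u - uᵀ ⊗ₖ (1 : Mat N)

lemma adM_mulVec (u X : Mat N) : adM u *ᵥ vec X = vec (u * X - X * u) := by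
  simp [adM, sub_mulVec, kronecker_mulVec_vec, -vec]

lemma adM_add (u v : Mat N) : adM (u + v) = adM u + adM v := by
  simp [adM, transpose_add, add_kronecker, kronecker_add]
  abel

lemma adM_smul (c : ℝ) (u : Mat N) : adM (c • u) = c • adM u := by
  simp [adM, transpose_smul, smul_kronecker, kronecker_smul, smul_sub]

lemma adM_transpose (u : Mat N) : (adM u)ᵀ = adM uᵀ := by
  simp [adM, transpose_sub, ← kroneckerMap_transpose]

lemma adM_symm {u : Mat N} (hu : uᵀ = u) : (adM u)ᵀ = adM u := by
  rw [adM_transpose, hu]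

/-- An orthogonal diagonalisation `H = U diag h Uᵀ`. -/
structure Diag (H : Mat N) where
  /-- the eigenvector matrix -/
  U : Mat N
  /-- the eigenvalues -/
  h : Fin N → ℝ
  hUU : U * Uᵀ = 1
  hUU' : Uᵀ * U = 1
  hH : H = U * diagonal h * Uᵀ

lemma exists_diag {H : Mat N} (hH : Hᵀ = H) : Nonempty (Diag H) := by
  have hh : H.IsHermitian := by simpa [Matrix.IsHermitian, conjTranspose_eq_transpose_of_trivial] using hH
  let U : Mat N := (hh.eigenvectorUnitary : Mat N)
  have h1 : U * Uᵀ = 1 := by
    have := Unitary.coe_mul_star_self hh.eigenvectorUnitary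
    simpa [U, star_eq_conjTranspose, conjTranspose_eq_transpose_of_trivial] using this
  have h2 : Uᵀ * U = 1 := mul_eq_one_comm.1 h1
  refine ⟨⟨U, hh.eigenvalues, h1, h2, ?_⟩⟩
  have := hh.spectral_theorem
  simpa [U, Unitary.conjStarAlgAut_apply, star_eq_conjTranspose,
    conjTranspose_eq_transpose_of_trivial, mul_assoc] using this

namespace Diag

variable {H : Mat N} (d : Diag H)

/-- The orthogonal matrix `U ⊗ U`. -/
def R : Op N := d.U ⊗ₖ d.U

lemma R_mul_transpose : d.R * d.Rᵀ = 1 := by
  rw [R, ← kroneckerMap_transpose, ← mul_kronecker_mul, d.hUU, one_kronecker_one]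

lemma transpose_mul_R : d.Rᵀ * d.R = 1 := by
  rw [R, ← kroneckerMap_transpose, ← mul_kronecker_mul, d.hUU', one_kronecker_one]

/-- Eigenvalues of `adM H`. -/
def lam (p : Idx N) : ℝ := d.h p.2 - d.h p.1

/-- `f (adM H)`. -/
def calc' (f : ℝ → ℝ) : Op N := d.R * diagonal (fun p => f (d.lam p)) * d.Rᵀ

lemma adM_conj (u : Mat N) : adM (d.U * u * d.Uᵀ) = d.R * adM u * d.Rᵀ := by
  simp only [adM, R, ← kroneckerMap_transpose, Matrix.mul_sub, Matrix.sub_mul, ← mul_kronecker_mul,
    transpose_mul, transpose_transpose, Matrix.mul_one, d.hUU, Matrix.mul_assoc]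

lemma adM_diagonal (h : Fin N → ℝ) :
    adM (diagonal h) = diagonal (fun p : Idx N => h p.2 - h p.1) := by
  rw [adM, diagonal_transpose, ← diagonal_one, diagonal_kronecker_diagonal,
    diagonal_kronecker_diagonal, diagonal_sub]
  congr 1
  funext p
  simp

lemma calc'_id : d.calc' id = adM H := by
  calc d.calc' id = d.R * adM (diagonal d.h) * d.Rᵀ := by rw [adM_diagonal]; rfl
    _ = adM H := by rw [← d.adM_conj, ← d.hH]

lemma calc'_mul (f g : ℝ → ℝ) : d.calc' f * d.calc' g = d.calc' (fun t => f t * g t) := by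
  simp only [calc', Matrix.mul_assoc]
  rw [← Matrix.mul_assoc d.Rᵀ d.R, d.transpose_mul_R, Matrix.one_mul,
    ← Matrix.mul_assoc (diagonal _) (diagonal _), diagonal_mul_diagonal]

lemma calc'_add (f g : ℝ → ℝ) : d.calc' f + d.calc' g = d.calc' (fun t => f t + g t) := by
  simp only [calc', ← Matrix.add_mul, ← Matrix.mul_add, diagonal_add]

lemma calc'_sub (f g : ℝ → ℝ) : d.calc' f - d.calc' g = d.calc' (fun t => f t - g t) := by
  simp only [calc', ← Matrix.sub_mul, ← Matrix.mul_sub, diagonal_sub]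

lemma calc'_smul (c : ℝ) (f : ℝ → ℝ) : c • d.calc' f = d.calc' (fun t => c * f t) := by
  rw [calc', calc', ← Matrix.smul_mul, ← Matrix.mul_smul, ← diagonal_smul]
  rfl

lemma calc'_one : d.calc' (fun _ => 1) = 1 := by
  simp [calc', d.R_mul_transpose]

lemma calc'_transpose (f : ℝ → ℝ) : (d.calc' f)ᵀ = d.calc' f := by
  simp [calc', transpose_mul, Matrix.mul_assoc]

lemma calc'_congr {f g : ℝ → ℝ} (h : ∀ p, f (d.lam p) = g (d.lam p)) :
    d.calc' f = d.calc' g := by
  simp only [calc', h]

lemma calc'_pow (k : ℕ) : (adM H) ^ k = d.calc' (fun t => t ^ k) := by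
  induction k with
  | zero => simp [d.calc'_one]
  | succ k ih => rw [pow_succ, ih, ← d.calc'_id, d.calc'_mul]; simp [pow_succ]

lemma calc'_eval (p : Polynomial ℝ) :
    Polynomial.aeval (adM H) p = d.calc' (fun t => p.eval t) := by
  induction p using Polynomial.induction_on' with
  | add p q hp hq => rw [map_add, hp, hq, d.calc'_add]; simp
  | monomial k c =>
    rw [Polynomial.aeval_monomial, d.calc'_pow, ← Algebra.smul_def, d.calc'_smul]
    simp

/-- Even functions of `adM H` keep a subspace kept by `adM H ^ 2`. -/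
lemma calc'_even_mem (S : Submodule ℝ (Idx N → ℝ))
    (hS : ∀ v ∈ S, adM H *ᵥ (adM H *ᵥ v) ∈ S) {f : ℝ → ℝ} (hf : ∀ t, f (-t) = f t)
    {v : Idx N → ℝ} (hv : v ∈ S) : d.calc' f *ᵥ v ∈ S := by
  classical
  let s : Finset ℝ := Finset.univ.image (fun p => d.lam p ^ 2)
  let q : Polynomial ℝ := Lagrange.interpolate s id (fun t => f (Real.sqrt t))
  have hq : ∀ p, f (d.lam p) = q.eval (d.lam p ^ 2) := by
    intro p
    have hp : d.lam p ^ 2 ∈ s := Finset.mem_image_of_mem _ (Finset.mem_univ p)
    have := Lagrange.eval_interpolate_at_node (fun t => f (Real.sqrt t))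
      (Set.injOn_id (s : Set ℝ)) hp
    simp only [id_eq] at this
    rw [show q.eval (d.lam p ^ 2) = _ from this, Real.sqrt_sq_eq_abs]
    rcases abs_choice (d.lam p) with h | h <;> rw [h]
    rw [hf]
  have h2 : d.calc' f = Polynomial.aeval ((adM H) ^ 2) q := by
    rw [show (adM H) ^ 2 = Polynomial.aeval (adM H) ((Polynomial.X : Polynomial ℝ) ^ 2) by simp,
      ← Polynomial.aeval_comp, d.calc'_eval]
    exact d.calc'_congr (fun p => by simpa using hq p)
  rw [h2]
  clear h2 hq
  revert v
  induction q using Polynomial.induction_on' with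
  | add a b ha hb =>
    intro v hv
    rw [map_add, add_mulVec]
    exact S.add_mem (ha hv) (hb hv)
  | monomial k c =>
    intro v hv
    rw [Polynomial.aeval_monomial, ← Algebra.smul_def, smul_mulVec]
    refine S.smul_mem c ?_
    induction k with
    | zero => simpa using hv
    | succ k ih =>
      rw [pow_succ', ← mulVec_mulVec]
      have := hS _ ih
      rwa [mulVec_mulVec, ← pow_two] at this

end Diag

end Vale.Agent.P219
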