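import Mathlib

/-!
P219 (transport module): the conjugate potential of a continuous function on the closed unit
ball, subgradients, and elementary facts about the regularising integrand.
-/

open MeasureTheory Metric Set Filter Topology
open scoped RealInnerProductSpace BoundedContinuousFunction

namespace Vale.Agent.P219

section Gf

/-- The strictly convex regularising integrand. -/
noncomputable def Gf (η s : ℝ) : ℝ := s + η * √(1 + s ^ 2)

lemma continuous_Gf (η : ℝ) : Continuous (Gf η) := by unfold Gf; fun_prop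

lemma abs_sqrt_sub_le (s t : ℝ) : |√(1 + s ^ 2) - √(1 + t ^ 2)| ≤ |s - t| := by
  have hs := Real.sq_sqrt (show 0 ≤ 1 + s ^ 2 by positivity)
  have ht := Real.sq_sqrt (show 0 ≤ 1 + t ^ 2 by positivity)
  have h : 1 + s * t ≤ √(1 + s ^ 2) * √(1 + t ^ 2) := by
    rw [← Real.sqrt_mul (by positivity)]
    exact Real.le_sqrt_of_sq_le (by nlinarith [sq_nonneg (s - t)])
  exact sq_le_sq.1 (by nlinarith)

lemma Gf_mono {η : ℝ} (h0 : 0 ≤ η) (h1 : η ≤ 1) {s t : ℝ} (h : s ≤ t) : Gf η s ≤ Gf η t := by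
  have := (abs_le.1 (abs_sqrt_sub_le t s)).1
  rw [abs_of_nonneg (sub_nonneg.2 h)] at this
  unfold Gf
  nlinarith

lemma Gf_sub_le {η : ℝ} (h0 : 0 ≤ η) {s t : ℝ} (h : s ≤ t) :
    Gf η t - Gf η s ≤ (1 + η) * (t - s) := by
  have := (abs_le.1 (abs_sqrt_sub_le t s)).2
  rw [abs_of_nonneg (sub_nonneg.2 h)] at this
  unfold Gf
  nlinarith

lemma le_Gf {η : ℝ} (h0 : 0 ≤ η) (s : ℝ) : s + η * |s| ≤ Gf η s := by
  have : |s| ≤ √(1 + s ^ 2) := Real.abs_le_sqrt (by linarith)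
  unfold Gf
  gcongr

lemma Gf_zero (η : ℝ) : Gf η 0 = η := by simp [Gf]

lemma Gf_midpoint_lt {η : ℝ} (h0 : 0 < η) {s t : ℝ} (h : s ≠ t) :
    Gf η ((s + t) / 2) < (Gf η s + Gf η t) / 2 := by
  have hs := Real.sq_sqrt (show 0 ≤ 1 + s ^ 2 by positivity)
  have ht := Real.sq_sqrt (show 0 ≤ 1 + t ^ 2 by positivity)
  have h2 : 1 + s * t < √(1 + s ^ 2) * √(1 + t ^ 2) := by
    rw [← Real.sqrt_mul (by positivity)]
    rcases lt_or_ge (1 + s * t) 0 with hn | hn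
    · exact hn.trans_le (Real.sqrt_nonneg _)
    · rw [Real.lt_sqrt hn]
      nlinarith [sq_pos_of_ne_zero (sub_ne_zero.2 h)]
  have h3 : √(1 + ((s + t) / 2) ^ 2) < (√(1 + s ^ 2) + √(1 + t ^ 2)) / 2 := by
    rw [Real.sqrt_lt (by positivity) (by positivity)]
    nlinarith
  unfold Gf
  nlinarith

lemma Gf_midpoint_le {η : ℝ} (h0 : 0 < η) (s t : ℝ) :
    Gf η ((s + t) / 2) ≤ (Gf η s + Gf η t) / 2 := by
  rcases eq_or_ne s t with rfl | h
  · simp
  · exact (Gf_midpoint_lt h0 h).le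

end Gf

variable {E : Type*} [NormedAddCommGroup E] [InnerProductSpace ℝ E]

/-- `p` is a subgradient of `φ` at `y`. -/
def Subgr (φ : E → ℝ) (y p : E) : Prop := ∀ w, φ y + ⟪p, w - y⟫ ≤ φ w

variable (E) in
/-- The closed unit ball. -/
abbrev Bl := ↥(closedBall (0 : E) 1)

instance : Inhabited (Bl E) := ⟨⟨0, mem_closedBall_self zero_le_one⟩⟩

omit [InnerProductSpace ℝ E] in
lemma Bl.norm_le (y : Bl E) : ‖(y : E)‖ ≤ 1 := mem_closedBall_zero_iff.1 y.2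

/-- The conjugate potential. -/
noncomputable def phi (ψ : Bl E →ᵇ ℝ) (z : E) : ℝ := ⨆ y : Bl E, ⟪z, (y : E)⟫ - ψ y

lemma le_phi (ψ : Bl E →ᵇ ℝ) (z : E) (y : Bl E) : ⟪z, (y : E)⟫ - ψ y ≤ phi ψ z := by
  refine le_ciSup (f := fun y : Bl E => ⟪z, (y : E)⟫ - ψ y) ⟨‖z‖ + ‖ψ‖, ?_⟩ y
  rintro _ ⟨x, rfl⟩
  have h1 := real_inner_le_norm z (x : E)
  have h2 := mul_le_mul_of_nonneg_left x.norm_le (norm_nonneg z)
  have h3 := abs_le.1 (ψ.norm_coe_le_norm x)
  dsimp only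
  linarith [h3.1]

lemma phi_le (ψ : Bl E →ᵇ ℝ) (z : E) {c : ℝ} (h : ∀ y : Bl E, ⟪z, (y : E)⟫ - ψ y ≤ c) :
    phi ψ z ≤ c := ciSup_le h

lemma phi_le_phi_add (ψ ψ' : Bl E →ᵇ ℝ) (z z' : E) :
    phi ψ z ≤ phi ψ' z' + ‖z - z'‖ + dist ψ ψ' := by
  refine phi_le _ _ fun y => ?_
  have h1 := le_phi ψ' z' y
  have h2 : ⟪z - z', (y : E)⟫ ≤ ‖z - z'‖ :=
    (real_inner_le_norm _ _).trans (mul_le_of_le_one_right (norm_nonneg _) y.norm_le)
  have h3 := abs_le.1 ((Real.dist_eq _ _ ▸ ψ.dist_coe_le_dist (g := ψ') y : |ψ y - ψ' y| ≤ _))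
  rw [inner_sub_left] at h2
  linarith [h3.1]

lemma continuous_phi : Continuous fun q : (Bl E →ᵇ ℝ) × E => phi q.1 q.2 := by
  refine (LipschitzWith.of_le_add_mul 2 fun q q' => ?_).continuous
  have h := phi_le_phi_add q.1 q'.1 q.2 q'.2
  have h1 : dist q.1 q'.1 ≤ dist q q' := le_max_left _ _
  have h2 : ‖q.2 - q'.2‖ ≤ dist q q' := dist_eq_norm q.2 q'.2 ▸ le_max_right _ _
  push_cast
  linarith

lemma lipschitz_phi (ψ : Bl E →ᵇ ℝ) : LipschitzWith 1 (phi ψ) :=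
  LipschitzWith.of_le_add fun z z' => by
    simpa [dist_eq_norm] using phi_le_phi_add ψ ψ z z'

variable [FiniteDimensional ℝ E]

lemma exists_argmax (ψ : Bl E →ᵇ ℝ) (z : E) : ∃ y : Bl E, phi ψ z = ⟪z, (y : E)⟫ - ψ y := by
  obtain ⟨y, -, hy⟩ := (isCompact_univ (X := Bl E)).exists_isMaxOn univ_nonempty
    (show Continuous fun y : Bl E => ⟪z, (y : E)⟫ - ψ y by fun_prop).continuousOn
  exact ⟨y, le_antisymm (phi_le _ _ fun x => hy (mem_univ x)) (le_phi _ _ _)⟩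

lemma subgr_of_argmax {ψ : Bl E →ᵇ ℝ} {z : E} {y : Bl E}
    (hy : phi ψ z = ⟪z, (y : E)⟫ - ψ y) : Subgr (phi ψ) z y := fun w => by
  have := le_phi ψ w y
  rw [inner_sub_right, real_inner_comm w (y : E), real_inner_comm z (y : E), hy]
  linarith

lemma exists_subgr (ψ : Bl E →ᵇ ℝ) (z : E) : ∃ p, Subgr (phi ψ) z p :=
  (exists_argmax ψ z).elim fun y hy => ⟨y, subgr_of_argmax hy⟩

/-- At a point of differentiability the only subgradient is the gradient. -/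
lemma Subgr.eq_gradient {φ : E → ℝ} {z p : E} (hp : Subgr φ z p) (hd : DifferentiableAt ℝ φ z) :
    p = gradient φ z := by
  have hm : IsLocalMin (fun w => φ w - ⟪p, w⟫) z := Eventually.of_forall fun w => by
    have := hp w
    rw [inner_sub_right] at this
    linarith
  have h := hm.hasFDerivAt_eq_zero
    (hd.hasGradientAt.hasFDerivAt.sub (InnerProductSpace.toDual ℝ E p).hasFDerivAt)
  rw [sub_eq_zero] at h
  exact ((InnerProductSpace.toDual ℝ E).injective h).symm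

lemma norm_gradient_le (ψ : Bl E →ᵇ ℝ) (z : E) : ‖gradient (phi ψ) z‖ ≤ 1 := by
  rw [gradient, LinearIsometryEquiv.norm_map]
  simpa using norm_fderiv_le_of_lipschitz ℝ (lipschitz_phi ψ) (x₀ := z)

lemma argmax_eq_gradient {ψ : Bl E →ᵇ ℝ} {z : E} {y : Bl E}
    (hy : phi ψ z = ⟪z, (y : E)⟫ - ψ y) (hd : DifferentiableAt ℝ (phi ψ) z) :
    y = ⟨gradient (phi ψ) z, mem_closedBall_zero_iff.2 (norm_gradient_le ψ z)⟩ :=
  Subtype.ext ((subgr_of_argmax hy).eq_gradient hd)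

end Vale.Agent.P219
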