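import Mathlib
import Vale.Agent.P371.Lift.ExistsZero

/-!
P219 (transport module): the Poincaré–Miranda theorem, read off from the parity lemma of
`Vale.Agent.P371.Lift.ExistsZero`, and the zero of a field pointing outwards on a sphere.
-/

open Set Metric
open scoped RealInnerProductSpace

namespace Vale.Agent.P219

open Vale.Agent.P371.Lift in
theorem exists_zero_unitCube {d : ℕ} (H : (Fin d → ℝ) → Fin d → ℝ) (hc : Continuous H)
    (hbot : ∀ x, (∀ i, x i ∈ Icc (0 : ℝ) 1) → ∀ i, x i = 0 → 0 ≤ H x i)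
    (htop : ∀ x, (∀ i, x i ∈ Icc (0 : ℝ) 1) → ∀ i, x i = 1 → H x i ≤ 0) :
    ∃ x, (∀ i, x i ∈ Icc (0 : ℝ) 1) ∧ H x = 0 := by
  let h : Idx (d + 1) → (Crd (d + 1) → ℝ) → ℝ := fun e p =>
    match e with
    | .inl q => p (.inl ⟨q.1, q.2.castSucc⟩) * p (.inl ⟨lower q, Fin.last _⟩)
    | .inr r => H (fun i => p (.inr i)) r
  obtain ⟨p, hp, hz⟩ := exists_zero (N := d + 1) h
    (fun e => by
      rcases e with q | r
      · exact (show Continuous fun p : Crd (d + 1) → ℝ =>
          p (.inl ⟨q.1, q.2.castSucc⟩) * p (.inl ⟨lower q, Fin.last _⟩) by fun_prop).continuousOn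
      · exact (show Continuous fun p : Crd (d + 1) → ℝ => H (fun i => p (.inr i)) r by
          fun_prop).continuousOn)
    (fun g p _ q => by
      simp only [h, flipR, sg_add, Int.cast_mul]
      ring)
    (fun g p _ r => rfl)
    (fun p hp r h0 => hbot _ hp.2.2 r h0)
    (fun p hp r h1 => htop _ hp.2.2 r h1)
  exact ⟨fun i => p (.inr i), hp.2.2, funext fun r => hz (.inr r)⟩

theorem exists_zero_cube {d : ℕ} {L : ℝ} (F : (Fin d → ℝ) → Fin d → ℝ)
    (hc : Continuous F) (hbot : ∀ x i, x i = -L → F x i ≤ 0)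
    (htop : ∀ x i, x i = L → 0 ≤ F x i) : ∃ x, F x = 0 := by
  let s : (Fin d → ℝ) → Fin d → ℝ := fun x i => L * (2 * x i - 1)
  have hs : Continuous s := by unfold s; fun_prop
  obtain ⟨x, -, hx⟩ := exists_zero_unitCube (fun x i => -F (s x) i)
    (continuous_pi fun i => ((continuous_apply i).comp (hc.comp hs)).neg)
    (fun x _ i h0 => neg_nonneg.2 (hbot _ i (by simp [s, h0])))
    (fun x _ i h1 => neg_nonpos.2 (htop _ i (by simp [s, h1]; ring)))
  exact ⟨s x, funext fun i => by simpa using congrFun hx i⟩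

variable {E : Type*} [NormedAddCommGroup E] [InnerProductSpace ℝ E] [FiniteDimensional ℝ E]

/-- A continuous field on the ball pointing strictly outwards on the sphere has a zero. -/
theorem exists_zero_of_outward {R : ℝ} (hR : 0 < R) (y : E → E)
    (hy : ContinuousOn y (closedBall 0 R)) (hout : ∀ a, ‖a‖ = R → 0 < ⟪y a, a⟫) :
    ∃ a ∈ closedBall (0 : E) R, y a = 0 := by
  let P : E → E := fun a => (R / max R ‖a‖) • a
  have hpos : ∀ a : E, 0 < max R ‖a‖ := fun a => hR.trans_le (le_max_left _ _)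
  have hP : Continuous P :=
    ((continuous_const.div (continuous_const.max continuous_norm) fun a => (hpos a).ne')).smul
      continuous_id
  have hPle : ∀ a, P a ∈ closedBall (0 : E) R := fun a => by
    rw [mem_closedBall_zero_iff, norm_smul, Real.norm_of_nonneg (by positivity), div_mul_eq_mul_div,
      div_le_iff₀ (hpos a)]
    exact mul_le_mul_of_nonneg_left (le_max_right _ _) hR.le
  obtain ⟨B, hB⟩ := (isCompact_closedBall (0 : E) R).exists_bound_of_continuousOn hy
  let v : E → E := fun a => y (P a) + (a - P a)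
  have hv : Continuous v := (hy.comp_continuous hP hPle).add (continuous_id.sub hP)
  let b := stdOrthonormalBasis ℝ E
  let e : (Fin (Module.finrank ℝ E) → ℝ) → E := fun x => ∑ i, x i • b i
  have hbd : ∀ i (w : E), |⟪b i, w⟫| ≤ ‖w‖ := fun i w => by
    simpa [b.orthonormal.1 i] using abs_real_inner_le_norm (b i) w
  have he : ∀ x i, ⟪b i, e x⟫ = x i := fun x i => b.orthonormal.inner_right_fintype x i
  have hkey : ∀ x i, |⟪b i, y (P (e x))⟫| ≤ B ∧ |⟪b i, P (e x)⟫| ≤ R := fun x i =>
    ⟨(hbd i _).trans (hB _ (hPle _)), (hbd i _).trans (mem_closedBall_zero_iff.1 (hPle _))⟩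
  obtain ⟨x, hx⟩ := exists_zero_cube (d := Module.finrank ℝ E) (L := R + |B| + 1)
    (fun x i => ⟪b i, v (e x)⟫)
    (continuous_pi fun i => by
      exact continuous_const.inner (hv.comp (by unfold e; fun_prop)))
    (fun x i hxi => by
      obtain ⟨h1, h2⟩ := hkey x i
      simp only [v, inner_add_right, inner_sub_right, he, hxi]
      linarith [(abs_le.1 h1).2, (abs_le.1 h2).1, le_abs_self B])
    (fun x i hxi => by
      obtain ⟨h1, h2⟩ := hkey x i
      simp only [v, inner_add_right, inner_sub_right, he, hxi]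
      linarith [(abs_le.1 h1).1, (abs_le.1 h2).2, le_abs_self B])
  have hz : v (e x) = 0 := by
    rw [← b.sum_repr' (v (e x))]
    exact Finset.sum_eq_zero fun i _ => by rw [show ⟪b i, v (e x)⟫ = 0 from congrFun hx i, zero_smul]
  by_cases hle : ‖e x‖ ≤ R
  · refine ⟨e x, mem_closedBall_zero_iff.2 hle, ?_⟩
    simpa [v, P, max_eq_left hle, hR.ne'] using hz
  · exfalso
    have hlt : R < ‖e x‖ := not_le.1 hle
    set a := e x
    have hn : ‖P a‖ = R := by
      simp only [P, max_eq_right hlt.le, norm_smul, norm_div, Real.norm_of_nonneg hR.le, norm_norm]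
      exact div_mul_cancel₀ R (by linarith : ‖a‖ ≠ 0)
    have h := hout _ hn
    have h1 : y (P a) = -((1 - R / ‖a‖) • a) := by
      have : y (P a) + (a - P a) = 0 := hz
      rw [eq_neg_of_add_eq_zero_left this]
      simp only [P, max_eq_right hlt.le, sub_smul, one_smul]
    rw [h1] at h
    simp only [P, max_eq_right hlt.le, inner_neg_left, real_inner_smul_left, real_inner_smul_right]
      at h
    have : 0 ≤ (1 - R / ‖a‖) * (R / ‖a‖ * ⟪a, a⟫) := by
      have : R / ‖a‖ ≤ 1 := (div_le_one (hR.trans hlt)).2 hlt.le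
      exact mul_nonneg (by linarith) (mul_nonneg (by positivity) real_inner_self_nonneg)
    linarith

end Vale.Agent.P219
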