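import Mathlib
import Vale.Agent.P219.TransportPhi
import Vale.Agent.P219.TransportZero

/-!
P219 (transport module): regularised dual minimisation, the choice of the base parameter by
Poincaré–Miranda, and the resulting bound on the push-forward by the gradient of the potential.
-/

open MeasureTheory Metric Set Filter Topology
open scoped RealInnerProductSpace BoundedContinuousFunction ENNReal

namespace Vale.Agent.P219

/-- A unique minimiser over a compact space depends continuously on the parameter. -/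
lemma continuous_argmin {A S : Type*} [TopologicalSpace A] [TopologicalSpace S] [CompactSpace S]
    {F : A × S → ℝ} (hF : Continuous F) (m : A → S) (hm : ∀ a s, F (a, m a) ≤ F (a, s))
    (hu : ∀ a s, F (a, s) ≤ F (a, m a) → s = m a) : Continuous m := by
  rw [continuous_iff_isClosed]
  intro C hC
  have hcl : IsClosed {q : A × S | q.2 ∈ C ∧ ∀ t, F q ≤ F (q.1, t)} := by
    rw [ofPred_and, ofPred_forall]
    exact (hC.preimage continuous_snd).inter
      (isClosed_iInter fun t => isClosed_le hF (by fun_prop))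
  convert isClosedMap_fst_of_compactSpace _ hcl using 1
  ext a
  constructor
  · intro ha
    exact ⟨(a, m a), ⟨ha, hm a⟩, rfl⟩
  · rintro ⟨⟨a', s⟩, ⟨hs, hmin⟩, rfl⟩
    have := hu a' s (hmin (m a'))
    exact this ▸ hs

variable {E X : Type*} [NormedAddCommGroup E] [InnerProductSpace ℝ E] [TopologicalSpace X]

section
variable [FiniteDimensional ℝ E]

/-- Double conjugation on a compact family. -/
lemma exists_dual (ψ : Bl E →ᵇ ℝ) {K : Set X} (hK : IsCompact K) (hne : K.Nonempty) {g : X → E}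
    (hg : Continuous g) :
    ∃ χ : Bl E →ᵇ ℝ, (∀ y, χ y ≤ ψ y) ∧ (∀ x ∈ K, phi χ (g x) ≤ phi ψ (g x)) ∧
      (∀ (y y' : Bl E) (c : ℝ), (∀ x ∈ K, ⟪g x, (y' : E) - y⟫ ≤ c) → χ y' ≤ χ y + c) ∧
      (∀ (y y' w : Bl E) (t : ℝ), 0 ≤ t → t ≤ 1 → (w : E) = t • (y : E) + (1 - t) • (y' : E) →
        χ w ≤ t * χ y + (1 - t) * χ y') := by
  have : Nonempty K := hne.to_subtype
  let a : Bl E → K → ℝ := fun y x => ⟪g x, (y : E)⟫ - phi ψ (g x)
  have hbdd : ∀ y, BddAbove (range (a y)) := fun y => by
    refine ⟨ψ y, ?_⟩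
    rintro _ ⟨x, rfl⟩
    have := le_phi ψ (g x) y
    simp only [a]
    linarith
  obtain ⟨L, hL⟩ := hK.exists_bound_of_continuousOn hg.continuousOn
  let f : Bl E → ℝ := fun y => ⨆ x, a y x
  have hle : ∀ y x, a y x ≤ f y := fun y x => le_ciSup (hbdd y) x
  have hdec : ∀ (y y' : Bl E) (c : ℝ), (∀ x ∈ K, ⟪g x, (y' : E) - y⟫ ≤ c) → f y' ≤ f y + c := by
    intro y y' c h
    refine ciSup_le fun x => ?_
    have h1 := h x x.2
    have h2 := hle y x
    rw [inner_sub_right] at h1
    simp only [a] at h2 ⊢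
    linarith
  have hlip : ∀ y y', f y ≤ f y' + L.toNNReal * dist y y' := fun y y' => by
    refine hdec y' y _ fun x hx => (real_inner_le_norm _ _).trans ?_
    rw [Subtype.dist_eq, dist_eq_norm]
    exact mul_le_mul_of_nonneg_right ((hL x hx).trans (Real.le_coe_toNNReal L)) (norm_nonneg _)
  refine ⟨BoundedContinuousFunction.mkOfCompact
    ⟨f, (LipschitzWith.of_le_add_mul _ hlip).continuous⟩, fun y => ?_, fun x hx => ?_, hdec, ?_⟩
  · refine ciSup_le fun x => ?_
    have := le_phi ψ (g x) y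
    simp only [a]
    linarith
  · refine phi_le _ _ fun y => ?_
    have := hle y ⟨x, hx⟩
    simp only [a] at this
    simp only [BoundedContinuousFunction.mkOfCompact_apply, ContinuousMap.coe_mk]
    linarith
  · intro y y' w t h0 h1 hw
    refine ciSup_le fun x => ?_
    have h2 := mul_le_mul_of_nonneg_left (hle y x) h0
    have h3 := mul_le_mul_of_nonneg_left (hle y' x) (sub_nonneg.2 h1)
    simp only [a, hw, inner_add_right, real_inner_smul_right] at h2 h3 ⊢
    simp only [BoundedContinuousFunction.mkOfCompact_apply, ContinuousMap.coe_mk] at *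
    nlinarith

end

variable [MeasurableSpace E] [BorelSpace E] [FiniteDimensional ℝ E]

variable (E) in
/-- Lebesgue measure on the closed unit ball. -/
noncomputable def vB : Measure (Bl E) := Measure.comap Subtype.val volume

lemma vB_apply (s : Set (Bl E)) :
    vB E s = volume ((Subtype.val : Bl E → E) '' s) :=
  (MeasurableEmbedding.subtype_coe measurableSet_closedBall).comap_apply _ _

instance : IsFiniteMeasure (vB E) :=
  ⟨by
    rw [vB_apply]
    exact (measure_mono (Subtype.coe_image_subset _ _)).trans_lt measure_closedBall_lt_top⟩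

lemma volume_closedBall_eq_ball :
    volume (closedBall (0 : E) 1) = volume (ball (0 : E) 1) := by
  rcases subsingleton_or_nontrivial E with hE | hE
  · have h1 : closedBall (0 : E) 1 = univ := eq_univ_of_forall fun x => by
      simp [Subsingleton.elim x 0]
    have h2 : ball (0 : E) 1 = univ := eq_univ_of_forall fun x => by
      simp [Subsingleton.elim x 0]
    rw [h1, h2]
  · exact Measure.addHaar_closedBall_eq_addHaar_ball volume 0 1

instance : Measure.IsOpenPosMeasure (vB E) := by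
  refine ⟨fun U hU ⟨y, hy⟩ h0 => ?_⟩
  obtain ⟨O, hO, rfl⟩ := isOpen_induced_iff.1 hU
  have hcl : (y : E) ∈ closure (ball (0 : E) 1) := by
    rw [closure_ball (0 : E) one_ne_zero]; exact y.2
  obtain ⟨z, hzO, hzb⟩ := mem_closure_iff.1 hcl O hO hy
  refine ((hO.inter isOpen_ball).measure_pos volume ⟨z, hzO, hzb⟩).ne' (measure_mono_null ?_
    (vB_apply (Subtype.val ⁻¹' O) ▸ h0))
  exact fun w hw => ⟨⟨w, ball_subset_closedBall hw.2⟩, hw.1, rfl⟩

section Energy

variable [MeasurableSpace X] [BorelSpace X] (μ : Measure X)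

/-- The regularised dual functional. -/
noncomputable def energy (η : ℝ) (g : X → E) (ψ : Bl E →ᵇ ℝ) : ℝ :=
  (∫ x, phi ψ (g x) ∂μ) + ∫ y, Gf η (ψ y) ∂vB E

lemma integrable_comp_compact [IsFiniteMeasure μ] {K : Set X} (hK : IsCompact K)
    (hμK : μ Kᶜ = 0) {f : X → ℝ} (hf : Continuous f) : Integrable f μ := by
  obtain ⟨C, hC⟩ := hK.exists_bound_of_continuousOn hf.continuousOn
  exact Integrable.of_bound hf.aestronglyMeasurable C
    (Eventually.mono (mem_ae_iff.2 hμK) hC)

lemma integrable_Gf (η : ℝ) (ψ : Bl E →ᵇ ℝ) : Integrable (fun y => Gf η (ψ y)) (vB E) :=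
  integrable_comp_compact _ isCompact_univ (by simp) ((continuous_Gf η).comp ψ.continuous)

/-- Minimisers of the regularised functional, continuous in the parameter. -/
theorem exists_minimizer [IsFiniteMeasure μ] {K : Set X} (hK : IsCompact K) (hμK : μ Kᶜ = 0)
    (hmass : μ univ = volume (ball (0 : E) 1))
    (G : E → X → E) (hG : Continuous fun q : E × X => G q.1 q.2)
    (R : ℝ) {η : ℝ} (h0 : 0 < η) (h1 : η < 1) :
    ∃ m : closedBall (0 : E) R → (Bl E →ᵇ ℝ), Continuous m ∧
      (∀ (a : closedBall (0 : E) R) ψ, energy μ η (G a) (m a) ≤ energy μ η (G a) ψ) ∧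
      ∀ a : closedBall (0 : E) R, (∀ (y y' : Bl E) (c : ℝ),
        (∀ x ∈ K, ⟪G a x, (y' : E) - y⟫ ≤ c) → m a y' ≤ m a y + c) ∧
      ∀ (y y' w : Bl E) (t : ℝ), 0 ≤ t → t ≤ 1 → (w : E) = t • (y : E) + (1 - t) • (y' : E) →
        m a w ≤ t * m a y + (1 - t) * m a y' := by
  have hVlt : 0 < (vB E).real univ := ENNReal.toReal_pos
    (isOpen_univ.measure_pos _ univ_nonempty).ne' (measure_ne_top _ _)
  have hμV : μ.real univ = (vB E).real univ := by
    rw [measureReal_def, measureReal_def, hmass, vB_apply, image_univ, Subtype.range_coe,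
      volume_closedBall_eq_ball]
  have hne : K.Nonempty := by
    by_contra h
    rw [Set.not_nonempty_iff_eq_empty] at h
    rw [h, compl_empty] at hμK
    rw [hμK] at hmass
    exact (measure_ball_pos volume (0 : E) one_pos).ne hmass
  set V := (vB E).real univ
  have hGc : ∀ a, Continuous (G a) := fun a => hG.comp (.prodMk_right a)
  obtain ⟨L₀, hL₀⟩ := ((isCompact_closedBall (0 : E) R).prod hK).exists_bound_of_continuousOn
    hG.continuousOn
  set L := max L₀ 0
  have hL : ∀ a ∈ closedBall (0 : E) R, ∀ x ∈ K, ‖G a x‖ ≤ L := fun a ha x hx =>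
    (hL₀ (a, x) ⟨ha, hx⟩).trans (le_max_left _ _)
  have hL0 : 0 ≤ L := le_max_right _ _
  have hmemK : ∀ᵐ x ∂μ, x ∈ K := mem_ae_iff.2 hμK
  have hint : ∀ a ψ, Integrable (fun x => phi ψ (G a x)) μ := fun a ψ =>
    integrable_comp_compact μ hK hμK ((lipschitz_phi ψ).continuous.comp (hGc a))
  let En : E → (Bl E →ᵇ ℝ) → ℝ := fun a ψ => energy μ η (G a) ψ
  -- feasible set
  set C := L + (2 * L + η) / η
  let S : Set (Bl E →ᵇ ℝ) := {ψ | (∀ y y', |ψ y - ψ y'| ≤ L * dist y y') ∧ |ψ default| ≤ C}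
  have hSc : IsCompact S := by
    refine BoundedContinuousFunction.arzela_ascoli₂ (Icc (-(C + 2 * L)) (C + 2 * L))
      isCompact_Icc S ?_ (fun ψ y hψ => ?_) ?_
    · rw [show S = (⋂ y, ⋂ y', {ψ : Bl E →ᵇ ℝ | |ψ y - ψ y'| ≤ L * dist y y'}) ∩
        {ψ | |ψ default| ≤ C} by ext; simp [S]]
      exact (isClosed_iInter fun y => isClosed_iInter fun y' =>
        isClosed_le (by fun_prop) continuous_const).inter
        (isClosed_le (by fun_prop) continuous_const)
    · have h2 : dist y (default : Bl E) ≤ 2 := by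
        show dist (y : E) 0 ≤ 2
        rw [dist_zero_right]; linarith [y.norm_le]
      have h3 := (hψ.1 y default).trans (mul_le_mul_of_nonneg_left h2 hL0)
      constructor <;> linarith [abs_le.1 h3, abs_le.1 hψ.2]
    · refine (LipschitzWith.uniformEquicontinuous _ L.toNNReal fun ψ => ?_).equicontinuous
      exact LipschitzWith.of_dist_le_mul fun y y' => by
        rw [Real.dist_eq, Real.coe_toNNReal _ hL0]; exact ψ.2.1 y y'
  have hzero : (0 : Bl E →ᵇ ℝ) ∈ S := ⟨fun y y' => by simp; positivity, by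
    simp only [BoundedContinuousFunction.coe_zero, Pi.zero_apply, abs_zero, C]; positivity⟩
  have : CompactSpace S := isCompact_iff_compactSpace.1 hSc
  have : CompactSpace (closedBall (0 : E) R) :=
    isCompact_iff_compactSpace.1 (isCompact_closedBall _ _)
  have hEn : Continuous fun q : closedBall (0 : E) R × S => En q.1 q.2 := by
    refine Continuous.add ?_ ?_
    · have := continuous_parametric_integral_of_continuous (μ := μ) (s := K)
        (f := fun (q : closedBall (0 : E) R × S) x => phi (q.2 : Bl E →ᵇ ℝ) (G q.1 x))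
        (continuous_phi.comp ((continuous_subtype_val.comp (continuous_snd.comp continuous_fst)).prodMk
          (hG.comp ((continuous_subtype_val.comp (continuous_fst.comp continuous_fst)).prodMk
            continuous_snd)))) hK
      rwa [Measure.restrict_eq_self_of_ae_mem hmemK] at this
    · have := continuous_parametric_integral_of_continuous (μ := vB E) (s := univ)
        (f := fun (q : closedBall (0 : E) R × S) y => Gf η ((q.2 : Bl E →ᵇ ℝ) y))
        ((continuous_Gf η).comp (ContinuousEval.continuous_eval.comp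
          ((continuous_subtype_val.comp (continuous_snd.comp continuous_fst)).prodMk
            continuous_snd))) isCompact_univ
      rwa [Measure.restrict_univ] at this
  -- comparison with the double conjugate
  have hdual : ∀ (a : closedBall (0 : E) R) ψ, ∃ χ : Bl E →ᵇ ℝ, En a χ ≤ En a ψ ∧
      (En a χ ≤ En a 0 → χ ∈ S) ∧
      (∀ (y y' : Bl E) (c : ℝ), (∀ x ∈ K, ⟪G a x, (y' : E) - y⟫ ≤ c) → χ y' ≤ χ y + c) ∧
      (∀ (y y' w : Bl E) (t : ℝ), 0 ≤ t → t ≤ 1 → (w : E) = t • (y : E) + (1 - t) • (y' : E) →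
        χ w ≤ t * χ y + (1 - t) * χ y') := by
    intro a ψ
    obtain ⟨χ, hle, hphi, hdec, hconv⟩ := exists_dual ψ hK hne (hGc a)
    have hlip : ∀ y y', |χ y - χ y'| ≤ L * dist y y' := fun y y' => by
      have h : ∀ y y' : Bl E, χ y' ≤ χ y + L * dist y y' := fun y y' =>
        hdec y y' _ fun x hx => (real_inner_le_norm _ _).trans (by
          rw [Subtype.dist_eq, dist_eq_norm, norm_sub_rev (y : E)]
          exact mul_le_mul_of_nonneg_right (hL a a.2 x hx) (norm_nonneg _))
      rw [abs_le]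
      constructor <;> linarith [h y y', dist_comm y y' ▸ h y' y]
    refine ⟨χ, add_le_add (integral_mono_ae (hint _ _) (hint _ _) (hmemK.mono hphi))
      (integral_mono (integrable_Gf η χ) (integrable_Gf η ψ) fun y => Gf_mono h0.le h1.le (hle y)),
      fun hcmp => ⟨hlip, ?_⟩, hdec, hconv⟩
    set c := χ default
    have e1 : -c * V ≤ ∫ x, phi χ (G a x) ∂μ := by
      rw [← hμV, mul_comm, ← smul_eq_mul, ← integral_const]
      refine integral_mono (integrable_const _) (hint _ _) fun x => ?_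
      simpa [show ((default : Bl E) : E) = 0 from rfl] using le_phi χ (G a x) default
    have e2 : (c - L + η * |c - L|) * V ≤ ∫ y, Gf η (χ y) ∂vB E := by
      rw [mul_comm, ← smul_eq_mul, ← integral_const]
      refine integral_mono (integrable_const _) (integrable_Gf η χ) fun y => ?_
      refine (le_Gf h0.le (c - L)).trans (Gf_mono h0.le h1.le ?_)
      have h2 : dist y (default : Bl E) ≤ 1 := by
        show dist (y : E) 0 ≤ 1
        rw [dist_zero_right]; exact y.norm_le
      linarith [(abs_le.1 ((hlip y default).trans (mul_le_of_le_one_right hL0 h2))).1]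
    have e3 : En a 0 ≤ (L + η) * V := by
      have i1 : ∫ x, phi (0 : Bl E →ᵇ ℝ) (G a x) ∂μ ≤ L * V := by
        rw [← hμV, mul_comm, ← smul_eq_mul, ← integral_const]
        refine integral_mono_ae (hint _ _) (integrable_const _) (hmemK.mono fun x hx => ?_)
        refine phi_le _ _ fun y => ?_
        simpa using (real_inner_le_norm _ _).trans
          ((mul_le_of_le_one_right (norm_nonneg _) y.norm_le).trans (hL a a.2 x hx))
      have i2 : ∫ y, Gf η ((0 : Bl E →ᵇ ℝ) y) ∂vB E = η * V := by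
        simp [Gf_zero, V, mul_comm]
      simp only [En, energy] at *
      linarith
    have e4 : (-L + η * |c - L|) * V ≤ (L + η) * V := by
      simp only [En, energy] at hcmp e3
      linarith
    have e5 : |c - L| ≤ (2 * L + η) / η :=
      (le_div_iff₀ h0).2 (by linarith [le_of_mul_le_mul_right e4 hVlt])
    calc |c| = |(c - L) + L| := by ring_nf
      _ ≤ |c - L| + |L| := abs_add_le _ _
      _ ≤ C := by rw [abs_of_nonneg hL0]; simp only [C]; linarith
  -- the minimiser
  have hexm : ∀ a : closedBall (0 : E) R, ∃ m : S, ∀ ψ, En a (m : Bl E →ᵇ ℝ) ≤ En a ψ := by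
    intro a
    obtain ⟨m, -, hm⟩ := (isCompact_univ (X := S)).exists_isMinOn ⟨⟨0, hzero⟩, mem_univ _⟩
      (hEn.comp (.prodMk_right a)).continuousOn
    refine ⟨m, fun ψ => ?_⟩
    obtain ⟨χ, hle, hin, -, -⟩ := hdual a ψ
    refine le_trans ?_ hle
    rcases le_or_gt (En a χ) (En a 0) with h | h
    · exact hm (mem_univ (⟨χ, hin h⟩ : S))
    · exact (hm (mem_univ (⟨0, hzero⟩ : S))).trans h.le
  choose m hm using hexm
  have huniq : ∀ (a : closedBall (0 : E) R) ψ, En a ψ ≤ En a (m a : Bl E →ᵇ ℝ) → ψ = m a := by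
    intro a ψ hle
    by_contra hne'
    obtain ⟨y₀, hy₀⟩ : ∃ y, ψ y ≠ (m a : Bl E →ᵇ ℝ) y := by
      by_contra h
      exact hne' (BoundedContinuousFunction.ext fun y => not_not.1 fun hy => h ⟨y, hy⟩)
    set ψ' : Bl E →ᵇ ℝ := (m a : Bl E →ᵇ ℝ)
    set mid : Bl E →ᵇ ℝ := (1 / 2 : ℝ) • (ψ + ψ')
    have hmid : ∀ y, mid y = (ψ y + ψ' y) / 2 := fun y => by simp [mid]; ring
    have i1 : ∫ x, phi mid (G a x) ∂μ ≤
        ((∫ x, phi ψ (G a x) ∂μ) + ∫ x, phi ψ' (G a x) ∂μ) / 2 := by
      rw [← integral_add (hint _ _) (hint _ _), ← integral_div]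
      refine integral_mono (hint _ _) (((hint _ _).add (hint _ _)).div_const 2) fun x => ?_
      refine phi_le _ _ fun y => ?_
      rw [hmid]
      linarith [le_phi ψ (G a x) y, le_phi ψ' (G a x) y]
    have i2 : 0 < ∫ y, ((Gf η (ψ y) + Gf η (ψ' y)) / 2 - Gf η (mid y)) ∂vB E := by
      have hc : Continuous fun y => (Gf η (ψ y) + Gf η (ψ' y)) / 2 - Gf η (mid y) :=
        (((continuous_Gf η).comp ψ.continuous).add
          ((continuous_Gf η).comp ψ'.continuous)).div_const 2 |>.sub
          ((continuous_Gf η).comp mid.continuous)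
      exact hc.integral_pos_of_hasCompactSupport_nonneg_nonzero (HasCompactSupport.of_compactSpace _)
        (fun y => sub_nonneg.2 (hmid y ▸ Gf_midpoint_le h0 _ _))
        (x := y₀) (sub_ne_zero.2 (hmid y₀ ▸ (Gf_midpoint_lt h0 hy₀).ne'))
    rw [show (∫ y, ((Gf η (ψ y) + Gf η (ψ' y)) / 2 - Gf η (mid y)) ∂vB E) =
        (∫ y, (Gf η (ψ y) + Gf η (ψ' y)) / 2 ∂vB E) - ∫ y, Gf η (mid y) ∂vB E from
        integral_sub (((integrable_Gf η ψ).add (integrable_Gf η ψ')).div_const 2)
          (integrable_Gf η mid),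
      integral_div, integral_add (integrable_Gf η ψ) (integrable_Gf η ψ')]
      at i2
    have := hm a mid
    simp only [En, energy] at this hle
    linarith
  have hmc : Continuous m :=
    continuous_argmin hEn m (fun a s => hm a s) fun a s h => Subtype.ext (huniq a s h)
  have hprop : ∀ a : closedBall (0 : E) R, (∀ (y y' : Bl E) (c : ℝ),
      (∀ x ∈ K, ⟪G a x, (y' : E) - y⟫ ≤ c) →
        (m a : Bl E →ᵇ ℝ) y' ≤ (m a : Bl E →ᵇ ℝ) y + c) ∧
      ∀ (y y' w : Bl E) (t : ℝ), 0 ≤ t → t ≤ 1 → (w : E) = t • (y : E) + (1 - t) • (y' : E) →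
        (m a : Bl E →ᵇ ℝ) w ≤ t * (m a : Bl E →ᵇ ℝ) y + (1 - t) * (m a : Bl E →ᵇ ℝ) y' := by
    intro a
    obtain ⟨χ, hle, -, h3, h4⟩ := hdual a (m a)
    rw [huniq a χ hle] at h3 h4
    exact ⟨h3, h4⟩
  exact ⟨fun a => (m a : Bl E →ᵇ ℝ), continuous_subtype_val.comp hmc, hm, hprop⟩

end Energy

omit [MeasurableSpace E] [BorelSpace E] in
/-- Some parameter at which the minimiser takes its least value at the origin. -/
theorem exists_base {K : Set X} (hK : IsCompact K) (hne : K.Nonempty)
    (G : E → X → E) (hG : Continuous fun q : E × X => G q.1 q.2)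
    {R : ℝ} (hR : 0 < R) (hout : ∀ a : E, ‖a‖ = R → ∀ x ∈ K, ⟪G a x, a⟫ < 0)
    (m : closedBall (0 : E) R → (Bl E →ᵇ ℝ)) (hmc : Continuous m)
    (hprop : ∀ a : closedBall (0 : E) R, (∀ (y y' : Bl E) (c : ℝ),
        (∀ x ∈ K, ⟪G a x, (y' : E) - y⟫ ≤ c) → m a y' ≤ m a y + c) ∧
      ∀ (y y' w : Bl E) (t : ℝ), 0 ≤ t → t ≤ 1 → (w : E) = t • (y : E) + (1 - t) • (y' : E) →
        m a w ≤ t * m a y + (1 - t) * m a y') :
    ∃ a : closedBall (0 : E) R, ∀ y, m a default ≤ m a y := by
  have hGc : ∀ a, Continuous (G a) := fun a => hG.comp (.prodMk_right a)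
  obtain ⟨L₀, hL₀⟩ := ((isCompact_closedBall (0 : E) R).prod hK).exists_bound_of_continuousOn
    hG.continuousOn
  set L := max L₀ 0
  have hL : ∀ a ∈ closedBall (0 : E) R, ∀ x ∈ K, ‖G a x‖ ≤ L := fun a ha x hx =>
    (hL₀ (a, x) ⟨ha, hx⟩).trans (le_max_left _ _)
  have hL0 : 0 ≤ L := le_max_right _ _
  -- the base parameter
  let F₂ : closedBall (0 : E) R × Bl E → ℝ :=
    fun q => m q.1 q.2 + ‖(q.2 : E)‖ ^ 2 / 2
  have hF₂ : Continuous F₂ :=
    (ContinuousEval.continuous_eval.comp
      ((hmc.comp continuous_fst).prodMk continuous_snd)).add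
      (by fun_prop)
  have hexy : ∀ a, ∃ y : Bl E, ∀ y', F₂ (a, y) ≤ F₂ (a, y') := fun a => by
    obtain ⟨y, -, hy⟩ := (isCompact_univ (X := Bl E)).exists_isMinOn univ_nonempty
      (hF₂.comp (.prodMk_right a)).continuousOn
    exact ⟨y, fun y' => hy (mem_univ y')⟩
  choose ym hym using hexy
  have hyu : ∀ a y, F₂ (a, y) ≤ F₂ (a, ym a) → y = ym a := by
    intro a y hle
    have hw : (1 / 2 : ℝ) • (y : E) + (1 - 1 / 2 : ℝ) • (ym a : E) ∈ closedBall (0 : E) 1 :=
      (convex_closedBall (0 : E) 1) y.2 (ym a).2 (by norm_num) (by norm_num) (by norm_num)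
    have h2 := (hprop a).2 y (ym a) ⟨_, hw⟩ (1 / 2) (by norm_num) (by norm_num) rfl
    have h3 := hym a ⟨_, hw⟩
    have h4 : ‖(1 / 2 : ℝ) • (y : E) + (1 - 1 / 2 : ℝ) • (ym a : E)‖ ^ 2 =
        (‖(y : E)‖ ^ 2 + ‖(ym a : E)‖ ^ 2) / 2 - ‖(y : E) - ym a‖ ^ 2 / 4 := by
      rw [norm_add_sq_real, norm_sub_sq_real, norm_smul, norm_smul, real_inner_smul_left,
        real_inner_smul_right]
      norm_num
      ring
    simp only [F₂] at hle h3
    rw [h4] at h3
    have h5 : ‖(y : E) - ym a‖ ^ 2 ≤ 0 := by linarith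
    exact Subtype.ext (sub_eq_zero.1 (norm_eq_zero.1 (pow_eq_zero_iff two_ne_zero |>.1
      (le_antisymm h5 (sq_nonneg _)))))
  have hyc : Continuous ym := continuous_argmin hF₂ ym hym hyu
  classical
  let yE : E → E := fun a => if h : a ∈ closedBall (0 : E) R then (ym ⟨a, h⟩ : E) else 0
  obtain ⟨a, ha, hya⟩ := exists_zero_of_outward hR yE (by
    rw [continuousOn_iff_continuous_restrict]
    convert continuous_subtype_val.comp hyc using 1
    ext a
    simp only [Set.restrict_apply, yE, dif_pos a.2, Subtype.coe_eta, Function.comp_apply]) (by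
    intro a ha
    have hmem : a ∈ closedBall (0 : E) R := mem_closedBall_zero_iff.2 ha.le
    simp only [yE, dif_pos hmem]
    obtain ⟨x₀, hx₀, hmax⟩ := hK.exists_isMaxOn hne
      (show Continuous fun x => ⟪G a x, a⟫ from (hGc a).inner continuous_const).continuousOn
    set y := ym ⟨a, hmem⟩
    set u := R⁻¹ • a with hu
    have hun : ‖u‖ = 1 := by
      rw [hu, norm_smul, norm_inv, Real.norm_of_nonneg hR.le, ha, inv_mul_cancel₀ hR.ne']
    set c := -(R⁻¹ * ⟪G a x₀, a⟫)
    have hc : 0 < c := neg_pos.2 (mul_neg_of_pos_of_neg (inv_pos.2 hR) (hout a ha x₀ hx₀))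
    by_contra hyle
    rw [not_lt] at hyle
    have hyu0 : ⟪(y : E), u⟫ ≤ 0 := by
      rw [hu, real_inner_smul_right]
      exact mul_nonpos_of_nonneg_of_nonpos (by positivity) hyle
    set t := min (c / (2 * (2 * L + 1))) 1
    have ht : 0 < t := lt_min (by positivity) one_pos
    have ht1 : t ≤ 1 := min_le_right _ _
    have htc : t * (2 * L + 1) < c := by
      have := mul_le_mul_of_nonneg_right (min_le_left (c / (2 * (2 * L + 1))) 1)
        (show (0 : ℝ) ≤ 2 * L + 1 by positivity)
      calc t * (2 * L + 1) ≤ c / (2 * (2 * L + 1)) * (2 * L + 1) := this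
        _ = c / 2 := by field_simp
        _ < c := by linarith
    set w := (y : E) + t • u
    have hw2 : ‖w‖ ^ 2 ≤ ‖(y : E)‖ ^ 2 + t ^ 2 := by
      simp only [w]
      rw [norm_add_sq_real, norm_smul, hun, real_inner_smul_right, Real.norm_of_nonneg ht.le]
      nlinarith
    have hy1 : ‖(y : E)‖ ^ 2 ≤ 1 := pow_le_one₀ (norm_nonneg _) y.norm_le
    have hs0 : 0 ≤ 1 - t ^ 2 := by nlinarith
    have hy2 : ‖(1 - t ^ 2) • w‖ ^ 2 ≤ ‖(y : E)‖ ^ 2 + t ^ 2 ∧ ‖(1 - t ^ 2) • w‖ ^ 2 ≤ 1 := by
      rw [norm_smul, mul_pow, Real.norm_of_nonneg hs0]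
      have h2 := mul_le_mul_of_nonneg_left hw2 (sq_nonneg (1 - t ^ 2))
      have h3 : (1 - t ^ 2) ^ 2 ≤ 1 := by nlinarith
      constructor
      · nlinarith
      · nlinarith
    have hy1' : ‖(1 - t ^ 2) • w‖ ≤ 1 := by nlinarith [norm_nonneg ((1 - t ^ 2) • w)]
    set y' : Bl E := ⟨_, mem_closedBall_zero_iff.2 hy1'⟩
    have hwn : ‖w‖ ≤ 2 := by
      have := norm_add_le (y : E) (t • u)
      rw [norm_smul, hun, Real.norm_of_nonneg ht.le] at this
      linarith [y.norm_le]
    have hdec := (hprop ⟨a, hmem⟩).1 y y' (-(t * c) + 2 * L * t ^ 2) fun x hx => by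
      have e : ((y' : E) - y) = t • u - t ^ 2 • w := by
        simp only [y', w, sub_smul, one_smul]; abel
      rw [e, inner_sub_right]
      simp only [hu, real_inner_smul_right]
      have e1 : R⁻¹ * ⟪G a x, a⟫ ≤ -c := by
        simp only [c, neg_neg]
        exact mul_le_mul_of_nonneg_left (hmax hx) (by positivity)
      have e2 : -⟪G a x, w⟫ ≤ L * 2 := by
        have := abs_real_inner_le_norm (G a x) w
        linarith [(abs_le.1 this).1,
          mul_le_mul (hL a hmem x hx) hwn (norm_nonneg _) hL0]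
      nlinarith [mul_le_mul_of_nonneg_left e1 ht.le, mul_le_mul_of_nonneg_left e2 (sq_nonneg t)]
    have hmin := hym ⟨a, hmem⟩ y'
    simp only [F₂] at hmin
    change _ ≤ _ + ‖(1 - t ^ 2) • w‖ ^ 2 / 2 at hmin
    nlinarith [hy2.1])
  set aa : closedBall (0 : E) R := ⟨a, ha⟩
  have hy0 : ym aa = default := by
    simp only [yE, dif_pos ha] at hya
    exact Subtype.ext hya
  set ψ : Bl E →ᵇ ℝ := m aa
  have hψmin : ∀ y, ψ default ≤ ψ y := by
    intro y
    refine le_of_forall_pos_le_add fun e he => ?_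
    set t := min e 1
    have ht : 0 < t := lt_min he one_pos
    have hw : t • (y : E) ∈ closedBall (0 : E) 1 := mem_closedBall_zero_iff.2 (by
      rw [norm_smul, Real.norm_of_nonneg ht.le]
      exact mul_le_one₀ (min_le_right _ _) (norm_nonneg _) y.norm_le)
    have h2 := (hprop aa).2 y default ⟨_, hw⟩ t ht.le (min_le_right _ _)
      (by simp [show ((default : Bl E) : E) = 0 from rfl])
    have h3 := hym aa ⟨_, hw⟩
    rw [hy0] at h3
    simp only [F₂, show ((default : Bl E) : E) = 0 from rfl, smul_zero, add_zero, norm_zero,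
      ne_eq, OfNat.ofNat_ne_zero, not_false_eq_true, zero_pow, zero_div, norm_smul,
      Real.norm_of_nonneg ht.le] at h3
    have h4 : (t * ‖(y : E)‖) ^ 2 ≤ t * e := by
      have : t ≤ e := min_le_left _ _
      have := pow_le_one₀ (n := 2) (norm_nonneg _) y.norm_le
      rw [mul_pow]
      nlinarith
    nlinarith
  exact ⟨aa, hψmin⟩

section Energy

variable [MeasurableSpace X] [BorelSpace X] (μ : Measure X)

/-- The first variation in a nonnegative direction. -/
theorem integral_comp_gradient_le [IsFiniteMeasure μ] {K : Set X} (hK : IsCompact K)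
    (hμK : μ Kᶜ = 0) {g : X → E} (hg : Continuous g) {η : ℝ} (h0 : 0 ≤ η) (ψ : Bl E →ᵇ ℝ)
    (hm : ∀ ψ', energy μ η g ψ ≤ energy μ η g ψ')
    (hdiff : ∀ᵐ x ∂μ, DifferentiableAt ℝ (phi ψ) (g x))
    (h : Bl E →ᵇ ℝ) (hh : ∀ y, 0 ≤ h y) :
    ∫ x, h (⟨gradient (phi ψ) (g x), mem_closedBall_zero_iff.2 (norm_gradient_le ψ _)⟩ : Bl E) ∂μ
      ≤ (1 + η) * ∫ y, h y ∂vB E := by
  let T : E → Bl E := fun z =>
    ⟨gradient (phi ψ) z, mem_closedBall_zero_iff.2 (norm_gradient_le ψ z)⟩
  change ∫ x, h (T (g x)) ∂μ ≤ _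
  have hint : ∀ ψ', Integrable (fun x => phi ψ' (g x)) μ := fun ψ' =>
    integrable_comp_compact μ hK hμK ((lipschitz_phi ψ').continuous.comp hg)
  let e : ℕ → ℝ := fun n => 1 / ((n : ℝ) + 1)
  have he : ∀ n, 0 < e n := fun n => by positivity
  let q : ℕ → X → ℝ := fun n x => (phi ψ (g x) - phi (ψ + e n • h) (g x)) / e n
  have hqi : ∀ n, Integrable (q n) μ := fun n => ((hint _).sub (hint _)).div_const _
  have hup : ∀ n z, phi (ψ + e n • h) z ≤ phi ψ z := fun n z => phi_le _ _ fun y => by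
    simp only [BoundedContinuousFunction.coe_add, Pi.add_apply,
      BoundedContinuousFunction.coe_smul, smul_eq_mul]
    nlinarith [le_phi ψ z y, mul_nonneg (he n).le (hh y)]
  have hqb : ∀ n x, |q n x| ≤ ‖h‖ := fun n x => by
    rw [abs_of_nonneg (div_nonneg (sub_nonneg.2 (hup n _)) (he n).le), div_le_iff₀ (he n)]
    have := phi_le_phi_add ψ (ψ + e n • h) (g x) (g x)
    rw [dist_eq_norm, sub_self, norm_zero, sub_add_cancel_left, norm_neg, norm_smul,
      Real.norm_of_nonneg (he n).le] at this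
    linarith
  have henergy : ∀ n, ∫ x, q n x ∂μ ≤ (1 + η) * ∫ y, h y ∂vB E := by
    intro n
    have h2 := hm (ψ + e n • h)
    have i2 : ∫ y, Gf η ((ψ + e n • h) y) ∂vB E ≤
        (∫ y, Gf η (ψ y) ∂vB E) + (1 + η) * e n * ∫ y, h y ∂vB E := by
      rw [← integral_const_mul, ← integral_add (integrable_Gf η ψ)
        ((h.integrable _).const_mul _)]
      refine integral_mono (integrable_Gf η _)
        ((integrable_Gf η ψ).add ((h.integrable _).const_mul _)) fun y => ?_
      have := Gf_sub_le h0 (le_add_of_nonneg_right (mul_nonneg (he n).le (hh y)) :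
        ψ y ≤ ψ y + e n * h y)
      simp only [BoundedContinuousFunction.coe_add, Pi.add_apply,
        BoundedContinuousFunction.coe_smul, smul_eq_mul]
      linarith
    simp only [energy] at h2
    rw [integral_div, integral_sub (hint _) (hint _), div_le_iff₀ (he n)]
    linarith
  have hlim : ∀ᵐ x ∂μ, Tendsto (fun n => q n x) atTop (𝓝 (h (T (g x)))) := by
    filter_upwards [hdiff] with x hx
    set z := g x
    obtain ⟨y₁, hy₁⟩ := exists_argmax ψ z
    have hT : ∀ y : Bl E, phi ψ z = ⟪z, (y : E)⟫ - ψ y → y = T z := fun y hy =>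
      argmax_eq_gradient hy hx
    have hy₁T := hT y₁ hy₁
    choose yn hyn using fun n => exists_argmax (ψ + e n • h) z
    simp only [BoundedContinuousFunction.coe_add, Pi.add_apply,
      BoundedContinuousFunction.coe_smul, smul_eq_mul] at hyn
    have he0 : Tendsto e atTop (𝓝 0) := tendsto_one_div_add_atTop_nhds_zero_nat
    have hF : Tendsto (fun n => ⟪z, (yn n : E)⟫ - ψ (yn n)) atTop (𝓝 (phi ψ z)) := by
      have hlo : Tendsto (fun n => phi ψ z - e n * (2 * ‖h‖)) atTop (𝓝 (phi ψ z)) := by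
        simpa using (he0.mul_const (2 * ‖h‖)).const_sub (phi ψ z)
      refine tendsto_of_tendsto_of_tendsto_of_le_of_le hlo tendsto_const_nhds (fun n => ?_)
        fun n => le_phi ψ z (yn n)
      have := phi_le_phi_add ψ (ψ + e n • h) z z
      rw [dist_eq_norm, sub_self, norm_zero, sub_add_cancel_left, norm_neg, norm_smul,
        Real.norm_of_nonneg (he n).le] at this
      nlinarith [hyn n, mul_le_mul_of_nonneg_left (hh (yn n)) (he n).le, he n, norm_nonneg h]
    have hyT : Tendsto yn atTop (𝓝 (T z)) := by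
      refine isCompact_univ.tendsto_nhds_of_unique_mapClusterPt (Eventually.of_forall
        fun n => mem_univ _) fun p _ hp => hT p ?_
      have hc : MapClusterPt (⟪z, (p : E)⟫ - ψ p) atTop fun n => ⟪z, (yn n : E)⟫ - ψ (yn n) :=
        hp.continuousAt_comp (f := fun y : Bl E => ⟪z, (y : E)⟫ - ψ y)
          (by fun_prop : Continuous fun y : Bl E => ⟪z, (y : E)⟫ - ψ y).continuousAt
      exact (eq_of_nhds_neBot (hc.clusterPt.neBot.mono (inf_le_inf_left _ hF))).symm
    refine tendsto_of_tendsto_of_tendsto_of_le_of_le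
      ((h.continuous.tendsto _).comp hyT) tendsto_const_nhds (fun n => ?_) fun n => ?_
    · simp only [Function.comp_apply, q, le_div_iff₀ (he n)]
      nlinarith [le_phi ψ z (yn n), hyn n]
    · simp only [q, div_le_iff₀ (he n)]
      have := le_phi (ψ + e n • h) z y₁
      simp only [BoundedContinuousFunction.coe_add, Pi.add_apply,
        BoundedContinuousFunction.coe_smul, smul_eq_mul] at this
      rw [← hy₁T]
      nlinarith
  refine le_of_tendsto (tendsto_integral_of_dominated_convergence (fun _ => ‖h‖)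
    (fun n => (hqi n).1) (integrable_const _)
    (fun n => ae_of_all _ fun x => (Real.norm_eq_abs _).trans_le (hqb n x)) hlim)
    (Eventually.of_forall henergy)

theorem exists_potential [IsFiniteMeasure μ] {K : Set X} (hK : IsCompact K) (hμK : μ Kᶜ = 0)
    (hmass : μ univ = volume (ball (0 : E) 1))
    (G : E → X → E) (hG : Continuous fun q : E × X => G q.1 q.2)
    (hac : ∀ a, μ.map (G a) ≪ volume)
    {R : ℝ} (hR : 0 < R) (hout : ∀ a : E, ‖a‖ = R → ∀ x ∈ K, ⟪G a x, a⟫ < 0)
    {η : ℝ} (h0 : 0 < η) (h1 : η < 1) :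
    ∃ a ∈ closedBall (0 : E) R, ∃ φ : E → ℝ, LipschitzWith 1 φ ∧ (∀ y, ∃ p, Subgr φ y p) ∧
      Subgr φ 0 0 ∧ ∀ C : Set E, IsClosed C →
        μ.map (G a) {y | gradient φ y ∈ C} ≤ ENNReal.ofReal (1 + η) * volume C := by
  have hne : K.Nonempty := by
    by_contra h
    rw [Set.not_nonempty_iff_eq_empty] at h
    rw [h, compl_empty] at hμK
    rw [hμK] at hmass
    exact (measure_ball_pos volume (0 : E) one_pos).ne hmass
  have hGc : ∀ a, Continuous (G a) := fun a => hG.comp (.prodMk_right a)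
  obtain ⟨m, hmc, hm, hprop⟩ := exists_minimizer μ hK hμK hmass G hG R h0 h1
  obtain ⟨⟨a, ha⟩, hψmin⟩ := exists_base hK hne G hG hR hout m hmc hprop
  set ψ := m ⟨a, ha⟩
  refine ⟨a, ha, phi ψ, lipschitz_phi ψ, exists_subgr ψ, ?_, fun C hC => ?_⟩
  · refine subgr_of_argmax (y := (default : Bl E)) (le_antisymm (phi_le _ _ fun y => ?_) (le_phi _ _ _))
    simpa [show ((default : Bl E) : E) = 0 from rfl] using hψmin y
  let T : E → Bl E := fun z =>
    ⟨gradient (phi ψ) z, mem_closedBall_zero_iff.2 (norm_gradient_le ψ z)⟩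
  have hTm : Measurable T :=
    ((InnerProductSpace.toDual ℝ E).symm.continuous.measurable.comp
      (measurable_fderiv ℝ (phi ψ))).subtype_mk
  have hGm := (hGc a).measurable
  have hTG : Measurable fun x => T (G a x) := hTm.comp hGm
  have hdiff : ∀ᵐ x ∂μ, DifferentiableAt ℝ (phi ψ) (G a x) :=
    ae_of_ae_map hGm.aemeasurable ((hac a).ae_le (lipschitz_phi ψ).ae_differentiableAt)
  have hkey := integral_comp_gradient_le μ hK hμK (hGc a) h0.le ψ (hm ⟨a, ha⟩) hdiff
  -- closed sets
  set F : Set (Bl E) := Subtype.val ⁻¹' C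
  have hFc : IsClosed F := hC.preimage continuous_subtype_val
  set ν := μ.map fun x => T (G a x)
  have hpos : ∀ n : ℕ, (0 : ℝ) < 1 / (n + 1) := fun n => by positivity
  have hreal : ν.real F ≤ (1 + η) * (vB E).real F := by
    refine le_of_tendsto_of_tendsto
      (tendsto_integral_thickenedIndicator_of_isClosed ν hFc hpos
        tendsto_one_div_add_atTop_nhds_zero_nat)
      ((tendsto_integral_thickenedIndicator_of_isClosed (vB E) hFc hpos
        tendsto_one_div_add_atTop_nhds_zero_nat).const_mul (1 + η))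
      (Eventually.of_forall fun n => ?_)
    dsimp only
    rw [integral_map hTG.aemeasurable (by fun_prop)]
    exact hkey (BoundedContinuousFunction.mkOfCompact
      ⟨fun y => (thickenedIndicator (hpos n) F y : ℝ), by fun_prop⟩) fun y => NNReal.coe_nonneg _
  have hEQ : μ.map (G a) {y | gradient (phi ψ) y ∈ C} = ν F := by
    rw [Measure.map_apply hTG hFc.measurableSet, show {y | gradient (phi ψ) y ∈ C} = T ⁻¹' F from rfl,
      Measure.map_apply hGm (hTm hFc.measurableSet)]
    rfl
  rw [hEQ]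
  calc ν F = ENNReal.ofReal (ν.real F) := (ENNReal.ofReal_toReal (measure_ne_top _ _)).symm
    _ ≤ ENNReal.ofReal ((1 + η) * (vB E).real F) := ENNReal.ofReal_le_ofReal hreal
    _ = ENNReal.ofReal (1 + η) * vB E F := by
        rw [ENNReal.ofReal_mul (by linarith), measureReal_def,
          ENNReal.ofReal_toReal (measure_ne_top _ _)]
    _ ≤ _ := by
        gcongr
        rw [vB_apply]
        exact measure_mono (image_preimage_subset _ _)

end Energy

end Vale.Agent.P219
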