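import Mathlib
import Vale.Agent.P219.TransportPhi

/-!
P219 (transport module): almost everywhere first order expansion of the subdifferential of a
Lipschitz convex function, through the proximal map.
-/

open MeasureTheory Metric Set Filter Topology
open scoped RealInnerProductSpace ENNReal

namespace Vale.Agent.P219

variable {E : Type*} [NormedAddCommGroup E] [InnerProductSpace ℝ E] {φ : E → ℝ}

lemma Subgr.norm_le_one {x p : E} (hp : Subgr φ x p) (hlip : LipschitzWith 1 φ) : ‖p‖ ≤ 1 := by
  have h := hp (x + p)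
  have h2 := (le_abs_self _).trans ((Real.dist_eq _ _).symm.trans_le (hlip.dist_le_mul (x + p) x))
  rw [add_sub_cancel_left, real_inner_self_eq_norm_sq] at h
  simp only [NNReal.coe_one, one_mul, dist_eq_norm, add_sub_cancel_left] at h2
  nlinarith [norm_nonneg p]

lemma Subgr.inner_nonneg {x p x' p' : E} (hp : Subgr φ x p) (hp' : Subgr φ x' p') :
    0 ≤ ⟪p - p', x - x'⟫ := by
  have h1 := hp x'
  have h2 := hp' x
  simp only [inner_sub_left, inner_sub_right] at h1 h2 ⊢
  linarith

lemma Subgr.segment {x p p' : E} (hp : Subgr φ x p) (hp' : Subgr φ x p') {t : ℝ} (h0 : 0 ≤ t)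
    (h1 : t ≤ 1) : Subgr φ x ((1 - t) • p + t • p') := fun w => by
  have e1 := mul_le_mul_of_nonneg_left (hp w) (sub_nonneg.2 h1)
  have e2 := mul_le_mul_of_nonneg_left (hp' w) h0
  rw [inner_add_left, real_inner_smul_left, real_inner_smul_left]
  linarith

variable [FiniteDimensional ℝ E]

lemma exists_prox (hsub : ∀ y, ∃ p, Subgr φ y p) (hlip : LipschitzWith 1 φ) (z : E) :
    ∃ x, Subgr φ x (z - x) := by
  let H : E → ℝ := fun x => φ x + ‖x - z‖ ^ 2 / 2
  obtain ⟨x, -, hx⟩ := (isCompact_closedBall z 3).exists_isMinOn ⟨z, mem_closedBall_self (by norm_num)⟩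
    (show Continuous H from hlip.continuous.add (by fun_prop)).continuousOn
  have hmin : ∀ u, H x ≤ H u := by
    intro u
    by_cases hu : u ∈ closedBall z 3
    · exact hx hu
    · rw [mem_closedBall, not_le] at hu
      refine (hx (mem_closedBall_self (by norm_num : (0 : ℝ) ≤ 3))).trans ?_
      have h2 := (le_abs_self _).trans ((Real.dist_eq _ _).symm.trans_le (hlip.dist_le_mul z u))
      simp only [NNReal.coe_one, one_mul, dist_comm z u] at h2
      simp only [H, sub_self, norm_zero, ← dist_eq_norm, dist_self]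
      nlinarith
  refine ⟨x, fun w => le_of_forall_pos_le_add fun e he => ?_⟩
  set d := w - x
  set t := min 1 (e / (‖d‖ ^ 2 + 1))
  have ht : 0 < t := lt_min one_pos (by positivity)
  obtain ⟨q, hq⟩ := hsub (x + t • d)
  have h1 := hq x
  have h2 := hq w
  have h3 := hmin (x + t • d)
  simp only [H, show x + t • d - z = t • d - (z - x) by abel, norm_sub_rev x z] at h3
  rw [norm_sub_sq_real (t • d) (z - x), norm_smul, Real.norm_of_nonneg ht.le, real_inner_smul_left,
    real_inner_comm (z - x) d] at h3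
  rw [show x - (x + t • d) = -(t • d) by abel, inner_neg_right, real_inner_smul_right] at h1
  rw [show w - (x + t • d) = (1 - t) • d by simp [d, sub_smul]; abel, real_inner_smul_right] at h2
  have h4 : t * ‖d‖ ^ 2 ≤ e := by
    have := mul_le_mul_of_nonneg_right (min_le_right 1 (e / (‖d‖ ^ 2 + 1)))
      (show (0 : ℝ) ≤ ‖d‖ ^ 2 + 1 by positivity)
    rw [div_mul_cancel₀ _ (show (‖d‖ ^ 2 + 1 : ℝ) ≠ 0 by positivity)] at this
    nlinarith
  have h5 : t ≤ 1 := min_le_left _ _
  refine le_of_mul_le_mul_left ?_ ht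
  nlinarith [mul_le_mul_of_nonneg_left h2 ht.le, mul_le_mul_of_nonneg_left h1 (sub_nonneg.2 h5),
    mul_le_mul_of_nonneg_left h4 ht.le]

variable [MeasurableSpace E] [BorelSpace E]

lemma image_null_of_lipschitz {g : E → E} {C : NNReal} (hg : LipschitzWith C g) {s : Set E}
    (hs : volume s = 0) : volume (g '' s) = 0 := by
  set ν := Measure.hausdorffMeasure (X := E) (Module.finrank ℝ E)
  have h1 : ν s = 0 := Measure.absolutelyContinuous_isAddHaarMeasure ν volume hs
  refine Measure.absolutelyContinuous_isAddHaarMeasure volume ν (nonpos_iff_eq_zero.1 ?_)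
  refine (hg.hausdorffMeasure_image_le (Nat.cast_nonneg _) s).trans ?_
  change _ * ν s ≤ 0
  rw [h1, mul_zero]

/-- First order expansion of all subgradients at almost every point. -/
theorem ae_expansion (hsub : ∀ y, ∃ p, Subgr φ y p) (hlip : LipschitzWith 1 φ) :
    ∀ᵐ y : E, ∃ (p : E) (A : E →L[ℝ] E), Subgr φ y p ∧
      ∀ ε > 0, ∀ᶠ h in 𝓝 (0 : E), ∀ q, Subgr φ (y + h) q → ‖q - p - A h‖ ≤ ε * ‖h‖ := by
  choose g hg using exists_prox hsub hlip
  have hgu : ∀ x p, Subgr φ x p → g (x + p) = x := fun x p hp => by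
    have h := (hg (x + p)).inner_nonneg hp
    rw [show x + p - g (x + p) - p = -(g (x + p) - x) by abel, inner_neg_left,
      real_inner_self_eq_norm_sq] at h
    have := norm_eq_zero.1 (pow_eq_zero_iff two_ne_zero |>.1
      (le_antisymm (neg_nonneg.1 h) (sq_nonneg _)))
    exact sub_eq_zero.1 this
  have hg1 : LipschitzWith 1 g := LipschitzWith.of_dist_le_mul fun z z' => by
    have h := (hg z).inner_nonneg (hg z')
    rw [show z - g z - (z' - g z') = (z - z') - (g z - g z') by abel, inner_sub_left,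
      real_inner_self_eq_norm_sq] at h
    have := real_inner_le_norm (z - z') (g z - g z')
    simp only [NNReal.coe_one, one_mul, dist_eq_norm]
    nlinarith [norm_nonneg (g z - g z'), norm_nonneg (z - z')]
  let N := {z : E | ¬DifferentiableAt ℝ g z}
  let Z := {z : E | DifferentiableAt ℝ g z ∧ (fderiv ℝ g z).det = 0}
  have hN : volume (g '' N) = 0 := image_null_of_lipschitz hg1 hg1.ae_differentiableAt
  have hZ : volume (g '' Z) = 0 :=
    addHaar_image_eq_zero_of_det_fderivWithin_eq_zero volume (f' := fderiv ℝ g)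
      (fun z hz => hz.1.hasFDerivAt.hasFDerivWithinAt) fun z hz => hz.2
  filter_upwards [compl_mem_ae_iff.2 hN, compl_mem_ae_iff.2 hZ] with y hy1 hy2
  obtain ⟨p, hp⟩ := hsub y
  have hgood : ∀ q, Subgr φ y q → DifferentiableAt ℝ g (y + q) ∧ (fderiv ℝ g (y + q)).det ≠ 0 := by
    intro q hq
    have hd : DifferentiableAt ℝ g (y + q) := by
      by_contra hd
      exact hy1 ⟨y + q, hd, hgu y q hq⟩
    exact ⟨hd, fun h0 => hy2 ⟨y + q, ⟨hd, h0⟩, hgu y q hq⟩⟩
  obtain ⟨hd, hdet⟩ := hgood p hp
  set D := fderiv ℝ g (y + p)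
  let Dinv : E →L[ℝ] E :=
    (D.toContinuousLinearEquivOfDetNeZero hdet).symm.toContinuousLinearMap
  have hDD : ∀ v, Dinv (D v) = v := fun v =>
    (D.toContinuousLinearEquivOfDetNeZero hdet).symm_apply_apply v
  have huniq : ∀ q, Subgr φ y q → q = p := by
    intro q hq
    have h1 : HasDerivWithinAt (fun t : ℝ => g (y + p + t • (q - p))) (D (q - p)) (Icc 0 1) 0 := by
      have hline : HasDerivAt (fun t : ℝ => y + p + t • (q - p)) (q - p) 0 := by
        simpa using ((hasDerivAt_id (0 : ℝ)).smul_const (q - p)).const_add (y + p)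
      exact (HasFDerivAt.comp_hasDerivAt_of_eq (0 : ℝ) hd.hasFDerivAt hline (by simp)).hasDerivWithinAt
    have h2 : HasDerivWithinAt (fun t : ℝ => g (y + p + t • (q - p))) 0 (Icc 0 1) 0 := by
      refine (hasDerivWithinAt_const (0 : ℝ) _ y).congr (fun t ht => ?_) ?_
      · rw [show y + p + t • (q - p) = y + ((1 - t) • p + t • q) by
          simp [sub_smul, smul_sub]; abel]
        exact hgu _ _ (hp.segment hq ht.1 ht.2)
      · simpa using hgu y p hp
    have := congrArg Dinv ((uniqueDiffOn_Icc_zero_one 0 (left_mem_Icc.2 zero_le_one)).eq_deriv _ h1 h2)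
    rw [hDD, map_zero] at this
    exact sub_eq_zero.1 this
  refine ⟨p, Dinv - ContinuousLinearMap.id ℝ E, hp, fun ε hε => ?_⟩
  have hp1 := hp.norm_le_one hlip
  set c := ‖Dinv‖ + 1
  have hc1 : 1 ≤ c := le_add_of_nonneg_left (norm_nonneg _)
  -- small displacement in the target forces small displacement in the source
  set e := min (1 / (2 * c)) (ε / (2 * c ^ 2))
  have he : 0 < e := lt_min (by positivity) (by positivity)
  obtain ⟨r, hr, hrb⟩ := Metric.eventually_nhds_iff.1
    ((hasFDerivAt_iff_isLittleO_nhds_zero.1 hd.hasFDerivAt).def he)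
  let Q := closedBall (y + p) 5 \ ball (y + p) r
  have hQ : IsCompact Q := (isCompact_closedBall _ _).diff isOpen_ball
  have hyQ : y ∉ g '' Q := by
    rintro ⟨z, hz, hzy⟩
    have hq : Subgr φ y (z - y) := hzy ▸ hg z
    have := huniq _ hq
    apply hz.2
    rw [show z = y + p by rw [← this]; abel]
    exact mem_ball_self hr
  have hev : ∀ᶠ h in 𝓝 (0 : E), y + h ∉ g '' Q := by
    have : Tendsto (fun h : E => y + h) (𝓝 0) (𝓝 y) := by
      simpa using (continuous_const_add y).tendsto (0 : E)
    exact this ((hQ.image hg1.continuous).isClosed.isOpen_compl.mem_nhds hyQ)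
  filter_upwards [hev, ball_mem_nhds (0 : E) one_pos] with h hh hh1 q hq
  rw [mem_ball_zero_iff] at hh1
  have hq1 := hq.norm_le_one hlip
  set k := h + (q - p)
  have hgk : g (y + p + k) = y + h := by
    rw [show y + p + k = y + h + q by simp only [k]; abel]; exact hgu _ _ hq
  have hkr : dist k 0 < r := by
    by_contra hk
    refine hh ⟨y + p + k, ⟨?_, ?_⟩, hgk⟩
    · rw [mem_closedBall, dist_eq_norm, add_sub_cancel_left]
      have := norm_add_le h (q - p)
      have := norm_sub_le q p
      simp only [k] at *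
      linarith
    · rw [mem_ball, dist_eq_norm, add_sub_cancel_left]
      simpa [dist_eq_norm] using hk
  have hb := hrb hkr
  rw [hgk, show g (y + p) = y from hgu y p hp, add_sub_cancel_left] at hb
  have hk1 : ‖Dinv h - k‖ ≤ c * (e * ‖k‖) := by
    rw [show Dinv h - k = Dinv (h - D k) by rw [map_sub, hDD]]
    exact (Dinv.le_opNorm _).trans (mul_le_mul (le_add_of_nonneg_right zero_le_one) hb
      (norm_nonneg _) (by positivity))
  have hce : c * e ≤ 1 / 2 := by
    calc c * e ≤ c * (1 / (2 * c)) := mul_le_mul_of_nonneg_left (min_le_left _ _) (by positivity)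
      _ = 1 / 2 := by field_simp
  have hk2 : ‖k‖ ≤ 2 * c * ‖h‖ := by
    have h3 := norm_sub_le (Dinv h) (Dinv h - k)
    rw [sub_sub_cancel] at h3
    have h4 := (Dinv.le_opNorm h).trans (mul_le_mul_of_nonneg_right
      (show ‖Dinv‖ ≤ c from le_add_of_nonneg_right zero_le_one) (norm_nonneg h))
    nlinarith [mul_le_mul_of_nonneg_right hce (norm_nonneg k)]
  have hce2 : c * e * (2 * c) ≤ ε := by
    calc c * e * (2 * c) = e * (2 * c ^ 2) := by ring
      _ ≤ ε / (2 * c ^ 2) * (2 * c ^ 2) :=
        mul_le_mul_of_nonneg_right (min_le_right _ _) (by positivity)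
      _ = ε := by field_simp
  rw [show q - p - (Dinv - ContinuousLinearMap.id ℝ E) h = -(Dinv h - k) by simp [k]; abel,
    norm_neg]
  calc ‖Dinv h - k‖ ≤ c * (e * ‖k‖) := hk1
    _ ≤ c * (e * (2 * c * ‖h‖)) := by gcongr
    _ ≤ ε * ‖h‖ := by
      rw [show c * (e * (2 * c * ‖h‖)) = c * e * (2 * c) * ‖h‖ by ring]
      exact mul_le_mul_of_nonneg_right hce2 (norm_nonneg _)

end Vale.Agent.P219
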