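import Mathlib
import Vale.Agent.P219.TransportProx

/-!
P219 (transport module): mollified gradient of a Lipschitz convex function.
-/

open MeasureTheory Metric Set Filter Topology
open scoped RealInnerProductSpace ENNReal Convolution

namespace Vale.Agent.P219

variable {E : Type*} [NormedAddCommGroup E] [InnerProductSpace ℝ E] [FiniteDimensional ℝ E]
  [MeasurableSpace E] [BorelSpace E]

omit [FiniteDimensional ℝ E] [MeasurableSpace E] [BorelSpace E] in
lemma subgr_gradient [CompleteSpace E] {φ : E → ℝ} (hsub : ∀ y, ∃ p, Subgr φ y p) {u : E}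
    (hd : DifferentiableAt ℝ φ u) : Subgr φ u (gradient φ u) := by
  obtain ⟨p, hp⟩ := hsub u
  have hm : IsLocalMin (fun w => φ w - ⟪p, w⟫) u := Eventually.of_forall fun w => by
    have := hp w
    rw [inner_sub_right] at this
    linarith
  have h := hm.hasFDerivAt_eq_zero
    (hd.hasGradientAt.hasFDerivAt.sub (InnerProductSpace.toDual ℝ E p).hasFDerivAt)
  rw [sub_eq_zero] at h
  rwa [(InnerProductSpace.toDual ℝ E).injective h]

/-- Almost every `w` keeps all the rescaled points `y - w / c` off a given null set. -/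
lemma ae_rescaled {P : E → Prop} (hP : ∀ᵐ u : E, P u) (y : E) {c : ℝ} (hc : c ≠ 0) :
    ∀ᵐ w : E, P (y - c⁻¹ • w) := by
  rw [ae_iff] at hP ⊢
  have hl : LipschitzWith ‖c‖₊ fun u : E => c • (y - u) := LipschitzWith.of_dist_le_mul fun u v => by
    rw [dist_eq_norm, dist_eq_norm, ← smul_sub, norm_smul, sub_sub_sub_cancel_left, norm_sub_rev]
    rfl
  refine measure_mono_null (show {w : E | ¬P (y - c⁻¹ • w)} ⊆ (fun u : E => c • (y - u)) '' {u | ¬P u}
    from fun w hw => ⟨y - c⁻¹ • w, hw, ?_⟩) (image_null_of_lipschitz hl hP)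
  show c • (y - (y - c⁻¹ • w)) = w
  rw [sub_sub_cancel, smul_smul, mul_inv_cancel₀ hc, one_smul]

/-- Rescaling of a convolution. -/
lemma scale_integral {F F' : Type*} [NormedAddCommGroup F] [NormedSpace ℝ F]
    [NormedAddCommGroup F'] [NormedSpace ℝ F'] (B : F → E → F') (f : E → F) (T : E → E) (y : E)
    {c : ℝ} (hc : 0 < c) :
    c ^ Module.finrank ℝ E • ∫ t, B (f (c • t)) (T (y - t)) = ∫ w, B (f w) (T (y - c⁻¹ • w)) := by
  have h := Measure.integral_comp_smul volume (fun w => B (f w) (T (y - c⁻¹ • w))) c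
  simp only [smul_smul, inv_mul_cancel₀ hc.ne', one_smul] at h
  rw [h, smul_smul, abs_of_pos (inv_pos.2 (pow_pos hc _)),
    mul_inv_cancel₀ (pow_pos hc _).ne', one_smul]

omit [MeasurableSpace E] [BorelSpace E] in
lemma tendsto_clm_of_apply {ι : Type*} {l : Filter ι} {L : ι → E →L[ℝ] E} {A : E →L[ℝ] E}
    (h : ∀ v, Tendsto (fun i => L i v) l (𝓝 (A v))) : Tendsto L l (𝓝 A) := by
  let b := Module.finBasis ℝ E
  let Φ : (Fin (Module.finrank ℝ E) → E) →L[ℝ] (E →L[ℝ] E) := LinearMap.toContinuousLinearMap
    ((LinearMap.toContinuousLinearMap : (E →ₗ[ℝ] E) ≃ₗ[ℝ] _).toLinearMap ∘ₗ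
      (b.constr ℝ).toLinearMap)
  have hΦ : ∀ M : E →L[ℝ] E, M = Φ (fun i => M (b i)) := fun M => by
    ext v
    exact (congrArg (fun f : E →ₗ[ℝ] E => f v) (b.constr_self (S := ℝ) M.toLinearMap)).symm
  rw [show L = fun i => Φ (fun j => L i (b j)) from funext fun i => hΦ (L i), hΦ A]
  exact (Φ.continuous.tendsto _).comp (tendsto_pi_nhds.2 fun j => h (b j))

theorem exists_mollified {φ : E → ℝ} (hlip : LipschitzWith 1 φ) (hsub : ∀ y, ∃ p, Subgr φ y p) :
    ∃ Tk : ℕ → E → E, (∀ k, ContDiff ℝ 1 (Tk k)) ∧ (∀ k y, ‖Tk k y‖ ≤ 1) ∧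
      (∀ k y, LinearMap.IsPositive ((fderiv ℝ (Tk k) y).toLinearMap)) ∧
      ∀ (y p : E) (A : E →L[ℝ] E), Subgr φ y p →
        (∀ ε > 0, ∀ᶠ h in 𝓝 (0 : E), ∀ q, Subgr φ (y + h) q → ‖q - p - A h‖ ≤ ε * ‖h‖) →
        Tendsto (fun k => Tk k y) atTop (𝓝 p) ∧
          Tendsto (fun k => fderiv ℝ (Tk k) y) atTop (𝓝 A) := by
  set T := gradient φ
  have hTm : Measurable T :=
    (InnerProductSpace.toDual ℝ E).symm.continuous.measurable.comp (measurable_fderiv ℝ φ)
  have hT1 : ∀ u, ‖T u‖ ≤ 1 := fun u => by
    simp only [T, gradient, LinearIsometryEquiv.norm_map]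
    simpa using norm_fderiv_le_of_lipschitz ℝ hlip (x₀ := u)
  have hTint : LocallyIntegrable T := (memLp_top_of_bound hTm.aestronglyMeasurable 1
    (Eventually.of_forall hT1)).locallyIntegrable le_top
  have hdiff : ∀ᵐ u : E, DifferentiableAt ℝ φ u := hlip.ae_differentiableAt
  let bump : ContDiffBump (0 : E) := ⟨1, 2, one_pos, one_lt_two⟩
  set ρ := bump.normed volume with hρ
  have hρc : Continuous ρ := bump.continuous_normed
  have hρd : ContDiff ℝ 1 ρ := bump.contDiff_normed
  have hρs : HasCompactSupport ρ := bump.hasCompactSupport_normed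
  have hρ0 : ∀ w, 0 ≤ ρ w := fun w => bump.nonneg_normed w
  have hρi : Integrable ρ := bump.integrable_normed
  have hρ1 : ∫ w, ρ w = 1 := bump.integral_normed
  set Dρ := fderiv ℝ ρ
  have hDc : Continuous Dρ := hρd.continuous_fderiv one_ne_zero
  have hDdiff : Differentiable ℝ ρ := hρd.differentiable one_ne_zero
  set d := Module.finrank ℝ E
  let c : ℕ → ℝ := fun k => (k : ℝ) + 1
  have hc : ∀ k, 0 < c k := fun k => by positivity
  let ρs : ℕ → E → ℝ := fun k u => c k ^ d * ρ (c k • u)
  have hρss : ∀ k, HasCompactSupport (ρs k) := fun k =>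
    (hρs.comp_smul (hc k).ne').mul_left
  have hρsd : ∀ k, ContDiff ℝ 1 (ρs k) := fun k =>
    contDiff_const.mul (hρd.comp (contDiff_const_smul _))
  let Tk : ℕ → E → E := fun k => ρs k ⋆[ContinuousLinearMap.lsmul ℝ ℝ, volume] T
  have hTk : ∀ k y, Tk k y = ∫ w, ρ w • T (y - (c k)⁻¹ • w) := fun k y => by
    rw [← scale_integral (fun (a : ℝ) (v : E) => a • v) ρ T y (hc k), ← integral_smul]
    simp only [Tk, ρs, convolution_def, ContinuousLinearMap.lsmul_apply, smul_smul]
    rfl
  have hTkd : ∀ k, ContDiff ℝ 1 (Tk k) := fun k =>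
    (hρss k).contDiff_convolution_left _ (hρsd k) hTint
  have hTs : ∀ k y, Measurable fun w : E => T (y - (c k)⁻¹ • w) := fun k y =>
    hTm.comp (by fun_prop)
  have hint : ∀ k y, Integrable fun w => ρ w • T (y - (c k)⁻¹ • w) := fun k y =>
    hρi.norm.mono' (hρc.aestronglyMeasurable.smul (hTs k y).aestronglyMeasurable)
      (Eventually.of_forall fun w => by
        rw [norm_smul]; exact mul_le_of_le_one_right (norm_nonneg _) (hT1 _))
  have hintD : ∀ k y v, Integrable fun w => Dρ w v • T (y - (c k)⁻¹ • w) := fun k y v =>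
    (((ContinuousLinearMap.apply ℝ ℝ v).continuous.comp hDc).integrable_of_hasCompactSupport
      (hρs.fderiv_apply ℝ v)).norm.mono'
      (((ContinuousLinearMap.apply ℝ ℝ v).continuous.comp hDc).aestronglyMeasurable.smul
        (hTs k y).aestronglyMeasurable)
      (Eventually.of_forall fun w => by
        rw [norm_smul]; exact mul_le_of_le_one_right (norm_nonneg _) (hT1 _))
  have hDk : ∀ k y v, fderiv ℝ (Tk k) y v = c k • ∫ w, Dρ w v • T (y - (c k)⁻¹ • w) := by
    intro k y v
    have hex : Integrable fun t => (ContinuousLinearMap.lsmul ℝ ℝ (E := E)).precompL E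
        (fderiv ℝ (ρs k) t) (T (y - t)) :=
      ((hρss k).fderiv ℝ).convolutionExists_left ((ContinuousLinearMap.lsmul ℝ ℝ (E := E)).precompL E)
        ((hρsd k).continuous_fderiv one_ne_zero) hTint y
    rw [((hρss k).hasFDerivAt_convolution_left _ (hρsd k) hTint y).fderiv, convolution_def,
      ContinuousLinearMap.integral_apply hex v,
      ← scale_integral (fun (a : ℝ) (u : E) => a • u) (fun w => Dρ w v) T y (hc k),
      ← integral_smul, ← integral_smul]
    congr 1
    ext t
    have hder : HasFDerivAt (ρs k)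
        (c k ^ d • (Dρ (c k • t)).comp (c k • ContinuousLinearMap.id ℝ E)) t :=
      (((hDdiff _).hasFDerivAt).comp t ((hasFDerivAt_id t).const_smul (c k))).const_mul _
    simp [ContinuousLinearMap.precompL_apply, hder.fderiv, smul_smul]
    ring_nf
    rfl
  refine ⟨Tk, hTkd, fun k y => ?_, fun k y => ?_, fun y p A hp hA => ?_⟩
  · rw [hTk, ← hρ1]
    refine (norm_integral_le_of_norm_le hρi (Eventually.of_forall fun w => ?_))
    rw [norm_smul, Real.norm_of_nonneg (hρ0 w)]
    exact mul_le_of_le_one_right (hρ0 w) (hT1 _)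
  · -- symmetric: second derivative of the mollified potential
    let φk : E → ℝ := fun x => ∫ w, ρ w * φ (x - (c k)⁻¹ • w)
    have hφk : ∀ x, HasFDerivAt φk (innerSL ℝ (Tk k x)) x := by
      intro x
      have hFi : ∀ x, Integrable fun w => ρ w * φ (x - (c k)⁻¹ • w) := fun x =>
        (hρc.mul (hlip.continuous.comp (by fun_prop))).integrable_of_hasCompactSupport hρs.mul_right
      have h := hasFDerivAt_integral_of_dominated_loc_of_lip (𝕜 := ℝ) (μ := volume)
        (F := fun x w => ρ w * φ (x - (c k)⁻¹ • w)) (x₀ := x)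
        (F' := fun w => innerSL ℝ (ρ w • T (x - (c k)⁻¹ • w))) (bound := ρ) univ_mem
        (Eventually.of_forall fun x => (hFi x).1) (hFi x)
        ((innerSL ℝ).continuous.comp_aestronglyMeasurable (hint k x).1)
        (Eventually.of_forall fun w => LipschitzOnWith.of_dist_le_mul fun a _ b _ => by
          have := hlip.dist_le_mul (a - (c k)⁻¹ • w) (b - (c k)⁻¹ • w)
          simp only [Real.dist_eq, dist_sub_right, NNReal.coe_one, one_mul] at this
          rw [Real.dist_eq, ← mul_sub, abs_mul, Real.coe_nnabs]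
          exact mul_le_mul_of_nonneg_left this (abs_nonneg _))
        hρi ((ae_rescaled hdiff x (hc k).ne').mono fun w hw => by
          rw [map_smul]
          exact ((hw.hasGradientAt.hasFDerivAt).comp x
            ((hasFDerivAt_id x).sub_const _)).const_mul (ρ w))
      have h2 := (innerSL ℝ (E := E)).integral_comp_comm (hint k x)
      rw [hTk]
      exact h2 ▸ h.2
    have hD : HasFDerivAt (Tk k) (fderiv ℝ (Tk k) y) y :=
      ((hTkd k).differentiable one_ne_zero y).hasFDerivAt
    have hsym := second_derivative_symmetric hφk ((innerSL ℝ (E := E)).hasFDerivAt.comp y hD)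
    refine ⟨fun v w => ?_, fun v => ?_⟩
    · have := hsym v w
      simp only [ContinuousLinearMap.comp_apply] at this
      exact this.trans (real_inner_comm _ _)
    · simp only [RCLike.re_to_real, ContinuousLinearMap.coe_coe]
      have hmono : Monotone fun t : ℝ => ⟪Tk k (y + t • v), v⟫ := by
        intro a b hab
        have e : ∀ x, ⟪Tk k x, v⟫ = ∫ w, ⟪v, ρ w • T (x - (c k)⁻¹ • w)⟫ := fun x => by
          rw [hTk, real_inner_comm]; exact (integral_inner (hint k x) v).symm
        dsimp only
        rw [e, e]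
        refine integral_mono_ae ((hint k _).const_inner v) ((hint k _).const_inner v) ?_
        filter_upwards [ae_rescaled hdiff (y + a • v) (hc k).ne',
          ae_rescaled hdiff (y + b • v) (hc k).ne'] with w ha hb
        have h := (subgr_gradient hsub hb).inner_nonneg (subgr_gradient hsub ha)
        rw [show y + b • v - (c k)⁻¹ • w - (y + a • v - (c k)⁻¹ • w) = (b - a) • v by
          simp [sub_smul], real_inner_smul_right] at h
        rcases hab.eq_or_lt with rfl | hlt
        · exact le_rfl
        · have h2 := nonneg_of_mul_nonneg_right h (sub_pos.2 hlt)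
          rw [inner_sub_left] at h2
          simp only [real_inner_smul_right]
          rw [real_inner_comm v, real_inner_comm v] at h2
          exact mul_le_mul_of_nonneg_left (by linarith) (hρ0 w)
      have hline : HasDerivAt (fun t : ℝ => y + t • v) v 0 := by
        simpa using ((hasDerivAt_id (0 : ℝ)).smul_const v).const_add y
      have hder := (HasFDerivAt.comp_hasDerivAt_of_eq (0 : ℝ) hD hline (by simp)).inner ℝ
        (hasDerivAt_const (0 : ℝ) v)
      have := hder.deriv ▸ hmono.deriv_nonneg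
      simpa using this
  -- limits at a good point
  set M := ‖A‖ + 1
  obtain ⟨r, hr, hrb⟩ := Metric.eventually_nhds_iff.1 (hA 1 one_pos)
  have hc0 : Tendsto (fun k => (c k)⁻¹) atTop (𝓝 0) :=
    tendsto_inv_atTop_zero.comp (tendsto_atTop_add_const_right _ (1 : ℝ)
      (tendsto_natCast_atTop_atTop (R := ℝ)))
  have hsmall : ∀ᶠ k in atTop, (c k)⁻¹ * 3 < r := by
    have : Tendsto (fun k => (c k)⁻¹ * 3) atTop (𝓝 0) := by simpa using hc0.mul_const 3
    exact this.eventually_lt_const hr
  have hallk : ∀ᵐ w : E, ∀ k, DifferentiableAt ℝ φ (y - (c k)⁻¹ • w) :=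
    ae_all_iff.2 fun k => ae_rescaled hdiff y (hc k).ne'
  have hnear : ∀ k w, (c k)⁻¹ * 3 < r → ‖w‖ ≤ 2 → DifferentiableAt ℝ φ (y - (c k)⁻¹ • w) →
      ‖T (y - (c k)⁻¹ • w) - p‖ ≤ M * ((c k)⁻¹ * ‖w‖) := by
    intro k w hk hw hd
    have hn : ‖-((c k)⁻¹ • w)‖ = (c k)⁻¹ * ‖w‖ := by
      rw [norm_neg, norm_smul, Real.norm_of_nonneg (inv_pos.2 (hc k)).le]
    have hq := subgr_gradient hsub hd
    rw [sub_eq_add_neg y] at hq
    have h := hrb (by
      rw [dist_zero_right, hn]; nlinarith [inv_pos.2 (hc k), norm_nonneg w]) _ hq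
    rw [one_mul, ← sub_eq_add_neg] at h
    have h2 := norm_le_norm_add_norm_sub' (T (y - (c k)⁻¹ • w) - p) (A (-((c k)⁻¹ • w)))
    have h3 := A.le_opNorm (-((c k)⁻¹ • w))
    rw [hn] at h h3
    calc _ ≤ _ := h2
      _ ≤ M * ((c k)⁻¹ * ‖w‖) := by
        simp only [M, add_mul, one_mul]
        linarith
  have hsupp : ∀ w, 2 < ‖w‖ → ρ w = 0 ∧ ∀ v, Dρ w v = 0 := by
    intro w hw
    have hnot : w ∉ tsupport ρ := by
      rw [hρ, bump.tsupport_normed_eq, mem_closedBall_zero_iff]
      exact not_le.2 hw
    refine ⟨image_eq_zero_of_notMem_tsupport hnot, fun v => ?_⟩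
    rw [show Dρ w = 0 from fderiv_of_notMem_tsupport ℝ hnot]
    rfl
  refine ⟨?_, tendsto_clm_of_apply fun v => ?_⟩
  · have hlim : Tendsto (fun k => ∫ w, ρ w • T (y - (c k)⁻¹ • w)) atTop (𝓝 (∫ w, ρ w • p)) := by
      refine tendsto_integral_of_dominated_convergence ρ (fun k => (hint k y).1) hρi
        (fun k => Eventually.of_forall fun w => ?_) ?_
      · rw [norm_smul, Real.norm_of_nonneg (hρ0 w)]
        exact mul_le_of_le_one_right (hρ0 w) (hT1 _)
      · filter_upwards [hallk] with w hw
        rcases le_or_gt ‖w‖ 2 with h2 | h2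
        · refine Tendsto.const_smul (tendsto_iff_norm_sub_tendsto_zero.2 ?_) _
          refine squeeze_zero' (Eventually.of_forall fun k => norm_nonneg _)
            (hsmall.mono fun k hk => hnear k w hk h2 (hw k)) ?_
          simpa using (hc0.mul_const ‖w‖).const_mul M
        · simp [(hsupp w h2).1]
    rw [integral_smul_const, hρ1, one_smul] at hlim
    simpa only [hTk] using hlim
  · set f := fun w => Dρ w v
    have hfc : Continuous f := (ContinuousLinearMap.apply ℝ ℝ v).continuous.comp hDc
    have hfs : HasCompactSupport f := hρs.fderiv_apply ℝ v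
    have hfi : Integrable f := hfc.integrable_of_hasCompactSupport hfs
    have hρA : Integrable fun w => ρ w • A v := hρi.smul_const _
    have hfA : Integrable fun w => f w • A w :=
      (hfc.smul A.continuous).integrable_of_hasCompactSupport hfs.smul_right
    have hρAw : Integrable fun w => ρ w • A w :=
      (hρc.smul A.continuous).integrable_of_hasCompactSupport hρs.smul_right
    have hI1 : ∫ w, ρ w • A v = - ∫ w, f w • A w := by
      have h := integral_smul_fderiv_eq_neg_fderiv_smul_of_integrable (μ := volume) (f := ρ)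
        (g := A) (v := v) hfA (by simpa using hρA) hρAw (fun w _ => hDdiff w)
        (fun w _ => A.differentiableAt)
      simpa using h
    have hI0 : ∫ w, f w • p = 0 := by
      have h := integral_smul_fderiv_eq_neg_fderiv_smul_of_integrable (μ := volume) (f := ρ)
        (g := fun _ => p) (v := v) (hfi.smul_const _) (by simp) (hρi.smul_const _)
        (fun w _ => hDdiff w) (fun w _ => differentiableAt_const p)
      simpa using h.symm
    have hlim : Tendsto (fun k => ∫ w, f w • (c k • (T (y - (c k)⁻¹ • w) - p))) atTop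
        (𝓝 (∫ w, f w • -A w)) := by
      refine tendsto_integral_filter_of_dominated_convergence (fun w => ‖f w‖ * (M * 2))
        (Eventually.of_forall fun k => (hfc.aestronglyMeasurable.smul
          (((hTs k y).sub_const p).const_smul (c k)).aestronglyMeasurable))
        ?_ (hfi.norm.mul_const _) ?_
      · filter_upwards [hsmall] with k hk
        filter_upwards [hallk] with w hw
        rcases le_or_gt ‖w‖ 2 with h2 | h2
        · rw [norm_smul, norm_smul, Real.norm_of_nonneg (hc k).le]
          refine mul_le_mul_of_nonneg_left ?_ (norm_nonneg _)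
          refine (mul_le_mul_of_nonneg_left (hnear k w hk h2 (hw k)) (hc k).le).trans ?_
          rw [show c k * (M * ((c k)⁻¹ * ‖w‖)) = c k * (c k)⁻¹ * (M * ‖w‖) by ring,
            mul_inv_cancel₀ (hc k).ne', one_mul]
          exact mul_le_mul_of_nonneg_left h2 (by positivity)
        · simp [f, (hsupp w h2).2 v]
      · filter_upwards [hallk] with w hw
        refine Tendsto.const_smul ?_ _
        rw [Metric.tendsto_atTop]
        intro e he
        obtain ⟨s, hs, hsb⟩ := Metric.eventually_nhds_iff.1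
          (hA (e / (‖w‖ + 1)) (by positivity))
        obtain ⟨n, hn⟩ := exists_nat_gt (‖w‖ / s)
        refine ⟨n, fun k hk => ?_⟩
        have hcw : (c k)⁻¹ * ‖w‖ < s := by
          rw [inv_mul_lt_iff₀ (hc k)]
          have : (n : ℝ) ≤ k := by exact_mod_cast hk
          rw [div_lt_iff₀ hs] at hn
          simp only [c]; nlinarith
        have hq := subgr_gradient hsub (hw k)
        rw [sub_eq_add_neg y] at hq
        have hn' : ‖-((c k)⁻¹ • w)‖ = (c k)⁻¹ * ‖w‖ := by
          rw [norm_neg, norm_smul, Real.norm_of_nonneg (inv_pos.2 (hc k)).le]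
        have h := hsb (by rwa [dist_zero_right, hn']) _ hq
        rw [← sub_eq_add_neg, hn'] at h
        have e1 : c k • (T (y - (c k)⁻¹ • w) - p) - -A w =
            c k • (T (y - (c k)⁻¹ • w) - p - A (-((c k)⁻¹ • w))) := by
          simp [smul_sub, smul_smul, mul_inv_cancel₀ (hc k).ne']
        rw [dist_eq_norm, e1, norm_smul, Real.norm_of_nonneg (hc k).le]
        calc c k * ‖T (y - (c k)⁻¹ • w) - p - A (-((c k)⁻¹ • w))‖
            ≤ c k * (e / (‖w‖ + 1) * ((c k)⁻¹ * ‖w‖)) := mul_le_mul_of_nonneg_left h (hc k).le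
          _ = e * (‖w‖ / (‖w‖ + 1)) := by
              have := hc k
              field_simp
          _ < e := mul_lt_of_lt_one_right he ((div_lt_one (by positivity)).2 (by linarith))
    have hval : ∫ w, f w • -A w = A v := by
      simp only [smul_neg, integral_neg]
      rw [← hI1, integral_smul_const, hρ1, one_smul]
    rw [hval] at hlim
    refine hlim.congr fun k => ?_
    rw [hDk]
    have := hintD k y v
    simp only [smul_sub, smul_comm (f _) (c k)]
    refine (integral_sub (this.smul (c k)) ((hfi.smul_const p).smul (c k))).trans ?_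
    simp only [Pi.smul_apply]
    rw [integral_smul, integral_smul, hI0, smul_zero, sub_zero]

end Vale.Agent.P219
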