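import Mathlib
import Vale.Agent.P219.TransportDual
import Vale.Agent.P219.TransportMollify

/-!
P219: approximate transport to the unit ball with a free base parameter. For a measure `μ` on a
compact set and a family of charts `G a` there are a parameter `a`, a bounded monotone map `T`
with `⟪T y, y⟫ ≥ 0`, smooth positive approximations `Tk` and an almost everywhere derivative `A`
whose determinant controls the density of the push-forward of `μ`.
-/

open MeasureTheory Metric Filter Topology Set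
open scoped RealInnerProductSpace ENNReal Pointwise

namespace Vale.Agent.P219

variable {E : Type*} [NormedAddCommGroup E] [InnerProductSpace ℝ E] [FiniteDimensional ℝ E]
  [MeasurableSpace E] [BorelSpace E]

omit [MeasurableSpace E] [BorelSpace E] in
lemma det_nonneg_of_isPositive {A : E →ₗ[ℝ] E} (h : A.IsPositive) : 0 ≤ LinearMap.det A := by
  rw [← LinearMap.det_toMatrix (stdOrthonormalBasis ℝ E).toBasis]
  exact ((LinearMap.posSemidef_toMatrix_iff _).2 h).det_nonneg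

/-- The density of a measure bounded by Lebesgue measure on the images of subgradients is
controlled by the Jacobian of the first order expansion. -/
lemma le_det_of_expansion {φ : E → ℝ} (hlip : LipschitzWith 1 φ) (hsub : ∀ y, ∃ p, Subgr φ y p)
    (ν : Measure E) (hν : ν ≪ volume) {η : ℝ} (h0 : 0 ≤ η)
    (hC : ∀ C : Set E, IsClosed C → ν {y | gradient φ y ∈ C} ≤ ENNReal.ofReal (1 + η) * volume C)
    (y p : E) (A : E →L[ℝ] E) (hA0 : 0 ≤ LinearMap.det A.toLinearMap)
    (hexp : ∀ ε > 0, ∀ᶠ h in 𝓝 (0 : E), ∀ q, Subgr φ (y + h) q → ‖q - p - A h‖ ≤ ε * ‖h‖)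
    {θ : ℝ}
    (hθ : ∀ᶠ r in 𝓝[>] (0 : ℝ), ENNReal.ofReal θ * volume (ball y r) ≤ ν (ball y r)) :
    θ ≤ (1 + η) * LinearMap.det A.toLinearMap := by
  set S := A '' closedBall (0 : E) 1
  have hS : IsCompact S := (isCompact_closedBall _ _).image A.continuous
  have hvb0 : volume (ball (0 : E) 1) ≠ 0 := (measure_ball_pos volume _ one_pos).ne'
  have hvbt : volume (ball (0 : E) 1) ≠ ∞ := measure_ball_lt_top.ne
  have key : ∀ ε > 0, ENNReal.ofReal θ * volume (ball (0 : E) 1) ≤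
      ENNReal.ofReal (1 + η) * volume (cthickening ε S) := by
    intro ε hε
    obtain ⟨r0, hr0, hr0b⟩ := Metric.eventually_nhds_iff.1 (hexp ε hε)
    obtain ⟨r, ⟨hθr, hr⟩, hrlt⟩ :=
      ((hθ.and self_mem_nhdsWithin).and (nhdsWithin_le_nhds (eventually_lt_nhds hr0))).exists
    have hr' : (0 : ℝ) < r := hr
    set C := p +ᵥ (r • cthickening ε S)
    have hCc : IsClosed C := ((hS.cthickening.smul r).vadd p).isClosed
    have hsub' : ν (ball y r) ≤ ν {u | gradient φ u ∈ C} := by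
      refine measure_mono_ae ?_
      filter_upwards [hν.ae_le hlip.ae_differentiableAt] with u hu hmem
      have hh : dist (u - y) 0 < r0 := by
        rw [dist_zero_right, ← dist_eq_norm]; exact hmem.trans hrlt
      have hb := hr0b hh (gradient φ u)
        (by rw [add_sub_cancel]; exact subgr_gradient hsub hu)
      have hun : ‖u - y‖ ≤ r := by rw [← dist_eq_norm]; exact hmem.le
      refine ⟨gradient φ u - p, ⟨r⁻¹ • (gradient φ u - p), ?_, ?_⟩, add_sub_cancel p _⟩
      · refine mem_cthickening_of_dist_le _ (A (r⁻¹ • (u - y))) _ S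
          (mem_image_of_mem _ ?_) ?_
        · rw [mem_closedBall_zero_iff, norm_smul, Real.norm_of_nonneg (inv_pos.2 hr').le]
          exact inv_mul_le_one_of_le₀ hun hr'.le
        · rw [dist_eq_norm, map_smul, ← smul_sub, norm_smul,
            Real.norm_of_nonneg (inv_pos.2 hr').le, inv_mul_le_iff₀ hr']
          exact hb.trans (by rw [mul_comm r ε]; exact mul_le_mul_of_nonneg_left hun hε.le)
      · show r • r⁻¹ • (gradient φ u - p) = _
        rw [smul_smul, mul_inv_cancel₀ hr'.ne', one_smul]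
    have h1 : volume C = ENNReal.ofReal (r ^ Module.finrank ℝ E) * volume (cthickening ε S) := by
      rw [measure_vadd, Measure.addHaar_smul_of_nonneg volume hr'.le]
    have h2 := (hθr.trans hsub').trans (hC C hCc)
    rw [h1, Measure.addHaar_ball_of_pos volume y hr', mul_left_comm, mul_left_comm
      (ENNReal.ofReal (1 + η))] at h2
    exact (ENNReal.mul_le_mul_iff_right (ENNReal.ofReal_pos.2 (by positivity)).ne'
      ENNReal.ofReal_ne_top).1 h2
  have hlim : Tendsto (fun ε => ENNReal.ofReal (1 + η) * volume (cthickening ε S)) (𝓝[>] (0 : ℝ))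
      (𝓝 (ENNReal.ofReal (1 + η) * volume S)) :=
    ENNReal.Tendsto.const_mul ((tendsto_measure_cthickening_of_isCompact hS).mono_left
      nhdsWithin_le_nhds) (Or.inr ENNReal.ofReal_ne_top)
  have h3 := ge_of_tendsto hlim (Eventually.mono self_mem_nhdsWithin key)
  rw [Measure.addHaar_image_continuousLinearMap, volume_closedBall_eq_ball, ← mul_assoc,
    ENNReal.mul_le_mul_iff_left hvb0 hvbt, ← ENNReal.ofReal_mul (by linarith)] at h3
  have h4 : (1 + η) * |LinearMap.det A.toLinearMap| = (1 + η) * LinearMap.det A.toLinearMap := by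
    rw [abs_of_nonneg hA0]
  exact (ENNReal.ofReal_le_ofReal_iff (by positivity)).1 h3 |>.trans h4.le

/-- Approximate transport of `μ.map (G a)` to the unit ball with a vanishing base value. -/
theorem transport_package {X : Type*} [TopologicalSpace X] [MeasurableSpace X] [BorelSpace X]
    (μ : Measure X) [IsFiniteMeasure μ] (K : Set X) (hK : IsCompact K) (hμK : μ Kᶜ = 0)
    (hmass : μ univ = volume (ball (0 : E) 1))
    (G : E → X → E) (hG : Continuous (fun q : E × X => G q.1 q.2))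
    (hac : ∀ a, μ.map (G a) ≪ volume)
    (R : ℝ) (hR : 0 < R) (hout : ∀ a : E, ‖a‖ = R → ∀ x ∈ K, ⟪G a x, a⟫ < 0)
    (η : ℝ) (h0 : 0 < η) (h1 : η < 1) :
    ∃ a ∈ closedBall (0 : E) R, ∃ (T : E → E) (A : E → E →L[ℝ] E) (Tk : ℕ → E → E),
      (∀ k, ContDiff ℝ 1 (Tk k)) ∧ (∀ k y, ‖Tk k y‖ ≤ 1) ∧
      (∀ k y, LinearMap.IsPositive ((fderiv ℝ (Tk k) y).toLinearMap)) ∧
      (∀ᵐ y : E, 0 ≤ ⟪T y, y⟫) ∧
      (∀ᵐ y : E, Tendsto (fun k => Tk k y) atTop (𝓝 (T y))) ∧
      (∀ᵐ y : E, Tendsto (fun k => fderiv ℝ (Tk k) y) atTop (𝓝 (A y))) ∧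
      (∀ᵐ y : E, ∀ θ : ℝ, 0 ≤ θ →
        (∀ᶠ r in 𝓝[>] (0 : ℝ),
          ENNReal.ofReal θ * volume (ball y r) ≤ μ.map (G a) (ball y r)) →
        θ ≤ (1 + η) * LinearMap.det ((A y).toLinearMap)) := by
  obtain ⟨a, ha, φ, hlip, hsub, hzero, hC⟩ :=
    exists_potential μ hK hμK hmass G hG hac hR hout h0 h1
  obtain ⟨Tk, hTk1, hTk2, hTk3, hTk4⟩ := exists_mollified hlip hsub
  obtain ⟨A, hA⟩ : ∃ A : E → E →L[ℝ] E, ∀ᵐ y : E, ∃ p, Subgr φ y p ∧
      ∀ ε > 0, ∀ᶠ h in 𝓝 (0 : E), ∀ q, Subgr φ (y + h) q → ‖q - p - A y h‖ ≤ ε * ‖h‖ := by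
    classical
    refine ⟨fun y => if h : ∃ A : E →L[ℝ] E, ∃ p, Subgr φ y p ∧ ∀ ε > 0, ∀ᶠ h in 𝓝 (0 : E),
      ∀ q, Subgr φ (y + h) q → ‖q - p - A h‖ ≤ ε * ‖h‖ then h.choose else 0,
      (ae_expansion hsub hlip).mono fun y hy => ?_⟩
    obtain ⟨p, A, hp, hA⟩ := hy
    have hex : ∃ A : E →L[ℝ] E, ∃ p, Subgr φ y p ∧ ∀ ε > 0, ∀ᶠ h in 𝓝 (0 : E),
      ∀ q, Subgr φ (y + h) q → ‖q - p - A h‖ ≤ ε * ‖h‖ := ⟨A, p, hp, hA⟩
    simp only [dif_pos hex]
    exact hex.choose_spec
  have hgood : ∀ᵐ y : E, Subgr φ y (gradient φ y) ∧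
      Tendsto (fun k => Tk k y) atTop (𝓝 (gradient φ y)) ∧
      Tendsto (fun k => fderiv ℝ (Tk k) y) atTop (𝓝 (A y)) ∧
      ∀ ε > 0, ∀ᶠ h in 𝓝 (0 : E), ∀ q, Subgr φ (y + h) q →
        ‖q - gradient φ y - A y h‖ ≤ ε * ‖h‖ := by
    filter_upwards [hA, hlip.ae_differentiableAt] with y hy hd
    obtain ⟨p, hp, hexp⟩ := hy
    obtain rfl := hp.eq_gradient hd
    exact ⟨hp, (hTk4 y _ (A y) hp hexp).1, (hTk4 y _ (A y) hp hexp).2, hexp⟩
  refine ⟨a, ha, gradient φ, A, Tk, hTk1, hTk2, hTk3, hgood.mono fun y hy => ?_,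
    hgood.mono fun y hy => hy.2.1, hgood.mono fun y hy => hy.2.2.1, hgood.mono fun y hy θ _ hθ => ?_⟩
  · simpa using hy.1.inner_nonneg hzero
  · refine le_det_of_expansion hlip hsub _ (hac a) h0.le hC y (gradient φ y) (A y) ?_ hy.2.2.2 hθ
    have hpos : ∀ k, 0 ≤ LinearMap.det (fderiv ℝ (Tk k) y).toLinearMap := fun k =>
      det_nonneg_of_isPositive (hTk3 k y)
    exact ge_of_tendsto' ((ContinuousLinearMap.continuous_det.tendsto (A y)).comp hy.2.2.1) hpos

end Vale.Agent.P219
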