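import Mathlib
import Vale.Agent.P219.Defs
import Vale.Agent.P219.Ad

/-!
# P219 : the trace-determinant inequality and null preimages
-/

open Matrix MeasureTheory Set Filter Topology
open scoped RealInnerProductSpace

set_option autoImplicit false

namespace Vale.Agent.P219

variable {n : ℕ}

/-- For `A ≥ 0` and `J > 0`: `n (det A det J)^{1/n} ≤ trace (A J)`. -/
lemma trace_det_ineq (hn : 0 < n) (A J : Matrix (Fin n) (Fin n) ℝ) (hA : A.PosSemidef)
    (hJ : J.PosDef) :
    0 ≤ (A * J).trace ∧ 0 ≤ A.det ∧ 0 < J.det ∧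
      (n : ℝ) * (A.det * J.det) ^ ((1 : ℝ) / n) ≤ (A * J).trace := by
  have hJs : Jᵀ = J := by
    simpa [Matrix.IsHermitian, conjTranspose_eq_transpose_of_trivial] using hJ.isHermitian
  obtain ⟨d⟩ := exists_diag hJs
  have hdh : diagonal d.h = d.Uᵀ * J * d.U := by
    calc diagonal d.h = (d.Uᵀ * d.U) * diagonal d.h * (d.Uᵀ * d.U) := by simp [d.hUU']
      _ = d.Uᵀ * (d.U * diagonal d.h * d.Uᵀ) * d.U := by simp only [Matrix.mul_assoc]
      _ = _ := by rw [← d.hH]
  have hpos : ∀ i, 0 < d.h i := by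
    intro i
    have hpd : (diagonal d.h).PosDef := by
      rw [hdh, ← conjTranspose_eq_transpose_of_trivial]
      refine hJ.conjTranspose_mul_mul_same fun v w hvw => ?_
      have := congrArg (d.Uᵀ *ᵥ ·) hvw
      simpa [mulVec_mulVec, d.hUU'] using this
    exact Matrix.posDef_diagonal_iff.1 hpd i
  let s : Matrix (Fin n) (Fin n) ℝ := diagonal fun i => Real.sqrt (d.h i)
  have hs : s * s = diagonal d.h := by
    simp [s, Real.mul_self_sqrt (hpos _).le]
  let R : Matrix (Fin n) (Fin n) ℝ := d.U * s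
  have hRR : R * Rᵀ = J := by
    simp only [R, s, transpose_mul, diagonal_transpose]
    calc d.U * diagonal (fun i => Real.sqrt (d.h i)) *
        (diagonal (fun i => Real.sqrt (d.h i)) * d.Uᵀ)
        = d.U * (s * s) * d.Uᵀ := by simp only [s, Matrix.mul_assoc]
      _ = _ := by rw [hs]; exact d.hH.symm
  let M := Rᵀ * A * R
  have hM : M.PosSemidef := by
    have := hA.conjTranspose_mul_mul_same R
    rwa [conjTranspose_eq_transpose_of_trivial] at this
  have htr : M.trace = (A * J).trace := by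
    show (Rᵀ * A * R).trace = _
    rw [trace_mul_comm, ← Matrix.mul_assoc, hRR, trace_mul_comm]
  have hdet : M.det = A.det * J.det := by
    rw [← hRR]
    show (Rᵀ * A * R).det = _
    simp only [det_mul]
    ring
  have h0 : ∀ i, 0 ≤ hM.1.eigenvalues i := hM.eigenvalues_nonneg
  have ht : (A * J).trace = ∑ i, hM.1.eigenvalues i := by
    rw [← htr, hM.1.trace_eq_sum_eigenvalues]; simp
  have hd : A.det * J.det = ∏ i, hM.1.eigenvalues i := by
    rw [← hdet, hM.1.det_eq_prod_eigenvalues]; simp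
  refine ⟨by rw [ht]; exact Finset.sum_nonneg fun i _ => h0 i, hA.det_nonneg, hJ.det_pos, ?_⟩
  have hnR : (0 : ℝ) < n := by exact_mod_cast hn
  have hg := Real.geom_mean_le_arith_mean (Finset.univ : Finset (Fin n)) (fun _ => (1:ℝ))
    hM.1.eigenvalues (fun _ _ => zero_le_one) (by simpa using hnR) (fun i _ => h0 i)
  simp only [Real.rpow_one, one_mul, Finset.sum_const, Finset.card_univ, Fintype.card_fin,
    nsmul_eq_mul, mul_one] at hg
  rw [hd, ht, one_div]
  rw [le_div_iff₀ hnR] at hg
  linarith [mul_comm ((∏ i, hM.1.eigenvalues i) ^ ((n:ℝ)⁻¹)) (n:ℝ)]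

/-- The same for linear maps of the coordinate space. -/
lemma trace_det_map (hn : 0 < n) (A J : Coord n →L[ℝ] Coord n)
    (hA : A.toLinearMap.IsPositive)
    (hJs : ∀ z w, ⟪J z, w⟫ = ⟪J w, z⟫) (hJp : ∀ z, z ≠ 0 → 0 < ⟪J z, z⟫) :
    0 ≤ ∑ k, ⟪(EuclideanSpace.single k (1:ℝ) : Coord n), A (J (EuclideanSpace.single k 1))⟫ ∧
      0 ≤ LinearMap.det A.toLinearMap ∧ 0 < LinearMap.det J.toLinearMap ∧
      (n : ℝ) * (LinearMap.det A.toLinearMap * LinearMap.det J.toLinearMap) ^ ((1 : ℝ) / n) ≤
        ∑ k, ⟪(EuclideanSpace.single k (1:ℝ) : Coord n), A (J (EuclideanSpace.single k 1))⟫ := by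
  let b := EuclideanSpace.basisFun (Fin n) ℝ
  let Am := LinearMap.toMatrix b.toBasis b.toBasis A.toLinearMap
  let Jm := LinearMap.toMatrix b.toBasis b.toBasis J.toLinearMap
  have hentry : ∀ T : Coord n →L[ℝ] Coord n, ∀ i j,
      LinearMap.toMatrix b.toBasis b.toBasis T.toLinearMap i j =
        ⟪(EuclideanSpace.single i (1:ℝ) : Coord n), T (EuclideanSpace.single j 1)⟫ := by
    intro T i j
    simp [b, LinearMap.toMatrix_apply, EuclideanSpace.inner_single_left]
  have hAm : Am.PosSemidef := by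
    have hsym : Am.IsHermitian := by
      ext i j
      simp only [Am, conjTranspose_apply, star_trivial, hentry]
      rw [real_inner_comm]
      exact hA.isSymmetric _ _
    refine Matrix.PosSemidef.of_dotProduct_mulVec_nonneg hsym fun v => ?_
    have h2 : Am *ᵥ v = WithLp.ofLp (A (WithLp.toLp 2 v)) :=
      LinearMap.toMatrix_mulVec_repr b.toBasis b.toBasis A.toLinearMap (WithLp.toLp 2 v)
    have h1 := hA.re_inner_nonneg_left (WithLp.toLp 2 v)
    rw [h2]
    simpa [EuclideanSpace.inner_eq_star_dotProduct] using h1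
  have hJm : Jm.PosDef := by
    have hsym : Jm.IsHermitian := by
      ext i j
      simp only [Jm, conjTranspose_apply, star_trivial, hentry]
      rw [real_inner_comm, hJs, real_inner_comm]
    refine Matrix.PosDef.of_dotProduct_mulVec_pos hsym fun v hv => ?_
    have h2 : Jm *ᵥ v = WithLp.ofLp (J (WithLp.toLp 2 v)) :=
      LinearMap.toMatrix_mulVec_repr b.toBasis b.toBasis J.toLinearMap (WithLp.toLp 2 v)
    have h1 := hJp (WithLp.toLp 2 v) (by simpa using hv)
    rw [h2]
    simpa [EuclideanSpace.inner_eq_star_dotProduct, dotProduct_comm] using h1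
  have h := trace_det_ineq hn Am Jm hAm hJm
  have e : (Am * Jm).trace =
      ∑ k, ⟪(EuclideanSpace.single k (1:ℝ) : Coord n), A (J (EuclideanSpace.single k 1))⟫ := by
    simp only [Am, Jm, ← LinearMap.toMatrix_comp, Matrix.trace, Matrix.diag]
    exact Finset.sum_congr rfl fun k _ => hentry (A.comp J) k k
  rw [e] at h
  simpa only [Am, Jm, LinearMap.det_toMatrix] using h

/-- The preimage of a null set under a local diffeomorphism is null. -/
lemma null_preimage {g : Coord n → Coord n} (hg : ContDiff ℝ 1 g)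
    (hdet : ∀ x, LinearMap.det (fderiv ℝ g x).toLinearMap ≠ 0) {S : Set (Coord n)}
    (hS : volume S = 0) : volume (g ⁻¹' S) = 0 := by
  obtain ⟨S', hSS, hS'm, hS'0⟩ := exists_measurable_superset_of_null hS
  refine measure_mono_null (preimage_mono hSS) ?_
  have hloc : ∀ x, ∃ U ∈ 𝓝 x, IsOpen U ∧ InjOn g U := by
    intro x
    let e := (fderiv ℝ g x).toLinearMap.equivOfDetNeZero (hdet x) |>.toContinuousLinearEquiv
    have h : HasStrictFDerivAt g (e : Coord n →L[ℝ] Coord n) x := by
      have := (hg.contDiffAt (x := x)).hasStrictFDerivAt one_ne_zero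
      exact this
    exact ⟨(h.toOpenPartialHomeomorph g).source,
      (h.toOpenPartialHomeomorph g).open_source.mem_nhds h.mem_toOpenPartialHomeomorph_source,
      (h.toOpenPartialHomeomorph g).open_source, (h.toOpenPartialHomeomorph g).injOn⟩
  choose U hUn hUo hUi using hloc
  obtain ⟨t, htc, htU⟩ := TopologicalSpace.countable_cover_nhds hUn
  have hpre : g ⁻¹' S' = ⋃ x ∈ t, (U x ∩ g ⁻¹' S') := by
    rw [← iUnion₂_inter, htU, univ_inter]
  rw [hpre]
  refine (measure_biUnion_null_iff htc).2 fun x _ => ?_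
  have hm : MeasurableSet (U x ∩ g ⁻¹' S') :=
    (hUo x).measurableSet.inter (hg.continuous.measurable hS'm)
  have h := lintegral_abs_det_fderiv_eq_addHaar_image (μ := (volume : Measure (Coord n))) hm
    (fun y _ => ((hg.differentiable one_ne_zero) y).hasFDerivAt.hasFDerivWithinAt)
    ((hUi x).mono inter_subset_left)
  have h0 : volume (g '' (U x ∩ g ⁻¹' S')) = 0 := by
    refine measure_mono_null ?_ hS'0
    rintro y ⟨z, hz, rfl⟩
    exact hz.2
  rw [h0] at h
  have hmeas : Measurable fun y => ENNReal.ofReal |(fderiv ℝ g y).det| :=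
    (ContinuousLinearMap.continuous_det.comp (hg.continuous_fderiv one_ne_zero)).abs.measurable
      |>.ennreal_ofReal
  rw [setLIntegral_eq_zero_iff hm hmeas] at h
  have : ∀ᵐ y, y ∉ U x ∩ g ⁻¹' S' := by
    filter_upwards [h] with y hy hmem
    have := hy hmem
    rw [ENNReal.ofReal_eq_zero, abs_nonpos_iff] at this
    exact hdet y this
  exact measure_eq_zero_iff_ae_notMem.2 this

end Vale.Agent.P219
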