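import Mathlib
import Vale.Agent.P219.Defs
import Vale.Agent.P219.Ad

/-!
# P219 : the positive kernel in the derivative of `tanh (adM H / 4)`
-/

open Matrix
open scoped Kronecker

set_option autoImplicit false

namespace Vale.Agent.P219

variable {N : ℕ}

/-- `exp (adM H / 2)`, written without an eigenbasis. -/
noncomputable def qOp (H : Mat N) : Op N :=
  NormedSpace.exp ((-(1/2:ℝ)) • H)ᵀ ⊗ₖ NormedSpace.exp ((1/2:ℝ) • H)

/-- `tanh (adM H / 4)`, written without an eigenbasis. -/
noncomputable def tauOp (H : Mat N) : Op N := (qOp H - 1) * (qOp H + 1)⁻¹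

/-- The matrix `u` with `S' = u S`, for the velocity `2 σ`. -/
noncomputable def shiftMat (H σ : Mat N) : Mat N :=
  σ + Matrix.of fun i j => (tauOp H *ᵥ vec σ) (j, i)

lemma vec_shiftMat (H σ : Mat N) : vec (shiftMat H σ) = (1 + tauOp H) *ᵥ vec σ := by
  ext p
  simp [shiftMat, add_mulVec]

/-- The derivative of `tauOp` along the velocity `2 σ`. -/
noncomputable def tauDer (H σ : Mat N) : Op N :=
  (2:ℝ) • ((qOp H + 1)⁻¹ * adM (shiftMat H σ) * qOp H * (qOp H + 1)⁻¹)

namespace Diag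

variable {H : Mat N} (d : Diag H)
include d

lemma exp_smul_eq (c : ℝ) :
    NormedSpace.exp (c • H) = d.U * diagonal (fun i => Real.exp (c * d.h i)) * d.Uᵀ := by
  have hinv : d.U⁻¹ = d.Uᵀ := inv_eq_right_inv d.hUU
  have hu : IsUnit d.U := IsUnit.of_mul_eq_one _ d.hUU
  conv_lhs => rw [d.hH]
  rw [← Matrix.smul_mul, ← Matrix.mul_smul, ← diagonal_smul, ← hinv, exp_conj _ _ hu, hinv,
    exp_diagonal]
  congr 3
  funext i
  simp [Pi.coe_exp, Real.exp_eq_exp_ℝ]

lemma qOp_eq : qOp H = d.calc' (fun t => Real.exp (t / 2)) := by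
  rw [qOp, transpose_smul, show Hᵀ = H by rw [d.hH]; simp [transpose_mul, Matrix.mul_assoc],
    d.exp_smul_eq, d.exp_smul_eq, mul_kronecker_mul, mul_kronecker_mul,
    diagonal_kronecker_diagonal, kroneckerMap_transpose]
  rw [Diag.calc', Diag.R]
  congr 3
  funext p
  rw [← Real.exp_add]
  congr 1
  simp only [Diag.lam]
  ring

lemma qOp_add_one_inv :
    (qOp H + 1)⁻¹ = d.calc' (fun t => 1 / (Real.exp (t / 2) + 1)) := by
  refine inv_eq_right_inv ?_
  rw [d.qOp_eq, ← d.calc'_one, d.calc'_add, d.calc'_mul]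
  refine d.calc'_congr fun p => ?_
  have := Real.exp_pos (d.lam p / 2)
  field_simp

lemma tauOp_eq : tauOp H = d.calc' (fun t => Real.tanh (t / 4)) := by
  rw [tauOp, d.qOp_add_one_inv, d.qOp_eq, ← d.calc'_one, d.calc'_sub, d.calc'_mul]
  refine d.calc'_congr fun p => ?_
  rw [Real.tanh_eq]
  have h1 : Real.exp (d.lam p / 2) = Real.exp (d.lam p / 4) * Real.exp (d.lam p / 4) := by
    rw [← Real.exp_add]; ring_nf
  rw [h1, Real.exp_neg]
  have := Real.exp_pos (d.lam p / 4)
  field_simp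

lemma tauOp_transpose : (tauOp H)ᵀ = tauOp H := by
  rw [d.tauOp_eq, d.calc'_transpose]

lemma comm_calc' {P : Op N} (hP : P * adM H = adM H * P) (f : ℝ → ℝ) :
    P * d.calc' f = d.calc' f * P := by
  let p := d.Rᵀ * P * d.R
  have hP' : P = d.R * p * d.Rᵀ := by
    simp only [p, ← Matrix.mul_assoc, d.R_mul_transpose, Matrix.one_mul]
    rw [Matrix.mul_assoc, d.R_mul_transpose, Matrix.mul_one]
  have hp : p * diagonal d.lam = diagonal d.lam * p := by
    rw [← d.calc'_id] at hP
    calc p * diagonal d.lam = d.Rᵀ * (P * d.calc' id) * d.R := by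
          simp [p, Diag.calc', Matrix.mul_assoc, d.transpose_mul_R]
      _ = d.Rᵀ * (d.calc' id * P) * d.R := by rw [hP]
      _ = (d.Rᵀ * d.R) * (diagonal d.lam * p) := by
          simp [p, Diag.calc', Matrix.mul_assoc]
      _ = _ := by rw [d.transpose_mul_R, Matrix.one_mul]
  have hf : p * diagonal (fun q => f (d.lam q)) = diagonal (fun q => f (d.lam q)) * p := by
    ext a b
    have := congrFun (congrFun hp a) b
    simp only [mul_diagonal, diagonal_mul] at this ⊢
    by_cases hz : p a b = 0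
    · simp [hz]
    · have : d.lam b = d.lam a := mul_left_cancel₀ hz (by linarith)
      rw [this]; ring
  rw [hP']
  simp only [Diag.calc', Matrix.mul_assoc]
  rw [← Matrix.mul_assoc d.Rᵀ d.R, d.transpose_mul_R, Matrix.one_mul,
    ← Matrix.mul_assoc p, hf, ← Matrix.mul_assoc d.Rᵀ d.R, d.transpose_mul_R, Matrix.one_mul,
    Matrix.mul_assoc (diagonal _) p]

/-- The kernel of `tauDer`. -/
noncomputable def ker2 (_d : Diag H) (s t : ℝ) : ℝ :=
  2 * Real.exp (t / 2) * (1 + Real.tanh ((s - t) / 4)) /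
    ((Real.exp (s / 2) + 1) * (Real.exp (t / 2) + 1))

lemma ker2_eq (s t : ℝ) :
    d.ker2 s t = 4 * (Real.exp (s / 2) * Real.exp (t / 2)) /
      ((Real.exp (s / 2) + 1) * (Real.exp (t / 2) + 1) *
        (Real.exp (s / 2) + Real.exp (t / 2))) := by
  unfold ker2
  have h1 : Real.exp ((s - t) / 4) * Real.exp ((s - t) / 4) * Real.exp (t / 2)
      = Real.exp (s / 2) := by
    rw [← Real.exp_add, ← Real.exp_add]; ring_nf
  rw [Real.tanh_eq, Real.exp_neg, ← h1]
  have := Real.exp_pos ((s - t) / 4)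
  have := Real.exp_pos (t / 2)
  field_simp
  ring

lemma tauDer_entry (σ : Mat N) (a b : Idx N) :
    (d.Rᵀ * tauDer H σ * d.R) a b =
      d.ker2 (d.lam a) (d.lam b) * (d.Rᵀ * adM σ * d.R) a b := by
  let u := shiftMat H σ
  let s := d.Uᵀ * σ * d.U
  let w := d.Uᵀ * u * d.U
  have hs : σ = d.U * s * d.Uᵀ := by
    simp only [s, ← Matrix.mul_assoc, d.hUU, Matrix.one_mul]
    rw [Matrix.mul_assoc, d.hUU, Matrix.mul_one]
  have hw : u = d.U * w * d.Uᵀ := by
    simp only [w, ← Matrix.mul_assoc, d.hUU, Matrix.one_mul]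
    rw [Matrix.mul_assoc, d.hUU, Matrix.mul_one]
  have hR : ∀ X : Mat N, vec (d.Uᵀ * X * d.U) = d.Rᵀ *ᵥ vec X := by
    intro X
    rw [Diag.R, ← kroneckerMap_transpose, kronecker_mulVec_vec, transpose_transpose]
  have hwe : ∀ p : Idx N, vec w p = (1 + Real.tanh (d.lam p / 4)) * vec s p := by
    intro p
    have : vec w = diagonal (fun p => 1 + Real.tanh (d.lam p / 4)) *ᵥ vec s := by
      rw [hR, hR, vec_shiftMat, d.tauOp_eq, ← d.calc'_one, d.calc'_add, Diag.calc',
        mulVec_mulVec, mulVec_mulVec]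
      simp only [← Matrix.mul_assoc, d.transpose_mul_R, Matrix.one_mul]
    rw [this, mulVec_diagonal]
  have hadw : (d.Rᵀ * adM u * d.R) = adM w := by
    rw [hw, d.adM_conj]
    simp only [← Matrix.mul_assoc, d.transpose_mul_R, Matrix.one_mul]
    rw [Matrix.mul_assoc, d.transpose_mul_R, Matrix.mul_one]
  have hads : (d.Rᵀ * adM σ * d.R) = adM s := by
    rw [hs, d.adM_conj]
    simp only [← Matrix.mul_assoc, d.transpose_mul_R, Matrix.one_mul]
    rw [Matrix.mul_assoc, d.transpose_mul_R, Matrix.mul_one]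
  have hfull : d.Rᵀ * tauDer H σ * d.R = (2:ℝ) •
      (diagonal (fun p => 1 / (Real.exp (d.lam p / 2) + 1)) * adM w *
        diagonal (fun p => Real.exp (d.lam p / 2) * (1 / (Real.exp (d.lam p / 2) + 1)))) := by
    rw [← hadw, tauDer, Matrix.mul_smul, Matrix.smul_mul, Matrix.mul_assoc _ (qOp H),
      d.qOp_add_one_inv, d.qOp_eq, d.calc'_mul]
    congr 1
    simp only [Diag.calc', u, Matrix.mul_assoc, d.transpose_mul_R, Matrix.mul_one]
    rw [← Matrix.mul_assoc d.Rᵀ d.R, d.transpose_mul_R, Matrix.one_mul]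
  have hade : adM w a b = (1 + Real.tanh ((d.lam a - d.lam b) / 4)) * adM s a b := by
    obtain ⟨a1, a2⟩ := a
    obtain ⟨b1, b2⟩ := b
    have e1 := hwe (b2, a2)
    have e2 := hwe (a1, b1)
    simp only [vec, Diag.lam] at e1 e2
    simp only [adM, Matrix.sub_apply, kroneckerMap_apply, transpose_apply, Diag.lam]
    rcases eq_or_ne a1 b1 with h | h <;> rcases eq_or_ne a2 b2 with h' | h'
    · subst h h'
      simp [one_apply_eq, e1, e2]
    · subst h
      simp [one_apply_ne h', e1]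
    · subst h'
      simp [one_apply_ne h, e2]
    · simp [one_apply_ne h, one_apply_ne h']
  rw [hfull, hads, Matrix.smul_apply, mul_diagonal, diagonal_mul, hade, smul_eq_mul, ker2]
  have := Real.exp_pos (d.lam a / 2)
  have := Real.exp_pos (d.lam b / 2)
  field_simp

/-- Symmetry and positivity of the form `trace (P A τ'(B))`. -/
lemma form_props {P : Op N} (hPt : Pᵀ = P) (hPP : P * P = P) (hPH : P * adM H = adM H * P)
    {σ ρ : Mat N} (hσ : σᵀ = σ) (hρ : ρᵀ = ρ) (hPσ : P * adM σ = adM σ * P)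
    (hPρ : P * adM ρ = adM ρ * P) :
    (P * adM σ * tauDer H ρ).trace = (P * adM ρ * tauDer H σ).trace ∧
      0 ≤ (P * adM σ * tauDer H σ).trace := by
  classical
  let K : Idx N → Idx N → ℝ := fun a b => d.ker2 (d.lam a) (d.lam b)
  have hKs : ∀ a b, K a b = K b a := fun a b => by
    simp only [K, d.ker2_eq]; ring
  have hKpos : ∀ a b, 0 ≤ K a b := fun a b => by
    simp only [K, d.ker2_eq]; positivity
  have key : ∀ σ ρ : Mat N, σᵀ = σ → ρᵀ = ρ → P * adM σ = adM σ * P → P * adM ρ = adM ρ * P →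
      (P * adM σ * tauDer H ρ).trace =
        ∑ a, ∑ b, K a b * ((d.Rᵀ * (P * adM σ) * d.R) a b * (d.Rᵀ * (P * adM ρ) * d.R) a b) := by
    intro σ ρ hσ hρ hPσ hPρ
    let A := d.Rᵀ * (P * adM σ) * d.R
    let B := d.Rᵀ * (P * adM ρ) * d.R
    let p := d.Rᵀ * P * d.R
    have hB : B = p * (d.Rᵀ * adM ρ * d.R) := by
      simp only [B, p, Matrix.mul_assoc]
      rw [← Matrix.mul_assoc d.R d.Rᵀ, d.R_mul_transpose, Matrix.one_mul]
    have hblock : ∀ a c, p a c ≠ 0 → d.lam a = d.lam c := by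
      intro a c hne
      have h0 : d.Rᵀ * (P * d.calc' id) * d.R = d.Rᵀ * (d.calc' id * P) * d.R := by
        rw [d.comm_calc' hPH id]
      have e1 : d.Rᵀ * (P * d.calc' id) * d.R = p * diagonal d.lam := by
        simp [p, Diag.calc', Matrix.mul_assoc, d.transpose_mul_R]
      have e2 : d.Rᵀ * (d.calc' id * P) * d.R = diagonal d.lam * p := by
        have : d.Rᵀ * (d.calc' id * P) * d.R = (d.Rᵀ * d.R) * (diagonal d.lam * p) := by
          simp [p, Diag.calc', Matrix.mul_assoc]
        rw [this, d.transpose_mul_R, Matrix.one_mul]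
      rw [e1, e2] at h0
      have h := congrFun (congrFun h0 a) c
      rw [mul_diagonal, diagonal_mul] at h
      exact (mul_left_cancel₀ hne (by linarith)).symm
    have hM : ∀ a b, (p * (d.Rᵀ * tauDer H ρ * d.R)) a b = K a b * B a b := by
      intro a b
      rw [hB, mul_apply, mul_apply, Finset.mul_sum]
      refine Finset.sum_congr rfl fun c _ => ?_
      rw [d.tauDer_entry]
      rcases eq_or_ne (p a c) 0 with h | h
      · simp [h]
      · simp only [K, hblock a c h]; ring
    have htr : (P * adM σ * tauDer H ρ).trace =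
        (A * (p * (d.Rᵀ * tauDer H ρ * d.R))).trace := by
      have e : A * (p * (d.Rᵀ * tauDer H ρ * d.R)) =
          d.Rᵀ * (P * adM σ * P * tauDer H ρ * d.R) := by
        simp only [A, p, Matrix.mul_assoc]
        rw [← Matrix.mul_assoc d.R d.Rᵀ, d.R_mul_transpose, Matrix.one_mul,
          ← Matrix.mul_assoc d.R d.Rᵀ, d.R_mul_transpose, Matrix.one_mul]
      rw [e, trace_mul_comm d.Rᵀ, Matrix.mul_assoc (P * adM σ * P * tauDer H ρ) d.R,
        d.R_mul_transpose, Matrix.mul_one, Matrix.mul_assoc P (adM σ) P, ← hPσ,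
        ← Matrix.mul_assoc, hPP]
    have hAs : Aᵀ = A := by
      simp only [A, transpose_mul, transpose_transpose, adM_symm hσ, hPt, ← hPσ]
      simp [Matrix.mul_assoc]
    have hBs : Bᵀ = B := by
      simp only [B, transpose_mul, transpose_transpose, adM_symm hρ, hPt, ← hPρ]
      simp [Matrix.mul_assoc]
    rw [htr]
    show ∑ a, (A * (p * (d.Rᵀ * tauDer H ρ * d.R))) a a = _
    refine Finset.sum_congr rfl fun a _ => ?_
    rw [mul_apply]
    refine Finset.sum_congr rfl fun b _ => ?_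
    rw [hM, hKs b a]
    have : B b a = B a b := congrFun (congrFun hBs a) b
    rw [this]
    ring
  constructor
  · rw [key σ ρ hσ hρ hPσ hPρ, key ρ σ hρ hσ hPρ hPσ]
    simp only [mul_comm ((d.Rᵀ * (P * adM σ) * d.R) _ _)]
  · rw [key σ σ hσ hσ hPσ hPσ]
    exact Finset.sum_nonneg fun a _ => Finset.sum_nonneg fun b _ =>
      mul_nonneg (hKpos a b) (mul_self_nonneg _)

end Diag

end Vale.Agent.P219
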