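import Mathlib
import Vale.Agent.P219.Defs
import Vale.Agent.P219.Ad

/-!
# P219 : the invariant projection attached to a Lie triple system
-/

open Matrix
open scoped Kronecker RealInnerProductSpace

set_option autoImplicit false

namespace Vale.Agent.P219

variable {N n : ℕ}

/-- A square root of `C` commuting with every matrix that commutes with `C`. -/
lemma exists_root {C : Mat N} (hC : C.PosDef) :
    ∃ W : Mat N, Wᵀ = W ∧ W * W = C ∧ ∀ X : Mat N, C * X = X * C → W * X = X * W := by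
  have hs : Cᵀ = C := by
    simpa [Matrix.IsHermitian, conjTranspose_eq_transpose_of_trivial] using hC.isHermitian
  obtain ⟨d⟩ := exists_diag hs
  have hdiag : diagonal d.h = d.Uᵀ * C * d.U := by
    calc diagonal d.h = (d.Uᵀ * d.U) * diagonal d.h * (d.Uᵀ * d.U) := by simp [d.hUU']
      _ = d.Uᵀ * (d.U * diagonal d.h * d.Uᵀ) * d.U := by simp only [Matrix.mul_assoc]
      _ = _ := by rw [← d.hH]
  have hpos : ∀ i, 0 < d.h i := by
    intro i
    have hpd : (diagonal d.h).PosDef := by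
      rw [hdiag, ← conjTranspose_eq_transpose_of_trivial]
      refine hC.conjTranspose_mul_mul_same ?_
      intro v w hvw
      have := congrArg (d.Uᵀ *ᵥ ·) hvw
      simpa [mulVec_mulVec, d.hUU'] using this
    exact Matrix.posDef_diagonal_iff.1 hpd i
  refine ⟨d.U * diagonal (fun i => Real.sqrt (d.h i)) * d.Uᵀ, ?_, ?_, ?_⟩
  · simp [transpose_mul, Matrix.mul_assoc]
  · calc d.U * diagonal (fun i => Real.sqrt (d.h i)) * d.Uᵀ *
          (d.U * diagonal (fun i => Real.sqrt (d.h i)) * d.Uᵀ)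
        = d.U * (diagonal (fun i => Real.sqrt (d.h i)) * (d.Uᵀ * d.U) *
            diagonal (fun i => Real.sqrt (d.h i))) * d.Uᵀ := by simp only [Matrix.mul_assoc]
      _ = d.U * diagonal d.h * d.Uᵀ := by
          simp [d.hUU', Real.mul_self_sqrt (hpos _).le]
      _ = C := d.hH.symm
  · intro X hX
    have hY : diagonal d.h * (d.Uᵀ * X * d.U) = (d.Uᵀ * X * d.U) * diagonal d.h := by
      rw [hdiag]
      calc d.Uᵀ * C * d.U * (d.Uᵀ * X * d.U)
          = d.Uᵀ * (C * ((d.U * d.Uᵀ) * X)) * d.U := by simp only [Matrix.mul_assoc]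
        _ = d.Uᵀ * (X * ((d.U * d.Uᵀ) * C)) * d.U := by simp [d.hUU, hX]
        _ = _ := by simp only [Matrix.mul_assoc]
    have hS : diagonal (fun i => Real.sqrt (d.h i)) * (d.Uᵀ * X * d.U) =
        (d.Uᵀ * X * d.U) * diagonal (fun i => Real.sqrt (d.h i)) := by
      ext i j
      have := congrFun (congrFun hY i) j
      simp only [diagonal_mul, mul_diagonal] at this ⊢
      by_cases hz : (d.Uᵀ * X * d.U) i j = 0
      · simp [hz]
      · have : d.h i = d.h j := mul_right_cancel₀ hz (by linarith)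
        rw [this]; ring
    calc d.U * diagonal (fun i => Real.sqrt (d.h i)) * d.Uᵀ * X
        = d.U * (diagonal (fun i => Real.sqrt (d.h i)) * (d.Uᵀ * X * d.U)) * d.Uᵀ := by
          simp [Matrix.mul_assoc, d.hUU]
      _ = d.U * ((d.Uᵀ * X * d.U) * diagonal (fun i => Real.sqrt (d.h i))) * d.Uᵀ := by rw [hS]
      _ = X * (d.U * diagonal (fun i => Real.sqrt (d.h i)) * d.Uᵀ) := by
          simp only [← Matrix.mul_assoc, d.hUU, Matrix.one_mul]

variable {C : Mat N} {ι : Coord n →ₗ[ℝ] Mat N}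

/-- The standing data: a root of `C`. -/
structure Data (C : Mat N) (ι : Coord n →ₗ[ℝ] Mat N) where
  /-- the square root of `C` -/
  W : Mat N
  hT : IsLieTriple C ι
  hW : Wᵀ = W
  hWW : W * W = C
  hWcomm : ∀ X : Mat N, C * X = X * C → W * X = X * W

lemma exists_data (h : IsLieTriple C ι) : Nonempty (Data C ι) := by
  obtain ⟨W, h1, h2, h3⟩ := exists_root h.1
  exact ⟨⟨W, h, h1, h2, h3⟩⟩

namespace Data

variable (D : Data C ι)
include D

lemma symm (x : Coord n) : (ι x)ᵀ = ι x := D.hT.2.1 x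

lemma W_comm (x : Coord n) : D.W * ι x = ι x * D.W := D.hWcomm _ (D.hT.2.2.1 x)

lemma adM_symm' (x : Coord n) : (adM (ι x))ᵀ = adM (ι x) := adM_symm (D.symm x)

/-- The isometric embedding of the coordinate space in vectorised matrices. -/
def emb : Coord n →ₗ[ℝ] (Idx N → ℝ) where
  toFun x := vec (D.W * ι x)
  map_add' x y := by rw [map_add, Matrix.mul_add, vec_add]
  map_smul' c x := by rw [map_smul, Matrix.mul_smul, vec_smul]; rfl

lemma emb_apply (x : Coord n) : D.emb x = vec (D.W * ι x) := rfl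

lemma emb_dot (x y : Coord n) : D.emb x ⬝ᵥ D.emb y = ⟪x, y⟫ := by
  rw [D.emb_apply, D.emb_apply, vec_dotProduct_vec, transpose_mul, D.hW, D.symm,
    ← D.hT.2.2.2.1 x y, ← D.W_comm x]
  congr 1
  calc D.W * ι x * (D.W * ι y) = D.W * (ι x * D.W) * ι y := by simp only [Matrix.mul_assoc]
    _ = D.W * D.W * ι x * ι y := by rw [← D.W_comm x]; simp only [Matrix.mul_assoc]
    _ = C * ι x * ι y := by rw [D.hWW]

lemma adM_emb (x y : Coord n) :
    adM (ι x) *ᵥ D.emb y = vec (D.W * (ι x * ι y - ι y * ι x)) := by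
  rw [D.emb_apply, adM_mulVec]
  congr 1
  simp only [Matrix.mul_sub, ← Matrix.mul_assoc, D.W_comm x]

lemma adM_adM_emb (z x y : Coord n) :
    ∃ w, adM (ι z) *ᵥ (adM (ι x) *ᵥ D.emb y) = D.emb w := by
  obtain ⟨w, hw⟩ := D.hT.2.2.2.2 x y z
  refine ⟨-w, ?_⟩
  rw [D.adM_emb, adM_mulVec, D.emb_apply, map_neg, hw]
  congr 1
  simp only [Matrix.mul_neg, Matrix.mul_sub, Matrix.sub_mul, ← Matrix.mul_assoc, ← D.W_comm z]
  abel

/-- The orthonormal standard basis. -/
noncomputable def bas (k : Fin n) : Coord n := EuclideanSpace.single k 1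

omit D in
lemma sum_bas (x : Coord n) : ∑ k, ⟪bas k, x⟫ • bas k = x := by
  have := (EuclideanSpace.basisFun (Fin n) ℝ).sum_repr' x
  simpa [bas] using this

/-- The projection on the image of the coordinate space. -/
noncomputable def Ps : Op N := ∑ k, vecMulVec (D.emb (bas k)) (D.emb (bas k))

lemma Ps_mulVec (v : Idx N → ℝ) :
    D.Ps *ᵥ v = ∑ k, (D.emb (bas k) ⬝ᵥ v) • D.emb (bas k) := by
  simp only [Ps, sum_mulVec, vecMulVec_mulVec]
  refine Finset.sum_congr rfl fun k _ => ?_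
  ext p
  simp [mul_comm]

lemma Ps_emb (x : Coord n) : D.Ps *ᵥ D.emb x = D.emb x := by
  conv_rhs => rw [← sum_bas x]
  simp [D.Ps_mulVec, D.emb_dot, map_sum]

lemma Ps_mulVec_mem (v : Idx N → ℝ) : ∃ x, D.Ps *ᵥ v = D.emb x :=
  ⟨∑ k, (D.emb (bas k) ⬝ᵥ v) • bas k, by simp [D.Ps_mulVec, map_sum]⟩

lemma Ps_transpose : D.Psᵀ = D.Ps := by
  simp [Ps, transpose_sum, transpose_vecMulVec]

lemma Ps_idem : D.Ps * D.Ps = D.Ps := by
  refine ext_of_mulVec_single fun p => ?_
  rw [← mulVec_mulVec]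
  obtain ⟨x, hx⟩ := D.Ps_mulVec_mem (Pi.single p 1)
  rw [hx, D.Ps_emb]

/-- The second summand of the invariant space. -/
noncomputable def kSpace : Submodule ℝ (EuclideanSpace ℝ (Idx N)) :=
  Submodule.span ℝ (Set.range fun q : Coord n × Coord n =>
    WithLp.toLp 2 (adM (ι q.1) *ᵥ D.emb q.2))

/-- The orthogonal projection on `kSpace`. -/
noncomputable def Pk : Op N :=
  Matrix.toEuclideanLin.symm (D.kSpace.starProjection : _ →ₗ[ℝ] _)

lemma Pk_mulVec (v : Idx N → ℝ) :
    D.Pk *ᵥ v = WithLp.ofLp (D.kSpace.starProjection (WithLp.toLp 2 v)) := by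
  have h : Matrix.toEuclideanLin D.Pk = (D.kSpace.starProjection : _ →ₗ[ℝ] _) :=
    LinearEquiv.apply_symm_apply _ _
  have := congrArg (fun L => WithLp.ofLp (L (WithLp.toLp 2 v))) h
  simpa [Matrix.toLpLin_apply] using this

lemma Pk_idem : D.Pk * D.Pk = D.Pk := by
  refine ext_of_mulVec_single fun p => ?_
  rw [← mulVec_mulVec, D.Pk_mulVec, D.Pk_mulVec]
  congr 1
  exact Submodule.starProjection_eq_self_iff.2 (Submodule.starProjection_apply_mem _ _)

lemma Pk_transpose : D.Pkᵀ = D.Pk := by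
  have h : Matrix.toEuclideanLin D.Pk = (D.kSpace.starProjection : _ →ₗ[ℝ] _) :=
    LinearEquiv.apply_symm_apply _ _
  have hs : (Matrix.toEuclideanLin D.Pk).IsSymmetric := by
    rw [h]; exact D.kSpace.starProjection_isSymmetric
  have := isSymmetric_toEuclideanLin_iff.1 hs
  simpa [Matrix.IsHermitian, conjTranspose_eq_transpose_of_trivial] using this

lemma dot_adM (z : Coord n) (u v : Idx N → ℝ) :
    u ⬝ᵥ (adM (ι z) *ᵥ v) = (adM (ι z) *ᵥ u) ⬝ᵥ v := by
  rw [dotProduct_mulVec, ← mulVec_transpose, D.adM_symm']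

lemma kSpace_map (z : Coord n) {v : EuclideanSpace ℝ (Idx N)} (hv : v ∈ D.kSpace) :
    ∃ x, adM (ι z) *ᵥ WithLp.ofLp v = D.emb x := by
  induction hv using Submodule.span_induction with
  | mem v hv =>
    obtain ⟨q, rfl⟩ := hv
    exact D.adM_adM_emb z q.1 q.2
  | zero => exact ⟨0, by simp⟩
  | add a b _ _ ha hb =>
    obtain ⟨x, hx⟩ := ha
    obtain ⟨y, hy⟩ := hb
    exact ⟨x + y, by rw [WithLp.ofLp_add, mulVec_add, hx, hy, map_add]⟩
  | smul c a _ ha =>
    obtain ⟨x, hx⟩ := ha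
    exact ⟨c • x, by rw [WithLp.ofLp_smul, mulVec_smul, hx, map_smul]⟩

lemma adM_mul_Pk (z : Coord n) : adM (ι z) * D.Pk = D.Ps * adM (ι z) := by
  refine ext_of_mulVec_single fun p => ?_
  set v : Idx N → ℝ := Pi.single p 1
  rw [← mulVec_mulVec, ← mulVec_mulVec, D.Pk_mulVec]
  set e := WithLp.toLp 2 v
  obtain ⟨x, hx⟩ := D.kSpace_map z (Submodule.starProjection_apply_mem D.kSpace e)
  have hv : v = WithLp.ofLp (D.kSpace.starProjection e) +
      WithLp.ofLp (e - D.kSpace.starProjection e) := by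
    simp [e]
  conv_rhs => rw [hv, mulVec_add, mulVec_add, hx, D.Ps_emb]
  have h0 : D.Ps *ᵥ (adM (ι z) *ᵥ WithLp.ofLp (e - D.kSpace.starProjection e)) = 0 := by
    rw [D.Ps_mulVec]
    refine Finset.sum_eq_zero fun k _ => ?_
    have := Submodule.starProjection_inner_eq_zero (K := D.kSpace) e
      (WithLp.toLp 2 (adM (ι z) *ᵥ D.emb (bas k))) (Submodule.subset_span ⟨(z, bas k), rfl⟩)
    rw [EuclideanSpace.inner_eq_star_dotProduct] at this
    rw [D.dot_adM]
    simp at this ⊢
    simp [this]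
  rw [h0, add_zero]
  exact hx

lemma Pk_mul_adM (z : Coord n) : D.Pk * adM (ι z) = adM (ι z) * D.Ps := by
  have := congrArg transpose (D.adM_mul_Pk z)
  simpa [transpose_mul, D.Pk_transpose, D.Ps_transpose, D.adM_symm'] using this

lemma dot_emb_adM (a x b : Coord n) : D.emb a ⬝ᵥ (adM (ι x) *ᵥ D.emb b) = 0 := by
  rw [D.adM_emb, D.emb_apply, vec_dotProduct_vec, transpose_mul, D.hW, D.symm]
  have e : ι a * D.W * (D.W * (ι x * ι b - ι b * ι x)) =
      C * (ι a * ι x * ι b) - C * (ι a * ι b * ι x) := by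
    rw [Matrix.mul_assoc, ← Matrix.mul_assoc D.W, D.hWW, ← Matrix.mul_assoc (ι a),
      ← D.hT.2.2.1 a]
    simp only [Matrix.mul_sub, Matrix.mul_assoc]
  rw [e, trace_sub, sub_eq_zero]
  have hCs : Cᵀ = C := by
    simpa [Matrix.IsHermitian, conjTranspose_eq_transpose_of_trivial] using D.hT.1.isHermitian
  calc (C * (ι a * ι x * ι b)).trace = (C * (ι a * ι x * ι b))ᵀ.trace := (trace_transpose _).symm
    _ = (ι b * ι x * ι a * C).trace := by
        simp [transpose_mul, D.symm, hCs, Matrix.mul_assoc]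
    _ = (ι b * ι x * C * ι a).trace := by
        rw [Matrix.mul_assoc _ (ι a) C, ← D.hT.2.2.1 a, ← Matrix.mul_assoc]
    _ = (ι a * ι b * (ι x * C)).trace := by
        rw [trace_mul_comm]; simp only [Matrix.mul_assoc]
    _ = (C * (ι a * ι b * ι x)).trace := by
        rw [← Matrix.mul_assoc, trace_mul_comm]

lemma Ps_mul_Pk : D.Ps * D.Pk = 0 := by
  refine ext_of_mulVec_single fun p => ?_
  rw [← mulVec_mulVec, D.Pk_mulVec, D.Ps_mulVec, zero_mulVec]
  refine Finset.sum_eq_zero fun k _ => ?_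
  have hmem := Submodule.starProjection_apply_mem D.kSpace (WithLp.toLp 2 (Pi.single p (1:ℝ)))
  generalize D.kSpace.starProjection (WithLp.toLp 2 (Pi.single p (1:ℝ))) = v at hmem ⊢
  induction hmem using Submodule.span_induction with
  | mem v hv =>
    obtain ⟨q, rfl⟩ := hv
    simp [D.dot_emb_adM]
  | zero => simp
  | add a b _ _ ha hb =>
    rw [WithLp.ofLp_add, dotProduct_add, add_smul, ha, hb, add_zero]
  | smul c a _ ha =>
    rw [WithLp.ofLp_smul, dotProduct_smul, smul_assoc, ha, smul_zero]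

/-- The projection on the invariant space. -/
noncomputable def P : Op N := D.Ps + D.Pk

lemma P_transpose : D.Pᵀ = D.P := by
  simp [P, D.Ps_transpose, D.Pk_transpose]

lemma P_idem : D.P * D.P = D.P := by
  have h2 : D.Pk * D.Ps = 0 := by
    have := congrArg transpose D.Ps_mul_Pk
    simpa [transpose_mul, D.Ps_transpose, D.Pk_transpose] using this
  simp [P, Matrix.add_mul, Matrix.mul_add, D.Ps_idem, D.Pk_idem, D.Ps_mul_Pk, h2]

lemma P_comm (z : Coord n) : D.P * adM (ι z) = adM (ι z) * D.P := by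
  rw [P, Matrix.add_mul, Matrix.mul_add, D.adM_mul_Pk, D.Pk_mul_adM, add_comm]

lemma trace_P_eq (z : Coord n) {T : Op N} (hT : Tᵀ = T) :
    (D.P * adM (ι z) * T).trace = 2 * (D.Ps * adM (ι z) * T).trace := by
  have h : (D.Pk * adM (ι z) * T).trace = (D.Ps * adM (ι z) * T).trace := by
    calc (D.Pk * adM (ι z) * T).trace = (adM (ι z) * (D.Ps * T)).trace := by
          rw [D.Pk_mul_adM, Matrix.mul_assoc]
      _ = (D.Ps * T * adM (ι z)).trace := trace_mul_comm _ _
      _ = (adM (ι z) * T * D.Ps).trace := by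
          rw [← trace_transpose]
          simp [transpose_mul, D.Ps_transpose, D.adM_symm', hT, Matrix.mul_assoc]
      _ = (D.Ps * (adM (ι z) * T)).trace := trace_mul_comm _ _
      _ = _ := by rw [Matrix.mul_assoc]
  rw [P, Matrix.add_mul, Matrix.add_mul, trace_add, h]
  ring

end Data

end Vale.Agent.P219
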