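import Mathlib
import Vale.Agent.P219.Defs
import Vale.Agent.P219.Ad
import Vale.Agent.P219.Setup
import Vale.Agent.P219.Kernel

/-!
# P219 : the exponential chart and its metric operator
-/

open Matrix NormedSpace
open scoped Kronecker RealInnerProductSpace Matrix.Norms.Operator

set_option autoImplicit false
set_option backward.isDefEq.respectTransparency false

namespace Vale.Agent.P219

variable {N n : ℕ}

/-- Inverse of `vec`. -/
def unvec (v : Idx N → ℝ) : Mat N := Matrix.of fun i j => v (j, i)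

lemma vec_unvec (v : Idx N → ℝ) : vec (unvec v) = v := by
  ext p; simp [unvec]

lemma contDiff_matExp {k : WithTop ℕ∞} : ContDiff ℝ k (NormedSpace.exp : Mat N → Mat N) :=
  contDiff_iff_contDiffAt.2 fun x => (exp_analytic (𝕂 := ℝ) x).contDiffAt

lemma differentiableAt_matExp (H : Mat N) :
    DifferentiableAt ℝ (NormedSpace.exp : Mat N → Mat N) H :=
  (contDiff_matExp (k := 1)).differentiable one_ne_zero H

lemma fderiv_exp_commute {H Z : Mat N} (h : Commute H Z) :
    fderiv ℝ (NormedSpace.exp : Mat N → Mat N) H Z = NormedSpace.exp H * Z := by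
  have h1 : HasDerivAt (fun t : ℝ => NormedSpace.exp (H + t • Z))
      (fderiv ℝ (NormedSpace.exp : Mat N → Mat N) H Z) 0 := by
    have hc : HasDerivAt (fun t : ℝ => H + t • Z) Z 0 := by
      simpa using ((hasDerivAt_id (0:ℝ)).smul_const Z).const_add H
    exact (differentiableAt_matExp H).hasFDerivAt.comp_hasDerivAt_of_eq (0:ℝ) hc (by simp)
  have h2 : HasDerivAt (fun t : ℝ => NormedSpace.exp (H + t • Z))
      (NormedSpace.exp H * Z) 0 := by
    have e : (fun t : ℝ => NormedSpace.exp (H + t • Z)) =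
        fun t : ℝ => NormedSpace.exp H * NormedSpace.exp (t • Z) :=
      funext fun t => exp_add_of_commute _ _ (h.smul_right t)
    rw [e]
    simpa using (hasDerivAt_exp_smul_const (𝕂 := ℝ) Z (0:ℝ)).const_mul (NormedSpace.exp H)
  exact h1.unique h2

lemma fderiv_exp_bracket (H w : Mat N) :
    fderiv ℝ (NormedSpace.exp : Mat N → Mat N) H (w * H - H * w) =
      w * NormedSpace.exp H - NormedSpace.exp H * w := by
  have hd : ∀ M : Mat N, HasDerivAt
      (fun t : ℝ => NormedSpace.exp (t • w) * M * NormedSpace.exp (t • (-w))) (w * M - M * w) 0 := by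
    intro M
    have := ((hasDerivAt_exp_smul_const (𝕂 := ℝ) w (0:ℝ)).mul_const M).mul
      (hasDerivAt_exp_smul_const (𝕂 := ℝ) (-w) (0:ℝ))
    refine this.congr_deriv ?_
    simp [sub_eq_add_neg]
  have h1 : HasDerivAt
      (fun t : ℝ => NormedSpace.exp (NormedSpace.exp (t • w) * H * NormedSpace.exp (t • (-w))))
      (fderiv ℝ (NormedSpace.exp : Mat N → Mat N) H (w * H - H * w)) 0 :=
    (differentiableAt_matExp H).hasFDerivAt.comp_hasDerivAt_of_eq (0:ℝ) (hd H) (by simp)
  have h2 := hd (NormedSpace.exp H)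
  have e : (fun t : ℝ =>
      NormedSpace.exp (NormedSpace.exp (t • w) * H * NormedSpace.exp (t • (-w)))) =
      fun t : ℝ => NormedSpace.exp (t • w) * NormedSpace.exp H * NormedSpace.exp (t • (-w)) := by
    funext t
    rw [smul_neg, Matrix.exp_neg, exp_conj _ _ (isUnit_exp _)]
  rw [e] at h1
  exact h1.unique h2

variable (ι : Coord n →ₗ[ℝ] Mat N)

/-- `exp (ι x / 2)`. -/
noncomputable def halfExp (x : Coord n) : Mat N := NormedSpace.exp ((1/2:ℝ) • ι x)

/-- `exp (-ι x / 2)`. -/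
noncomputable def halfExpNeg (x : Coord n) : Mat N := NormedSpace.exp ((-(1/2:ℝ)) • ι x)

lemma halfExp_mul_neg (x : Coord n) : halfExp ι x * halfExpNeg ι x = 1 := by
  rw [halfExp, halfExpNeg, ← exp_add_of_commute _ _ ((Commute.refl (ι x)).smul_left _ |>.smul_right _),
    ← add_smul]
  simp

lemma halfExpNeg_mul (x : Coord n) : halfExpNeg ι x * halfExp ι x = 1 :=
  mul_eq_one_comm.1 (halfExp_mul_neg ι x)

lemma halfExp_sq (x : Coord n) : halfExp ι x * halfExp ι x = pt ι x := by
  rw [halfExp, pt, ← exp_add_of_commute _ _ (Commute.refl _), ← add_smul]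
  norm_num

lemma pt_inv (x : Coord n) : (pt ι x)⁻¹ = halfExpNeg ι x * halfExpNeg ι x := by
  refine inv_eq_right_inv ?_
  rw [← halfExp_sq, Matrix.mul_assoc, ← Matrix.mul_assoc (halfExp ι x) (halfExpNeg ι x),
    halfExp_mul_neg, Matrix.one_mul, halfExp_mul_neg]

lemma contDiff_iota {k : WithTop ℕ∞} : ContDiff ℝ k (fun x => ι x) :=
  (ι.toContinuousLinearMap).contDiff

lemma contDiff_pt {k : WithTop ℕ∞} : ContDiff ℝ k (pt ι) :=
  contDiff_matExp.comp (contDiff_iota ι)

lemma contDiff_halfExp {k : WithTop ℕ∞} : ContDiff ℝ k (halfExp ι) :=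
  contDiff_matExp.comp ((contDiff_iota ι).const_smul (1/2:ℝ))

lemma contDiff_halfExpNeg {k : WithTop ℕ∞} : ContDiff ℝ k (halfExpNeg ι) :=
  contDiff_matExp.comp ((contDiff_iota ι).const_smul (-(1/2:ℝ)))

lemma fderiv_pt_apply (x v : Coord n) :
    fderiv ℝ (pt ι) x v = fderiv ℝ (NormedSpace.exp : Mat N → Mat N) (ι x) (ι v) := by
  have h := (differentiableAt_matExp (ι x)).hasFDerivAt.comp x
    (ι.toContinuousLinearMap.hasFDerivAt (x := x))
  exact congrArg (fun L : Coord n →L[ℝ] Mat N => L v)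
    (show fderiv ℝ (pt ι) x = _ from h.fderiv)

lemma dpt_eq (x v : Coord n) : dpt ι x v = fderiv ℝ (pt ι) x v := by
  have hline : HasDerivAt (fun t : ℝ => pt ι (x + t • v)) (fderiv ℝ (pt ι) x v) 0 := by
    have hc : HasDerivAt (fun t : ℝ => x + t • v) v 0 := by
      simpa using ((hasDerivAt_id (0:ℝ)).smul_const v).const_add x
    exact ((contDiff_pt ι (k := 1)).differentiable one_ne_zero x).hasFDerivAt.comp_hasDerivAt_of_eq
      (0:ℝ) hc (by simp)
  ext i j
  let L : Mat N →L[ℝ] ℝ :=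
    LinearMap.toContinuousLinearMap (Matrix.entryLinearMap ℝ ℝ i j)
  exact ((L.hasFDerivAt.comp_hasDerivAt (0:ℝ) hline)).deriv

lemma halfExp_transpose {x : Coord n} (hx : (ι x)ᵀ = ι x) :
    (halfExp ι x)ᵀ = halfExp ι x ∧ (halfExpNeg ι x)ᵀ = halfExpNeg ι x := by
  constructor <;> simp [halfExp, halfExpNeg, ← Matrix.exp_transpose, hx]

lemma qOp_mulVec {x : Coord n} (X : Mat N) :
    qOp (ι x) *ᵥ vec X = vec (halfExp ι x * X * halfExpNeg ι x) := by
  have e : (NormedSpace.exp ((-(1/2:ℝ)) • ι x)ᵀ)ᵀ = NormedSpace.exp ((-(1/2:ℝ)) • ι x) := by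
    rw [Matrix.exp_transpose, transpose_transpose]
  rw [qOp, kronecker_mulVec_vec, e, halfExp, halfExpNeg]

/-- The even function `2 sinh (t/2) / t`. -/
noncomputable def fW (t : ℝ) : ℝ :=
  if t = 0 then 1 else (Real.exp (t / 2) - Real.exp (-t / 2)) / t

lemma fW_even (t : ℝ) : fW (-t) = fW t := by
  unfold fW
  rcases eq_or_ne t 0 with h | h
  · simp [h]
  · simp only [neg_eq_zero, h, if_false, neg_neg]
    field_simp
    ring

lemma one_le_fW (t : ℝ) : 1 ≤ fW t := by
  rcases eq_or_ne t 0 with h | h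
  · simp [fW, h]
  · have key : ∀ s : ℝ, 0 < s → 1 ≤ (Real.exp (s / 2) - Real.exp (-s / 2)) / s := by
      intro s hs
      have h1 : s / 2 ≤ Real.sinh (s / 2) := Real.self_le_sinh_iff.2 (by linarith)
      rw [Real.sinh_eq, ← neg_div] at h1
      rw [le_div_iff₀ hs]
      linarith
    rcases lt_or_gt_of_ne h with hn | hp
    · rw [← fW_even]
      simpa [fW, h] using key (-t) (by linarith)
    · simpa [fW, h] using key t hp

variable {ι}

/-- The velocity of the chart, moved to the identity. -/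
theorem vel_eq (x v : Coord n) (d : Diag (ι x)) :
    vec (halfExpNeg ι x * fderiv ℝ (pt ι) x v * halfExpNeg ι x) =
      d.calc' fW *ᵥ vec (ι v) := by
  set S := halfExp ι x with hS
  set T := halfExpNeg ι x with hTdef
  let u := vec (ι v)
  let Z := unvec (d.calc' (fun t => if t = 0 then 1 else 0) *ᵥ u)
  let w := unvec (-(d.calc' (fun t => t⁻¹) *ᵥ u))
  have hvec : ∀ a b : Mat N, vec a = vec b → a = b := fun a b => vec_inj.1
  have hZc : Commute (ι x) Z := by
    have : vec ((ι x) * Z - Z * (ι x)) = 0 := by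
      rw [← adM_mulVec, vec_unvec, mulVec_mulVec, ← d.calc'_id, d.calc'_mul]
      have : d.calc' (fun t => id t * (if t = 0 then 1 else 0)) = 0 := by
        rw [Diag.calc', show (fun p => id (d.lam p) * (if d.lam p = 0 then (1:ℝ) else 0)) =
          fun _ => 0 from funext fun p => by split_ifs with h <;> simp [h]]
        simp
      rw [this, zero_mulVec]
    exact sub_eq_zero.1 (vec_eq_zero_iff.1 this)
  have hdec : ι v = Z + (w * (ι x) - (ι x) * w) := by
    apply hvec
    rw [vec_add, show w * (ι x) - (ι x) * w = -((ι x) * w - w * (ι x)) by abel, vec_neg, ← adM_mulVec,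
      vec_unvec, vec_unvec, mulVec_neg, neg_neg, mulVec_mulVec, ← d.calc'_id, d.calc'_mul,
      ← add_mulVec, d.calc'_add]
    have : d.calc' (fun t => (if t = 0 then 1 else 0) + id t * t⁻¹) = 1 := by
      rw [← d.calc'_one]
      refine d.calc'_congr fun p => ?_
      split_ifs with h <;> simp [h]
    rw [this, one_mulVec]
  have hD : fderiv ℝ (pt ι) x v = pt ι x * Z + (w * pt ι x - pt ι x * w) := by
    rw [fderiv_pt_apply, hdec, map_add, fderiv_exp_commute hZc, fderiv_exp_bracket]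
    rfl
  have hTP : T * pt ι x = S := by
    rw [hTdef, ← halfExp_sq, ← Matrix.mul_assoc, halfExpNeg_mul, Matrix.one_mul]
  have hPT : pt ι x * T = S := by
    rw [hTdef, ← halfExp_sq, Matrix.mul_assoc, halfExp_mul_neg, Matrix.mul_one]
  have hexp : T * fderiv ℝ (pt ι) x v * T = S * Z * T + (T * w * S - S * w * T) := by
    rw [hD]
    simp only [Matrix.mul_add, Matrix.mul_sub, Matrix.add_mul, Matrix.sub_mul]
    congr 1
    · rw [← Matrix.mul_assoc T, hTP]
    · congr 1
      · rw [Matrix.mul_assoc, Matrix.mul_assoc w, hPT, ← Matrix.mul_assoc]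
      · rw [← Matrix.mul_assoc T (pt ι x), hTP]
  have hQi : ∀ X : Mat N, vec (T * X * S) = d.calc' (fun t => Real.exp (-t / 2)) *ᵥ vec X := by
    intro X
    have hQ : qOp (ι x) * d.calc' (fun t => Real.exp (-t / 2)) = 1 := by
      rw [d.qOp_eq, d.calc'_mul, ← d.calc'_one]
      refine d.calc'_congr fun p => ?_
      rw [← Real.exp_add]
      simp [neg_div]
    have : qOp (ι x) *ᵥ vec (T * X * S) = vec X := by
      rw [qOp_mulVec]
      congr 1
      calc halfExp ι x * (T * X * S) * halfExpNeg ι x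
          = (halfExp ι x * halfExpNeg ι x) * X * (halfExp ι x * halfExpNeg ι x) := by
            simp only [hS, hTdef, Matrix.mul_assoc]
        _ = X := by rw [halfExp_mul_neg]; simp
    have h2 := mul_eq_one_comm.1 hQ
    calc vec (T * X * S) = (d.calc' (fun t => Real.exp (-t / 2)) * qOp (ι x)) *ᵥ vec (T * X * S) := by
          rw [h2, one_mulVec]
      _ = _ := by rw [← mulVec_mulVec, this]
  rw [hexp, vec_add, vec_sub, hQi, ← qOp_mulVec, ← qOp_mulVec, d.qOp_eq, vec_unvec, vec_unvec,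
    mulVec_neg, mulVec_neg, mulVec_mulVec, mulVec_mulVec, mulVec_mulVec, d.calc'_mul, d.calc'_mul,
    d.calc'_mul, neg_sub_neg, ← sub_mulVec, ← add_mulVec, d.calc'_sub, d.calc'_add]
  congr 1
  refine d.calc'_congr fun p => ?_
  unfold fW
  split_ifs with h
  · simp [h]
  · field_simp
    ring

variable {C : Mat N}

namespace Data

variable (D : Data C ι)
include D

/-- Coordinates of the projection on the image of the coordinate space. -/
noncomputable def coef : (Idx N → ℝ) →ₗ[ℝ] Coord n where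
  toFun v := ∑ k, (D.emb (bas k) ⬝ᵥ v) • bas k
  map_add' a b := by simp [dotProduct_add, add_smul, Finset.sum_add_distrib]
  map_smul' c a := by simp [dotProduct_smul, Finset.smul_sum, smul_smul]

lemma coef_emb (x : Coord n) : D.coef (D.emb x) = x := by
  show ∑ k, (D.emb (bas k) ⬝ᵥ D.emb x) • bas k = x
  simp only [D.emb_dot]
  exact sum_bas x

lemma emb_coef (v : Idx N → ℝ) : D.emb (D.coef v) = D.Ps *ᵥ v := by
  rw [D.Ps_mulVec]
  simp [coef, map_sum]

lemma emb_injective : Function.Injective D.emb := fun a b h => by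
  rw [← D.coef_emb a, h, D.coef_emb]

lemma inner_coef (y : Coord n) (v : Idx N → ℝ) : ⟪y, D.coef v⟫ = D.emb y ⬝ᵥ v := by
  conv_rhs => rw [← sum_bas y]
  simp [coef, inner_sum, inner_smul_right, map_sum, sum_dotProduct, mul_comm, real_inner_comm]

/-- The left multiplication by the root of `C`. -/
def leftW : Op N := (1 : Mat N) ⊗ₖ D.W

lemma leftW_mulVec (X : Mat N) : D.leftW *ᵥ vec X = vec (D.W * X) := by
  rw [leftW, kronecker_mulVec_vec, transpose_one, Matrix.mul_one]

lemma leftW_comm (x : Coord n) : D.leftW * adM (ι x) = adM (ι x) * D.leftW := by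
  simp [leftW, adM, Matrix.mul_sub, Matrix.sub_mul, ← mul_kronecker_mul, D.W_comm, D.symm]

lemma emb_range_adM2 (x : Coord n) :
    ∀ v ∈ LinearMap.range D.emb, adM (ι x) *ᵥ (adM (ι x) *ᵥ v) ∈ LinearMap.range D.emb := by
  rintro v ⟨y, rfl⟩
  obtain ⟨w, hw⟩ := D.adM_adM_emb x x y
  exact ⟨w, hw.symm⟩

lemma even_emb {x : Coord n} (d : Diag (ι x)) {f : ℝ → ℝ} (hf : ∀ t, f (-t) = f t) (v : Coord n) :
    D.emb (D.coef (d.calc' f *ᵥ D.emb v)) = d.calc' f *ᵥ D.emb v := by
  obtain ⟨y, hy⟩ := d.calc'_even_mem (LinearMap.range D.emb) (D.emb_range_adM2 x) hf ⟨v, rfl⟩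
  rw [← hy, D.coef_emb]

/-- The metric operator: `g (v, w) = ⟪Wl x v, Wl x w⟫`. -/
noncomputable def Wl (x : Coord n) : Coord n →L[ℝ] Coord n :=
  (D.coef.comp ((Matrix.mulVecLin D.leftW).comp
    ({ toFun := fun M : Mat N => vec (halfExpNeg ι x * M * halfExpNeg ι x)
       map_add' := fun a b => by rw [Matrix.mul_add, Matrix.add_mul, vec_add]
       map_smul' := fun c a => by rw [Matrix.mul_smul, Matrix.smul_mul, vec_smul]; rfl } :
      Mat N →ₗ[ℝ] (Idx N → ℝ)))).toContinuousLinearMap.comp (fderiv ℝ (pt ι) x)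

lemma Wl_apply (x v : Coord n) :
    D.Wl x v = D.coef (vec (D.W * (halfExpNeg ι x * fderiv ℝ (pt ι) x v * halfExpNeg ι x))) := by
  rw [← D.leftW_mulVec]
  rfl

lemma Wl_eq {x : Coord n} (d : Diag (ι x)) (v : Coord n) :
    D.Wl x v = D.coef (d.calc' fW *ᵥ D.emb v) := by
  rw [D.Wl_apply, ← D.leftW_mulVec, vel_eq x v d, mulVec_mulVec,
    d.comm_calc' (D.leftW_comm x) fW, ← mulVec_mulVec, D.leftW_mulVec, ← D.emb_apply]

lemma emb_Wl {x : Coord n} (d : Diag (ι x)) (v : Coord n) :
    D.emb (D.Wl x v) = d.calc' fW *ᵥ D.emb v := by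
  rw [D.Wl_eq d, D.even_emb d fW_even]

lemma emb_Wl_vel (x v : Coord n) :
    D.emb (D.Wl x v) = vec (D.W * (halfExpNeg ι x * fderiv ℝ (pt ι) x v * halfExpNeg ι x)) := by
  obtain ⟨d⟩ := exists_diag (D.symm x)
  rw [D.emb_Wl d, ← D.leftW_mulVec, vel_eq x v d, mulVec_mulVec,
    d.comm_calc' (D.leftW_comm x) fW, ← mulVec_mulVec, D.leftW_mulVec, ← D.emb_apply]

lemma Wl_symm (x u v : Coord n) : ⟪D.Wl x u, v⟫ = ⟪u, D.Wl x v⟫ := by
  obtain ⟨d⟩ := exists_diag (D.symm x)
  rw [← D.emb_dot, ← D.emb_dot, D.emb_Wl d, D.emb_Wl d, dotProduct_mulVec, ← mulVec_transpose,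
    d.calc'_transpose]

lemma norm_le_Wl (x v : Coord n) : ‖v‖ ≤ ‖D.Wl x v‖ := by
  obtain ⟨d⟩ := exists_diag (D.symm x)
  let a := d.Rᵀ *ᵥ D.emb v
  let b := fun p => fW (d.lam p) * a p
  have hb : D.emb (D.Wl x v) = d.R *ᵥ b := by
    rw [D.emb_Wl d, Diag.calc', ← mulVec_mulVec, ← mulVec_mulVec]
    congr 1
    funext p
    rw [mulVec_diagonal]
  have hR : ∀ c : Idx N → ℝ, (d.R *ᵥ c) ⬝ᵥ (d.R *ᵥ c) = c ⬝ᵥ c := fun c => by
    rw [dotProduct_mulVec, ← mulVec_transpose, mulVec_mulVec, d.transpose_mul_R, one_mulVec]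
  have h1 : ‖v‖ ^ 2 = a ⬝ᵥ a := by
    rw [← real_inner_self_eq_norm_sq, ← D.emb_dot, ← hR a]
    simp only [a, mulVec_mulVec, d.R_mul_transpose, one_mulVec]
  have h2 : ‖D.Wl x v‖ ^ 2 = b ⬝ᵥ b := by
    rw [← real_inner_self_eq_norm_sq, ← D.emb_dot, hb, hR]
  refine (pow_le_pow_iff_left₀ (norm_nonneg _) (norm_nonneg _) (two_ne_zero)).1 ?_
  rw [h1, h2]
  refine Finset.sum_le_sum fun p _ => ?_
  have hf := one_le_fW (d.lam p)
  have hq : 1 * 1 ≤ fW (d.lam p) * fW (d.lam p) := mul_le_mul hf hf zero_le_one (by linarith)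
  simp only [b]
  nlinarith [mul_self_nonneg (a p)]

lemma Wl_injective (x : Coord n) : Function.Injective (D.Wl x) := fun a b h => by
  have := D.norm_le_Wl x (a - b)
  rw [map_sub, h, sub_self, norm_zero] at this
  exact sub_eq_zero.1 (norm_le_zero_iff.1 this)

lemma inner_Wl (x v w : Coord n) :
    ⟪D.Wl x v, D.Wl x w⟫ = (C * (pt ι x)⁻¹ * dpt ι x v * (pt ι x)⁻¹ * dpt ι x w).trace := by
  set T := halfExpNeg ι x
  have hTs : Tᵀ = T := (halfExp_transpose ι (D.symm x)).2
  have hsym : ∀ z, (fderiv ℝ (pt ι) x z)ᵀ = fderiv ℝ (pt ι) x z := by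
    intro z
    rw [← dpt_eq]
    ext i j
    simp only [dpt, transpose_apply, Matrix.of_apply]
    congr 1
    funext t
    have : (pt ι (x + t • z))ᵀ = pt ι (x + t • z) := by
      rw [pt, ← Matrix.exp_transpose, D.symm]
    exact congrFun (congrFun this i) j
  have hTC : T * C = C * T := by
    have : Commute ((-(1/2:ℝ)) • ι x) C := (show Commute (ι x) C from (D.hT.2.2.1 x).symm).smul_left _
    exact (Commute.exp_left this).eq
  have hW2 : ∀ X : Mat N, D.W * (D.W * X) = C * X := fun X => by rw [← Matrix.mul_assoc, D.hWW]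
  rw [← D.emb_dot, D.emb_Wl_vel, D.emb_Wl_vel, vec_dotProduct_vec, transpose_mul, D.hW,
    transpose_mul, transpose_mul, hTs, hsym, dpt_eq, dpt_eq, pt_inv]
  calc (T * (fderiv ℝ (pt ι) x v * T) * D.W * (D.W * (T * fderiv ℝ (pt ι) x w * T))).trace
      = (T * fderiv ℝ (pt ι) x v * (T * C) * T * fderiv ℝ (pt ι) x w * T).trace := by
        simp only [Matrix.mul_assoc, hW2]
    _ = (T * fderiv ℝ (pt ι) x v * C * (T * T) * fderiv ℝ (pt ι) x w * T).trace := by
        rw [hTC]; simp only [Matrix.mul_assoc]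
    _ = ((T * T) * fderiv ℝ (pt ι) x v * (C * (T * T) * fderiv ℝ (pt ι) x w)).trace := by
        rw [trace_mul_comm]; simp only [Matrix.mul_assoc]
    _ = (C * (T * T) * fderiv ℝ (pt ι) x w * (T * T) * fderiv ℝ (pt ι) x v).trace := by
        rw [trace_mul_comm]; simp only [Matrix.mul_assoc]
    _ = _ := by
        rw [← trace_transpose]
        simp only [transpose_mul, hsym, hTs]
        have hCs : Cᵀ = C := by
          simpa [Matrix.IsHermitian, conjTranspose_eq_transpose_of_trivial] using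
            D.hT.1.isHermitian
        rw [hCs]
        calc (fderiv ℝ (pt ι) x v * (T * T * (fderiv ℝ (pt ι) x w * (T * T * C)))).trace
            = ((T * T * C) * fderiv ℝ (pt ι) x v * (T * T) * fderiv ℝ (pt ι) x w).trace := by
              rw [← Matrix.mul_assoc, ← Matrix.mul_assoc, trace_mul_comm]
              simp only [Matrix.mul_assoc]
          _ = _ := by
              have hTT : T * T * C = C * (T * T) := by
                rw [Matrix.mul_assoc, hTC, ← Matrix.mul_assoc, hTC, Matrix.mul_assoc]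
              rw [hTT]

lemma contDiff_Wl : ContDiff ℝ 1 D.Wl := by
  refine contDiff_clm_apply_iff.2 fun v => ?_
  have e : (fun x => D.Wl x v) = fun x =>
      D.coef.toContinuousLinearMap (D.leftW.mulVecLin.toContinuousLinearMap
        ((({ toFun := fun M : Mat N => vec M
             map_add' := fun a b => vec_add a b
             map_smul' := fun c a => vec_smul c a } : Mat N →ₗ[ℝ] (Idx N → ℝ))).toContinuousLinearMap
          (halfExpNeg ι x * fderiv ℝ (pt ι) x v * halfExpNeg ι x))) := rfl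
  rw [e]
  have h2 : ContDiff ℝ 1 (fun x => fderiv ℝ (pt ι) x v) :=
    ((contDiff_pt ι (k := 2)).fderiv_right le_rfl).clm_apply contDiff_const
  exact (ContinuousLinearMap.contDiff _).comp ((ContinuousLinearMap.contDiff _).comp
    ((ContinuousLinearMap.contDiff _).comp
      (((contDiff_halfExpNeg ι).mul h2).mul (contDiff_halfExpNeg ι))))

lemma gram_eq (x : Coord n) :
    gram C ι x = (LinearMap.toMatrix (EuclideanSpace.basisFun (Fin n) ℝ).toBasis
      (EuclideanSpace.basisFun (Fin n) ℝ).toBasis (D.Wl x).toLinearMap)ᵀ *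
      LinearMap.toMatrix (EuclideanSpace.basisFun (Fin n) ℝ).toBasis
      (EuclideanSpace.basisFun (Fin n) ℝ).toBasis (D.Wl x).toLinearMap := by
  ext i j
  simp only [gram, Matrix.of_apply, mul_apply, transpose_apply]
  rw [← D.inner_Wl, PiLp.inner_apply]
  simp [LinearMap.toMatrix_apply, mul_comm]

lemma volDensity_eq (x : Coord n) :
    volDensity C ι x = |LinearMap.det (D.Wl x).toLinearMap| := by
  rw [volDensity, D.gram_eq, det_mul, det_transpose, LinearMap.det_toMatrix,
    Real.sqrt_mul_self_eq_abs]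

lemma Wl_surjective (x : Coord n) : Function.Surjective (D.Wl x) :=
  (LinearMap.injective_iff_surjective (f := (D.Wl x).toLinearMap)).1 (D.Wl_injective x)

lemma volDensity_pos (x : Coord n) : 0 < volDensity C ι x := by
  rw [D.volDensity_eq]
  refine abs_pos.2 fun h => ?_
  obtain ⟨v, hv, hv0⟩ := (Submodule.ne_bot_iff _).1 (LinearMap.bot_lt_ker_of_det_eq_zero h).ne'
  exact hv0 (D.Wl_injective x (by simpa using LinearMap.mem_ker.1 hv))

lemma continuous_volDensity : Continuous (volDensity C ι) := by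
  rw [funext D.volDensity_eq]
  exact (ContinuousLinearMap.continuous_det.comp D.contDiff_Wl.continuous).abs

lemma gradNorm_bound (u : Coord n → ℝ) (x ξ : Coord n) :
    |fderiv ℝ u x ξ| ≤ gradNorm C ι u x * ‖D.Wl x ξ‖ := by
  set M := LinearMap.toMatrix (EuclideanSpace.basisFun (Fin n) ℝ).toBasis
      (EuclideanSpace.basisFun (Fin n) ℝ).toBasis (D.Wl x).toLinearMap with hM
  set g : Fin n → ℝ := fun i => fderiv ℝ u x (EuclideanSpace.single i 1) with hg
  have hdet : IsUnit M.det := by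
    rw [hM, LinearMap.det_toMatrix]
    refine isUnit_iff_ne_zero.2 fun h => ?_
    have := D.volDensity_pos x
    rw [D.volDensity_eq, h, abs_zero] at this
    exact lt_irrefl _ this
  set z : Fin n → ℝ := M⁻¹ᵀ *ᵥ g with hz
  have hgn : gradNorm C ι u x = Real.sqrt (z ⬝ᵥ z) := by
    rw [gradNorm, D.gram_eq, ← hM, ← hg, Matrix.mul_inv_rev, ← mulVec_mulVec,
      ← transpose_nonsing_inv, dotProduct_mulVec, ← mulVec_transpose]
  have hlin : fderiv ℝ u x ξ = g ⬝ᵥ WithLp.ofLp ξ := by
    conv_lhs => rw [← (EuclideanSpace.basisFun (Fin n) ℝ).sum_repr ξ]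
    simp only [map_sum, map_smul, dotProduct, hg, EuclideanSpace.basisFun_apply,
      EuclideanSpace.basisFun_repr, smul_eq_mul]
    exact Finset.sum_congr rfl fun i _ => mul_comm _ _
  have hWl : WithLp.ofLp (D.Wl x ξ) = M *ᵥ WithLp.ofLp ξ := by
    rw [hM]
    exact (LinearMap.toMatrix_mulVec_repr (EuclideanSpace.basisFun (Fin n) ℝ).toBasis
      (EuclideanSpace.basisFun (Fin n) ℝ).toBasis (D.Wl x).toLinearMap ξ).symm
  have key : fderiv ℝ u x ξ = ⟪WithLp.toLp 2 z, D.Wl x ξ⟫ := by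
    rw [EuclideanSpace.inner_eq_star_dotProduct, hlin, hWl]
    simp only [star_trivial]
    rw [dotProduct_comm _ z, hz, mulVec_transpose, ← dotProduct_mulVec, mulVec_mulVec,
      nonsing_inv_mul _ hdet, one_mulVec]
  have hnorm : ‖(WithLp.toLp 2 z : Coord n)‖ = Real.sqrt (z ⬝ᵥ z) := by
    rw [norm_eq_sqrt_real_inner, EuclideanSpace.inner_eq_star_dotProduct]
    simp
  rw [key, hgn, ← hnorm]
  exact abs_real_inner_le_norm _ _

end Data

end Vale.Agent.P219
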