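import Mathlib
import Vale.Agent.P219.Defs
import Vale.Agent.P219.Ad
import Vale.Agent.P219.Setup
import Vale.Agent.P219.Kernel
import Vale.Agent.P219.Exp

/-!
# P219 : the moving frame, its divergence and the chart made of it
-/

open Matrix NormedSpace
open scoped Kronecker RealInnerProductSpace Matrix.Norms.Operator

set_option autoImplicit false
set_option backward.isDefEq.respectTransparency false

namespace Vale.Agent.P219

variable {N n : ℕ}

/-- The inverse of `qOp H`. -/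
noncomputable def qOpI (H : Mat N) : Op N :=
  NormedSpace.exp ((1/2:ℝ) • H)ᵀ ⊗ₖ NormedSpace.exp ((-(1/2:ℝ)) • H)

/-- `cosh (adM H / 2)`. -/
noncomputable def chOp (H : Mat N) : Op N := (1/2:ℝ) • (qOp H + qOpI H)

namespace Diag

variable {H : Mat N} (d : Diag H)
include d

lemma qOpI_eq : qOpI H = d.calc' (fun t => Real.exp (-t / 2)) := by
  rw [qOpI, transpose_smul, show Hᵀ = H by rw [d.hH]; simp [transpose_mul, Matrix.mul_assoc],
    d.exp_smul_eq, d.exp_smul_eq, mul_kronecker_mul, mul_kronecker_mul,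
    diagonal_kronecker_diagonal, kroneckerMap_transpose]
  rw [Diag.calc', Diag.R]
  congr 3
  funext p
  rw [← Real.exp_add]
  congr 1
  simp only [Diag.lam]
  ring

lemma chOp_eq : chOp H = d.calc' (fun t => Real.cosh (t / 2)) := by
  rw [chOp, d.qOp_eq, d.qOpI_eq, d.calc'_add, d.calc'_smul]
  refine d.calc'_congr fun p => ?_
  rw [Real.cosh_eq, neg_div]
  ring

lemma chOp_inv : (chOp H)⁻¹ = d.calc' (fun t => 1 / Real.cosh (t / 2)) := by
  refine inv_eq_right_inv ?_
  rw [d.chOp_eq, d.calc'_mul, ← d.calc'_one]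
  refine d.calc'_congr fun p => ?_
  have := Real.cosh_pos (d.lam p / 2)
  field_simp

end Diag

section calculus

variable {G : Type*} [NormedAddCommGroup G] [NormedSpace ℝ G]

lemma contDiff_kron {a b : G → Mat N} {k : WithTop ℕ∞} (ha : ContDiff ℝ k a)
    (hb : ContDiff ℝ k b) : ContDiff ℝ k (fun t => a t ⊗ₖ b t) := by
  let L : Mat N →L[ℝ] Op N :=
    LinearMap.toContinuousLinearMap
      ({ toFun := fun A => A ⊗ₖ (1 : Mat N)
         map_add' := fun A B => add_kronecker A B 1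
         map_smul' := fun c A => smul_kronecker c A 1 } : Mat N →ₗ[ℝ] Op N)
  let M : Mat N →L[ℝ] Op N :=
    LinearMap.toContinuousLinearMap
      ({ toFun := fun A => (1 : Mat N) ⊗ₖ A
         map_add' := fun A B => kronecker_add 1 A B
         map_smul' := fun c A => kronecker_smul c 1 A } : Mat N →ₗ[ℝ] Op N)
  have e : (fun t => a t ⊗ₖ b t) = fun t => L (a t) * M (b t) := by
    funext t
    show _ = (a t ⊗ₖ (1 : Mat N)) * ((1 : Mat N) ⊗ₖ b t)
    rw [← mul_kronecker_mul, Matrix.mul_one, Matrix.one_mul]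
  rw [e]
  exact (L.contDiff.comp ha).mul (M.contDiff.comp hb)

lemma hasDerivAt_kron {a b : ℝ → Mat N} {a' b' : Mat N} {t : ℝ} (ha : HasDerivAt a a' t)
    (hb : HasDerivAt b b' t) :
    HasDerivAt (fun s => a s ⊗ₖ b s) (a' ⊗ₖ b t + a t ⊗ₖ b') t := by
  let L : Mat N →L[ℝ] Op N :=
    LinearMap.toContinuousLinearMap
      ({ toFun := fun A => A ⊗ₖ (1 : Mat N)
         map_add' := fun A B => add_kronecker A B 1
         map_smul' := fun c A => smul_kronecker c A 1 } : Mat N →ₗ[ℝ] Op N)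
  let M : Mat N →L[ℝ] Op N :=
    LinearMap.toContinuousLinearMap
      ({ toFun := fun A => (1 : Mat N) ⊗ₖ A
         map_add' := fun A B => kronecker_add 1 A B
         map_smul' := fun c A => kronecker_smul c 1 A } : Mat N →ₗ[ℝ] Op N)
  have e : ∀ A B : Mat N, L A * M B = A ⊗ₖ B := by
    intro A B
    show (A ⊗ₖ (1 : Mat N)) * ((1 : Mat N) ⊗ₖ B) = _
    rw [← mul_kronecker_mul, Matrix.mul_one, Matrix.one_mul]
  have h1 := (L.hasFDerivAt.comp_hasDerivAt t ha).mul (M.hasFDerivAt.comp_hasDerivAt t hb)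
  have e2 : (fun s => L (a s) * M (b s)) = fun s => a s ⊗ₖ b s := funext fun s => e _ _
  rw [← e2, ← e a' (b t), ← e (a t) b']
  exact h1

lemma contDiffAt_matInv {ι' : Type*} [Fintype ι'] [DecidableEq ι'] {A : Matrix ι' ι' ℝ}
    (hA : IsUnit A) {k : WithTop ℕ∞} :
    ContDiffAt ℝ k (fun M : Matrix ι' ι' ℝ => M⁻¹) A := by
  obtain ⟨u, rfl⟩ := hA
  have e : (fun M : Matrix ι' ι' ℝ => M⁻¹) = Ring.inverse := funext nonsing_inv_eq_ringInverse
  rw [e]
  exact contDiffAt_ringInverse ℝ u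

lemma hasDerivAt_matInv {ι' : Type*} [Fintype ι'] [DecidableEq ι'] {f : ℝ → Matrix ι' ι' ℝ}
    {f' : Matrix ι' ι' ℝ} {t : ℝ} (hf : HasDerivAt f f' t) (hu : IsUnit (f t)) :
    HasDerivAt (fun s => (f s)⁻¹) (-((f t)⁻¹ * f' * (f t)⁻¹)) t := by
  obtain ⟨u, hu⟩ := hu
  have e : (fun s => (f s)⁻¹) = fun s => Ring.inverse (f s) :=
    funext fun s => nonsing_inv_eq_ringInverse _
  have h := (hasFDerivAt_ringInverse (𝕜 := ℝ) u).comp_hasDerivAt_of_eq t hf hu
  rw [e]
  refine h.congr_deriv ?_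
  rw [← hu, ← Matrix.coe_units_inv]
  simp [ContinuousLinearMap.mulLeftRight_apply]

end calculus

lemma tanh_nn {t : ℝ} (h : 0 ≤ t) : 0 ≤ Real.tanh t := by
  rw [Real.tanh_eq_sinh_div_cosh]
  exact div_nonneg (Real.sinh_nonneg_iff.2 h) (Real.cosh_pos t).le

variable {ι : Coord n →ₗ[ℝ] Mat N} {C : Mat N}

namespace Data

variable (D : Data C ι)
include D

lemma W_unit : IsUnit D.W := by
  have h : IsUnit C := D.hT.1.isUnit
  rw [← D.hWW] at h
  exact ((Commute.refl D.W).isUnit_mul_iff.1 h).1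

lemma W_cancel {A B : Mat N} (h : D.W * A = D.W * B) : A = B :=
  (D.W_unit.mul_right_inj).1 h

omit D in
/-- The derivative of `halfExp`. -/
noncomputable def hExpD (_D : Data C ι) (x ξ : Coord n) : Mat N := fderiv ℝ (halfExp ι) x ξ

/-- The velocity `2 σ`. -/
noncomputable def sig (x ξ : Coord n) : Mat N := (1/2:ℝ) • ι (D.Wl x ξ)

lemma hasDerivAt_half (x ξ : Coord n) :
    HasDerivAt (fun t : ℝ => halfExp ι (x + t • ξ)) (D.hExpD x ξ) 0 ∧
    HasDerivAt (fun t : ℝ => halfExpNeg ι (x + t • ξ))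
      (-(halfExpNeg ι x * D.hExpD x ξ * halfExpNeg ι x)) 0 := by
  have hc : HasDerivAt (fun t : ℝ => x + t • ξ) ξ 0 := by
    simpa using ((hasDerivAt_id (0:ℝ)).smul_const ξ).const_add x
  have h1 : HasDerivAt (fun t : ℝ => halfExp ι (x + t • ξ)) (D.hExpD x ξ) 0 :=
    ((contDiff_halfExp ι (k := 1)).differentiable one_ne_zero x).hasFDerivAt.comp_hasDerivAt_of_eq
      (0:ℝ) hc (by simp)
  refine ⟨h1, ?_⟩
  have hinv : ∀ y, (halfExp ι y)⁻¹ = halfExpNeg ι y :=
    fun y => inv_eq_right_inv (halfExp_mul_neg ι y)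
  have h2 := hasDerivAt_matInv h1 (IsUnit.of_mul_eq_one _ (halfExp_mul_neg ι (x + (0:ℝ) • ξ)))
  simpa [hinv] using h2

lemma hExpD_comm (x ξ : Coord n) : D.W * D.hExpD x ξ = D.hExpD x ξ * D.W := by
  have h1 := (D.hasDerivAt_half x ξ).1
  have e : (fun t : ℝ => D.W * halfExp ι (x + t • ξ)) = fun t : ℝ => halfExp ι (x + t • ξ) * D.W := by
    funext t
    have : Commute D.W ((1/2:ℝ) • ι (x + t • ξ)) :=
      (show Commute D.W (ι (x + t • ξ)) from D.W_comm _).smul_right _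
    exact this.exp_right.eq
  have h2 := h1.const_mul D.W
  rw [e] at h2
  exact h2.unique (h1.mul_const D.W)

lemma hExpD_symm (x ξ : Coord n) : (D.hExpD x ξ)ᵀ = D.hExpD x ξ := by
  have h1 := (D.hasDerivAt_half x ξ).1
  let L : Mat N →L[ℝ] Mat N :=
    LinearMap.toContinuousLinearMap (Matrix.transposeLinearEquiv (Fin N) (Fin N) ℝ ℝ).toLinearMap
  have h2 := L.hasFDerivAt.comp_hasDerivAt (0:ℝ) h1
  have e : (fun t : ℝ => L (halfExp ι (x + t • ξ))) = fun t : ℝ => halfExp ι (x + t • ξ) :=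
    funext fun t => (halfExp_transpose ι (D.symm _)).1
  have h3 : HasDerivAt (fun t : ℝ => halfExp ι (x + t • ξ)) (L (D.hExpD x ξ)) 0 := by
    rw [← e]; exact h2
  exact h3.unique h1

/-- The matrix `u` with `S' = u S`. -/
noncomputable def shiftU (x ξ : Coord n) : Mat N := D.hExpD x ξ * halfExpNeg ι x

lemma shiftU_transpose (x ξ : Coord n) :
    (D.shiftU x ξ)ᵀ = halfExpNeg ι x * D.hExpD x ξ := by
  rw [shiftU, transpose_mul, (halfExp_transpose ι (D.symm x)).2, D.hExpD_symm]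

lemma shiftU_add (x ξ : Coord n) :
    D.shiftU x ξ + (D.shiftU x ξ)ᵀ = (2:ℝ) • D.sig x ξ := by
  have hP : fderiv ℝ (pt ι) x ξ = D.hExpD x ξ * halfExp ι x + halfExp ι x * D.hExpD x ξ := by
    have h1 := (D.hasDerivAt_half x ξ).1
    have h2 := h1.mul h1
    simp only [zero_smul, add_zero] at h2
    have e : (fun t : ℝ => halfExp ι (x + t • ξ) * halfExp ι (x + t • ξ)) =
        fun t : ℝ => pt ι (x + t • ξ) := funext fun t => halfExp_sq ι _
    have hc : HasDerivAt (fun t : ℝ => x + t • ξ) ξ 0 := by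
      simpa using ((hasDerivAt_id (0:ℝ)).smul_const ξ).const_add x
    have h3 : HasDerivAt (fun t : ℝ => pt ι (x + t • ξ)) (fderiv ℝ (pt ι) x ξ) 0 :=
      ((contDiff_pt ι (k := 1)).differentiable one_ne_zero x).hasFDerivAt.comp_hasDerivAt_of_eq
        (0:ℝ) hc (by simp)
    rw [← e] at h3
    exact h3.unique h2
  have hy : halfExpNeg ι x * fderiv ℝ (pt ι) x ξ * halfExpNeg ι x = ι (D.Wl x ξ) := by
    apply D.W_cancel
    apply vec_inj.1
    rw [← D.emb_Wl_vel, D.emb_apply]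
  rw [sig, smul_smul, show (2:ℝ) * (1/2) = 1 by norm_num, one_smul, ← hy, hP,
    D.shiftU_transpose, shiftU]
  rw [Matrix.mul_add, Matrix.add_mul, ← Matrix.mul_assoc (halfExpNeg ι x) (halfExp ι x),
    halfExpNeg_mul, Matrix.one_mul, Matrix.mul_assoc (halfExpNeg ι x),
    Matrix.mul_assoc (D.hExpD x ξ), halfExp_mul_neg, Matrix.mul_one, add_comm]

lemma shiftU_eq (x ξ : Coord n) : D.shiftU x ξ = shiftMat (ι x) (D.sig x ξ) := by
  obtain ⟨d⟩ := exists_diag (D.symm x)
  apply vec_inj.1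
  have hq : qOp (ι x) *ᵥ vec (D.shiftU x ξ)ᵀ = vec (D.shiftU x ξ) := by
    rw [qOp_mulVec, D.shiftU_transpose, shiftU, ← Matrix.mul_assoc, halfExp_mul_neg, Matrix.one_mul]
  have h2 : vec (D.sig x ξ) = (1/2:ℝ) • (1 + qOp (ι x)) *ᵥ vec (D.shiftU x ξ)ᵀ := by
    rw [add_mulVec, one_mulVec, hq, ← vec_add, add_comm, D.shiftU_add, ← vec_smul, smul_smul]
    norm_num
  rw [vec_shiftMat, h2, mulVec_smul, mulVec_mulVec, ← hq, ← smul_mulVec, d.tauOp_eq, d.qOp_eq,
    ← d.calc'_one, d.calc'_add, d.calc'_add, d.calc'_mul, d.calc'_smul]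
  congr 1
  refine d.calc'_congr fun p => ?_
  rw [Real.tanh_eq, Real.exp_neg]
  have h1 : Real.exp (d.lam p / 2) = Real.exp (d.lam p / 4) * Real.exp (d.lam p / 4) := by
    rw [← Real.exp_add]; ring_nf
  rw [h1]
  have := Real.exp_pos (d.lam p / 4)
  field_simp
  ring

/-- The skew part `κ` of the velocity. -/
noncomputable def kap (x ξ : Coord n) : Mat N := D.shiftU x ξ - D.sig x ξ

lemma vec_kap (x ξ : Coord n) : vec (D.kap x ξ) = tauOp (ι x) *ᵥ vec (D.sig x ξ) := by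
  rw [kap, D.shiftU_eq, vec_sub, vec_shiftMat, add_mulVec, one_mulVec, add_sub_cancel_left]

lemma hasDerivAt_qOp (x ξ : Coord n) :
    HasDerivAt (fun t : ℝ => qOp (ι (x + t • ξ))) (adM (D.shiftU x ξ) * qOp (ι x)) 0 ∧
    HasDerivAt (fun t : ℝ => qOpI (ι (x + t • ξ)))
      (-(adM (D.shiftU x ξ)ᵀ * qOpI (ι x))) 0 := by
  obtain ⟨h1, h2⟩ := D.hasDerivAt_half x ξ
  have e1 : (fun t : ℝ => qOp (ι (x + t • ξ))) =
      fun t : ℝ => halfExpNeg ι (x + t • ξ) ⊗ₖ halfExp ι (x + t • ξ) := by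
    funext t; rw [qOp, transpose_smul, D.symm]; rfl
  have e2 : (fun t : ℝ => qOpI (ι (x + t • ξ))) =
      fun t : ℝ => halfExp ι (x + t • ξ) ⊗ₖ halfExpNeg ι (x + t • ξ) := by
    funext t; rw [qOpI, transpose_smul, D.symm]; rfl
  have q1 : qOp (ι x) = halfExpNeg ι x ⊗ₖ halfExp ι x := by rw [qOp, transpose_smul, D.symm]; rfl
  have q2 : qOpI (ι x) = halfExp ι x ⊗ₖ halfExpNeg ι x := by rw [qOpI, transpose_smul, D.symm]; rfl
  have hU := D.shiftU_transpose x ξ
  constructor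
  · rw [e1]
    refine (hasDerivAt_kron h2 h1).congr_deriv ?_
    simp only [zero_smul, add_zero]
    rw [q1, adM, hU, Matrix.sub_mul, ← mul_kronecker_mul, ← mul_kronecker_mul, shiftU,
      Matrix.mul_assoc (D.hExpD x ξ), halfExpNeg_mul, Matrix.mul_one, Matrix.one_mul,
      Matrix.one_mul, sub_eq_add_neg, add_comm]
    congr 1
    ext i j
    simp [kroneckerMap_apply]
  · rw [e2]
    refine (hasDerivAt_kron h1 h2).congr_deriv ?_
    simp only [zero_smul, add_zero]
    rw [q2, adM, transpose_transpose, hU, Matrix.sub_mul, ← mul_kronecker_mul, ← mul_kronecker_mul,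
      shiftU, Matrix.mul_assoc (D.hExpD x ξ), halfExpNeg_mul, Matrix.mul_one, Matrix.one_mul,
      Matrix.one_mul, neg_sub, sub_eq_add_neg]
    congr 1
    ext i j
    simp [kroneckerMap_apply]

lemma hasDerivAt_tauOp (x ξ : Coord n) :
    HasDerivAt (fun t : ℝ => tauOp (ι (x + t • ξ))) (tauDer (ι x) (D.sig x ξ)) 0 := by
  obtain ⟨d⟩ := exists_diag (D.symm x)
  have h1 := (D.hasDerivAt_qOp x ξ).1
  have hu : IsUnit (qOp (ι (x + (0:ℝ) • ξ)) + 1) := by
    refine IsUnit.of_mul_eq_one (d.calc' (fun t => 1 / (Real.exp (t / 2) + 1))) ?_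
    simp only [zero_smul, add_zero]
    rw [d.qOp_eq, ← d.calc'_one, d.calc'_add, d.calc'_mul]
    refine d.calc'_congr fun p => ?_
    have := Real.exp_pos (d.lam p / 2)
    field_simp
  have h2 := (h1.sub_const (1 : Op N)).mul (hasDerivAt_matInv (h1.add_const (1 : Op N)) hu)
  refine h2.congr_deriv ?_
  simp only [zero_smul, add_zero]
  set A := qOp (ι x) with hA
  set B := (A + 1)⁻¹ with hB
  set X := adM (D.shiftU x ξ) * A with hX
  have hone : (1 : Op N) - (A - 1) * B = (2:ℝ) • B := by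
    rw [hB, hA, d.qOp_add_one_inv, d.qOp_eq, ← d.calc'_one, d.calc'_sub, d.calc'_mul, d.calc'_sub,
      d.calc'_smul]
    refine d.calc'_congr fun p => ?_
    have := Real.exp_pos (d.lam p / 2)
    field_simp
    ring
  calc X * B + (A - 1) * -(B * X * B) = ((1 : Op N) - (A - 1) * B) * (X * B) := by
        simp only [Matrix.sub_mul, Matrix.one_mul, Matrix.mul_neg, ← Matrix.mul_assoc]
        abel
    _ = tauDer (ι x) (D.sig x ξ) := by
        rw [hone, tauDer, ← hA, ← hB, ← D.shiftU_eq, hX, Matrix.smul_mul]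
        simp only [Matrix.mul_assoc]

lemma hasDerivAt_chOp (x ξ : Coord n) :
    HasDerivAt (fun t : ℝ => chOp (ι (x + t • ξ)))
      ((1/2:ℝ) • (adM (D.sig x ξ) * (qOp (ι x) - qOpI (ι x))) +
        adM (D.kap x ξ) * chOp (ι x)) 0 := by
  obtain ⟨h1, h2⟩ := D.hasDerivAt_qOp x ξ
  refine ((h1.add h2).const_smul (1/2:ℝ)).congr_deriv ?_
  have hu : D.shiftU x ξ = D.sig x ξ + D.kap x ξ := by rw [kap]; abel
  have hk : (D.shiftU x ξ)ᵀ = D.sig x ξ + (-1:ℝ) • D.kap x ξ := by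
    have := D.shiftU_add x ξ
    rw [kap, neg_one_smul]
    rw [two_smul] at this
    rw [eq_sub_of_add_eq' this]
    abel
  rw [hk, hu, chOp, adM_add, adM_add, adM_smul]
  simp only [Matrix.add_mul, smul_mul_assoc, mul_smul_comm, Matrix.mul_sub, Matrix.mul_add,
    smul_add, smul_sub, neg_add]
  module

lemma kap_comm (x ξ : Coord n) : D.W * D.kap x ξ = D.kap x ξ * D.W := by
  have h1 : D.W * halfExpNeg ι x = halfExpNeg ι x * D.W :=
    ((show Commute D.W (ι x) from D.W_comm x).smul_right (-(1/2:ℝ))).exp_right.eq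
  rw [kap, shiftU, sig, Matrix.mul_sub, Matrix.sub_mul, Matrix.mul_smul, Matrix.smul_mul,
    D.W_comm, ← Matrix.mul_assoc, D.hExpD_comm, Matrix.mul_assoc, h1, ← Matrix.mul_assoc]

/-- The frame field: `frame x z` is the unit-metric velocity with coordinates `z`. -/
noncomputable def frame (x : Coord n) : Coord n →L[ℝ] Coord n :=
  ContinuousLinearMap.inverse (D.Wl x)

/-- `Wl x` as an equivalence. -/
noncomputable def WlE (x : Coord n) : Coord n ≃L[ℝ] Coord n :=
  (LinearEquiv.ofBijective (D.Wl x).toLinearMap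
    ⟨D.Wl_injective x, D.Wl_surjective x⟩).toContinuousLinearEquiv

lemma frame_eq (x : Coord n) : D.frame x = (D.WlE x).symm := by
  have e : D.Wl x = ↑(D.WlE x) := by ext1 v; rfl
  rw [frame, e, ContinuousLinearMap.inverse_equiv]

lemma Wl_frame (x z : Coord n) : D.Wl x (D.frame x z) = z := by
  rw [D.frame_eq]
  exact (D.WlE x).apply_symm_apply z

lemma frame_Wl (x v : Coord n) : D.frame x (D.Wl x v) = v := by
  rw [D.frame_eq]
  exact (D.WlE x).symm_apply_apply v

lemma contDiff_frame : ContDiff ℝ 1 D.frame := by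
  refine contDiff_iff_contDiffAt.2 fun x => ?_
  have e : D.Wl x = ↑(D.WlE x) := by ext1 v; rfl
  have h := contDiffAt_map_inverse (𝕜 := ℝ) (n := 1) (D.WlE x)
  rw [← e] at h
  exact h.comp x D.contDiff_Wl.contDiffAt

/-- The velocity of the transvection along `a`. -/
noncomputable def killing (a x : Coord n) : Coord n :=
  D.frame x (D.coef (chOp (ι x) *ᵥ D.emb a))

/-- The coefficients of the frame in the transvection velocities. -/
noncomputable def coefC (z x : Coord n) : Coord n :=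
  D.coef ((chOp (ι x))⁻¹ *ᵥ D.emb z)

lemma emb_ch (x a : Coord n) :
    D.emb (D.coef (chOp (ι x) *ᵥ D.emb a)) = chOp (ι x) *ᵥ D.emb a := by
  obtain ⟨d⟩ := exists_diag (D.symm x)
  rw [d.chOp_eq]
  exact D.even_emb d (fun t => by rw [neg_div, Real.cosh_neg]) a

lemma emb_coefC (z x : Coord n) : D.emb (D.coefC z x) = (chOp (ι x))⁻¹ *ᵥ D.emb z := by
  obtain ⟨d⟩ := exists_diag (D.symm x)
  rw [coefC, d.chOp_inv]
  exact D.even_emb d (fun t => by rw [neg_div, Real.cosh_neg]) z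

lemma isUnit_chOp (x : Coord n) : IsUnit (chOp (ι x)) := by
  obtain ⟨d⟩ := exists_diag (D.symm x)
  refine IsUnit.of_mul_eq_one (d.calc' (fun t => 1 / Real.cosh (t / 2))) ?_
  rw [d.chOp_eq, d.calc'_mul, ← d.calc'_one]
  refine d.calc'_congr fun p => ?_
  have := Real.cosh_pos (d.lam p / 2)
  field_simp

lemma frame_sum (z x : Coord n) :
    D.frame x z = ∑ k, ⟪bas k, D.coefC z x⟫ • D.killing (bas k) x := by
  have hz : D.coef (chOp (ι x) *ᵥ D.emb (D.coefC z x)) = z := by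
    obtain ⟨d⟩ := exists_diag (D.symm x)
    rw [D.emb_coefC, mulVec_mulVec, mul_nonsing_inv _ ((isUnit_iff_isUnit_det _).1 (D.isUnit_chOp x)),
      one_mulVec, D.coef_emb]
  conv_lhs => rw [← hz, ← sum_bas (D.coefC z x)]
  simp only [map_sum, map_smul, mulVec_sum, mulVec_smul, killing]

lemma contDiff_qOp : ContDiff ℝ 1 (fun x => qOp (ι x)) ∧ ContDiff ℝ 1 (fun x => qOpI (ι x)) := by
  constructor
  · have e : (fun x => qOp (ι x)) = fun x => halfExpNeg ι x ⊗ₖ halfExp ι x := by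
      funext x; rw [qOp, transpose_smul, D.symm]; rfl
    rw [e]
    exact contDiff_kron (contDiff_halfExpNeg ι) (contDiff_halfExp ι)
  · have e : (fun x => qOpI (ι x)) = fun x => halfExp ι x ⊗ₖ halfExpNeg ι x := by
      funext x; rw [qOpI, transpose_smul, D.symm]; rfl
    rw [e]
    exact contDiff_kron (contDiff_halfExp ι) (contDiff_halfExpNeg ι)

lemma contDiff_chOp : ContDiff ℝ 1 (fun x => chOp (ι x)) :=
  ((D.contDiff_qOp.1).add D.contDiff_qOp.2).const_smul (1/2:ℝ)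

lemma contDiff_coefC (z : Coord n) : ContDiff ℝ 1 (D.coefC z) := by
  let L : Op N →ₗ[ℝ] Coord n :=
    { toFun := fun M => D.coef (M *ᵥ D.emb z)
      map_add' := fun a b => by rw [add_mulVec, map_add]
      map_smul' := fun c a => by rw [smul_mulVec, map_smul]; rfl }
  exact L.toContinuousLinearMap.contDiff.comp (contDiff_iff_contDiffAt.2 fun x =>
    (contDiffAt_matInv (D.isUnit_chOp x)).comp x D.contDiff_chOp.contDiffAt)

lemma contDiff_killing (a : Coord n) : ContDiff ℝ 1 (D.killing a) := by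
  let L : Op N →ₗ[ℝ] Coord n :=
    { toFun := fun M => D.coef (M *ᵥ D.emb a)
      map_add' := fun p q => by rw [add_mulVec, map_add]
      map_smul' := fun c p => by rw [smul_mulVec, map_smul]; rfl }
  exact D.contDiff_frame.clm_apply (L.toContinuousLinearMap.contDiff.comp D.contDiff_chOp)

/-- The divergence of the frame, as a vector: `⟪divV x, z⟫ = div (frame · z)`. -/
noncomputable def divV (x : Coord n) : Coord n :=
  ∑ k, ((1/4:ℝ) * (D.P * adM (ι (bas k)) * tauOp (ι x)).trace) • bas k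

lemma inner_divV (x z : Coord n) :
    ⟪D.divV x, z⟫ = (1/4:ℝ) * (D.P * adM (ι z) * tauOp (ι x)).trace := by
  let L : Coord n →ₗ[ℝ] ℝ :=
    { toFun := fun z => (1/4:ℝ) * (D.P * adM (ι z) * tauOp (ι x)).trace
      map_add' := fun a b => by
        rw [map_add, adM_add, Matrix.mul_add, Matrix.add_mul, trace_add, mul_add]
      map_smul' := fun c a => by
        rw [map_smul, adM_smul, Matrix.mul_smul, Matrix.smul_mul, trace_smul, smul_eq_mul,
          RingHom.id_apply, smul_eq_mul]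
        ring }
  show _ = L z
  conv_rhs => rw [← sum_bas z]
  rw [map_sum, divV, sum_inner]
  refine Finset.sum_congr rfl fun k _ => ?_
  rw [inner_smul_left, map_smul]
  simp [L, mul_comm]

lemma sum_coefC_deriv (z x : Coord n) :
    ∑ k, ⟪bas k, fderiv ℝ (D.coefC z) x (D.killing (bas k) x)⟫ = ⟪D.divV x, z⟫ := by
  obtain ⟨d⟩ := exists_diag (D.symm x)
  set ch := chOp (ι x) with hch
  have hsh : ((1/2:ℝ) • (qOp (ι x) - qOpI (ι x))) * ch⁻¹ =
      d.calc' (fun t => Real.tanh (t / 2)) := by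
    rw [hch, d.chOp_inv, d.qOp_eq, d.qOpI_eq, d.calc'_sub, d.calc'_smul, d.calc'_mul]
    refine d.calc'_congr fun p => ?_
    rw [Real.tanh_eq_sinh_div_cosh, Real.sinh_eq, neg_div]
    ring
  have hcu := (isUnit_iff_isUnit_det _).1 (D.isUnit_chOp x)
  have hsechT : (ch⁻¹)ᵀ = ch⁻¹ := by rw [hch, d.chOp_inv, d.calc'_transpose]
  let v := d.calc' (fun t => Real.tanh (t / 2)) *ᵥ D.emb z
  let M1 : Coord n →ₗ[ℝ] Coord n :=
    { toFun := fun q => D.coef (adM (ι q) *ᵥ v)
      map_add' := fun a b => by rw [map_add, adM_add, add_mulVec, map_add]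
      map_smul' := fun c a => by rw [map_smul, adM_smul, smul_mulVec, map_smul]; rfl }
  let M2 : Coord n →ₗ[ℝ] Coord n :=
    D.coef.comp ((Matrix.mulVecLin (adM (ι z) * tauOp (ι x))).comp D.emb)
  let A : Coord n →ₗ[ℝ] Coord n := D.coef.comp ((Matrix.mulVecLin ch⁻¹).comp D.emb)
  let B : Coord n →ₗ[ℝ] Coord n := D.coef.comp ((Matrix.mulVecLin ch).comp D.emb)
  have hA : ∀ q, D.emb (A q) = ch⁻¹ *ᵥ D.emb q := fun q => D.emb_coefC q x
  have hB : ∀ q, D.emb (B q) = ch *ᵥ D.emb q := fun q => D.emb_ch x q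
  have hBA : B * A = 1 := by
    ext1 q
    apply D.emb_injective
    show D.emb (B (A q)) = D.emb q
    rw [hB, hA, mulVec_mulVec, mul_nonsing_inv _ hcu, one_mulVec]
  have hAsym : ∀ q w, ⟪q, A w⟫ = ⟪A q, w⟫ := by
    intro q w
    rw [← D.emb_dot, ← D.emb_dot, hA, hA, dotProduct_mulVec, ← mulVec_transpose, hsechT]
  have hterm : ∀ k, ⟪bas k, fderiv ℝ (D.coefC z) x (D.killing (bas k) x)⟫ =
      -(1/2:ℝ) * ⟪bas k, (A * M1 * B) (bas k)⟫ + (1/2:ℝ) * ⟪bas k, (A * M2 * B) (bas k)⟫ := by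
    intro k
    set ξ := D.killing (bas k) x
    have hb : D.Wl x ξ = B (bas k) := D.Wl_frame x _
    have hc : HasDerivAt (fun t : ℝ => x + t • ξ) ξ 0 := by
      simpa using ((hasDerivAt_id (0:ℝ)).smul_const ξ).const_add x
    have h1 : HasDerivAt (fun t : ℝ => D.coefC z (x + t • ξ))
        (fderiv ℝ (D.coefC z) x ξ) 0 :=
      ((D.contDiff_coefC z).differentiable one_ne_zero x).hasFDerivAt.comp_hasDerivAt_of_eq
        (0:ℝ) hc (by simp)
    let L : Op N →ₗ[ℝ] Coord n :=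
      { toFun := fun M => D.coef (M *ᵥ D.emb z)
        map_add' := fun a b => by rw [add_mulVec, map_add]
        map_smul' := fun c a => by rw [smul_mulVec, map_smul]; rfl }
    have hu : IsUnit (chOp (ι (x + (0:ℝ) • ξ))) := D.isUnit_chOp _
    have h2 : HasDerivAt (fun t : ℝ => D.coefC z (x + t • ξ)) _ 0 :=
      L.toContinuousLinearMap.hasFDerivAt.comp_hasDerivAt (0:ℝ)
        (hasDerivAt_matInv (D.hasDerivAt_chOp x ξ) hu)
    rw [h1.unique h2]
    simp only [zero_smul, add_zero, LinearMap.coe_toContinuousLinearMap']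
    show ⟪bas k, D.coef (_ *ᵥ D.emb z)⟫ = _
    rw [← hch, D.inner_coef]
    have hsk : vec (D.sig x ξ) = (1/2:ℝ) • vec (ι (B (bas k))) := by
      rw [sig, vec_smul, hb]
    have hkap : adM (D.kap x ξ) *ᵥ D.emb z =
        -((1/2:ℝ) • (adM (ι z) *ᵥ (tauOp (ι x) *ᵥ D.emb (B (bas k))))) := by
      have e1 : tauOp (ι x) *ᵥ D.emb (B (bas k)) = (2:ℝ) • vec (D.W * D.kap x ξ) := by
        rw [D.emb_apply, ← D.leftW_mulVec, mulVec_mulVec, d.tauOp_eq,
          ← d.comm_calc' (D.leftW_comm x), ← mulVec_mulVec, ← D.leftW_mulVec, D.vec_kap, hsk,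
          d.tauOp_eq, mulVec_smul, mulVec_smul, smul_smul]
        norm_num
      rw [e1, mulVec_smul, smul_smul, show (1/2:ℝ) * 2 = 1 by norm_num, one_smul, adM_mulVec,
        D.emb_apply, adM_mulVec, ← vec_neg]
      congr 1
      have hk := D.kap_comm x ξ
      have hz := D.W_comm z
      calc D.kap x ξ * (D.W * ι z) - D.W * ι z * D.kap x ξ
          = (D.kap x ξ * D.W) * ι z - (D.W * ι z) * D.kap x ξ := by simp only [Matrix.mul_assoc]
        _ = _ := by
          rw [← hk, Matrix.mul_assoc D.W (D.kap x ξ), hz, Matrix.mul_assoc (ι z),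
            neg_sub]
    have hsig : adM (D.sig x ξ) = (1/2:ℝ) • adM (ι (B (bas k))) := by
      rw [sig, hb, adM_smul]
    have e : (-(ch⁻¹ * ((1/2:ℝ) • (adM (D.sig x ξ) * (qOp (ι x) - qOpI (ι x))) +
          adM (D.kap x ξ) * ch) * ch⁻¹)) *ᵥ D.emb z =
        ch⁻¹ *ᵥ (-(1/2:ℝ) • (adM (ι (B (bas k))) *ᵥ v) +
          (1/2:ℝ) • (adM (ι z) *ᵥ (tauOp (ι x) *ᵥ D.emb (B (bas k))))) := by
      have e0 : ((1/2:ℝ) • (adM (D.sig x ξ) * (qOp (ι x) - qOpI (ι x))) +
          adM (D.kap x ξ) * ch) * ch⁻¹ =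
          adM (D.sig x ξ) * d.calc' (fun t => Real.tanh (t / 2)) + adM (D.kap x ξ) := by
        rw [Matrix.add_mul, Matrix.mul_assoc _ ch, mul_nonsing_inv _ hcu, Matrix.mul_one, ← hsh]
        simp only [Matrix.mul_smul, Matrix.smul_mul, Matrix.mul_assoc]
      rw [Matrix.mul_assoc ch⁻¹, e0, neg_mulVec, ← mulVec_mulVec, add_mulVec, ← mulVec_mulVec,
        hkap, hsig, smul_mulVec, ← mulVec_neg]
      congr 1
      rw [neg_add, neg_neg, neg_smul]
    rw [e, dotProduct_mulVec, ← mulVec_transpose, hsechT, ← hA, dotProduct_add, dotProduct_smul,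
      dotProduct_smul, smul_eq_mul, smul_eq_mul]
    congr 1
    · congr 1
      show _ = ⟪bas k, A (M1 (B (bas k)))⟫
      rw [hAsym]
      show _ = ⟪A (bas k), D.coef (adM (ι (B (bas k))) *ᵥ v)⟫
      rw [D.inner_coef]
    · congr 1
      show _ = ⟪bas k, A (M2 (B (bas k)))⟫
      rw [hAsym]
      show _ = ⟪A (bas k), D.coef ((adM (ι z) * tauOp (ι x)) *ᵥ D.emb (B (bas k)))⟫
      rw [D.inner_coef, mulVec_mulVec]
  have htr : ∀ M : Coord n →ₗ[ℝ] Coord n,
      ∑ k, ⟪bas k, (A * M * B) (bas k)⟫ = ∑ k, ⟪bas k, M (bas k)⟫ := by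
    intro M
    have e : ∀ T : Coord n →ₗ[ℝ] Coord n,
        LinearMap.trace ℝ _ T = ∑ k, ⟪bas k, T (bas k)⟫ := fun T => by
      rw [LinearMap.trace_eq_sum_inner T (EuclideanSpace.basisFun (Fin n) ℝ)]
      simp [bas]
    rw [← e, ← e, mul_assoc, LinearMap.trace_mul_comm, mul_assoc, hBA, mul_one]
  rw [Finset.sum_congr rfl fun k _ => hterm k, Finset.sum_add_distrib, ← Finset.mul_sum,
    ← Finset.mul_sum, htr, htr]
  have h0 : ∀ p, ⟪p, M1 p⟫ = 0 := by
    intro p
    show ⟪p, D.coef (adM (ι p) *ᵥ v)⟫ = 0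
    rw [D.inner_coef, D.dot_adM, D.adM_emb, sub_self, Matrix.mul_zero, vec_zero, zero_dotProduct]
  have h2 : ∑ k, ⟪bas k, M2 (bas k)⟫ = (D.Ps * (adM (ι z) * tauOp (ι x))).trace := by
    rw [Data.Ps, Finset.sum_mul, trace_sum]
    refine Finset.sum_congr rfl fun k _ => ?_
    show ⟪bas k, D.coef ((adM (ι z) * tauOp (ι x)) *ᵥ D.emb (bas k))⟫ = _
    rw [D.inner_coef, trace_mul_comm, mul_vecMulVec, trace_vecMulVec, dotProduct_comm]
  rw [h2, Finset.sum_congr rfl fun k _ => h0 (bas k), Finset.sum_const_zero, mul_zero, zero_add,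
    D.inner_divV, D.trace_P_eq z d.tauOp_transpose, Matrix.mul_assoc]
  ring

lemma contDiff_tauOp : ContDiff ℝ 1 (fun x => tauOp (ι x)) := by
  have h : ∀ x, IsUnit (qOp (ι x) + 1) := by
    intro x
    obtain ⟨d⟩ := exists_diag (D.symm x)
    refine IsUnit.of_mul_eq_one (d.calc' (fun t => 1 / (Real.exp (t / 2) + 1))) ?_
    rw [d.qOp_eq, ← d.calc'_one, d.calc'_add, d.calc'_mul]
    refine d.calc'_congr fun p => ?_
    have := Real.exp_pos (d.lam p / 2)
    field_simp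
  exact (D.contDiff_qOp.1.sub contDiff_const).mul (contDiff_iff_contDiffAt.2 fun x =>
    (contDiffAt_matInv (h x)).comp x (D.contDiff_qOp.1.add contDiff_const).contDiffAt)

lemma contDiff_divV : ContDiff ℝ 1 D.divV := by
  refine ContDiff.sum fun k _ => ?_
  let L : Op N →ₗ[ℝ] ℝ :=
    { toFun := fun M => (1/4:ℝ) * (D.P * adM (ι (bas k)) * M).trace
      map_add' := fun a b => by rw [Matrix.mul_add, trace_add, mul_add]
      map_smul' := fun c a => by
        rw [Matrix.mul_smul, trace_smul, smul_eq_mul, RingHom.id_apply, smul_eq_mul]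
        ring }
  exact (L.toContinuousLinearMap.contDiff.comp D.contDiff_tauOp).smul contDiff_const

lemma inner_fderiv_divV (x z w : Coord n) :
    ⟪fderiv ℝ D.divV x (D.frame x z), w⟫ =
      (1/4:ℝ) * (D.P * adM (ι w) * tauDer (ι x) ((1/2:ℝ) • ι z)).trace := by
  set ξ := D.frame x z
  have hc : HasDerivAt (fun t : ℝ => x + t • ξ) ξ 0 := by
    simpa using ((hasDerivAt_id (0:ℝ)).smul_const ξ).const_add x
  have h1 : HasDerivAt (fun t : ℝ => D.divV (x + t • ξ)) (fderiv ℝ D.divV x ξ) 0 :=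
    (D.contDiff_divV.differentiable one_ne_zero x).hasFDerivAt.comp_hasDerivAt_of_eq
      (0:ℝ) hc (by simp)
  let L : Op N →ₗ[ℝ] ℝ :=
    { toFun := fun M => (1/4:ℝ) * (D.P * adM (ι w) * M).trace
      map_add' := fun a b => by rw [Matrix.mul_add, trace_add, mul_add]
      map_smul' := fun c a => by
        rw [Matrix.mul_smul, trace_smul, smul_eq_mul, RingHom.id_apply, smul_eq_mul]
        ring }
  have h2 : HasDerivAt (fun t : ℝ => ⟪D.divV (x + t • ξ), w⟫)
      (L (tauDer (ι x) (D.sig x ξ))) 0 := by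
    have e : (fun t : ℝ => ⟪D.divV (x + t • ξ), w⟫) = fun t : ℝ => L (tauOp (ι (x + t • ξ))) :=
      funext fun t => D.inner_divV _ w
    rw [e]
    exact L.toContinuousLinearMap.hasFDerivAt.comp_hasDerivAt (0:ℝ) (D.hasDerivAt_tauOp x ξ)
  have h3 := h1.inner ℝ (hasDerivAt_const (0:ℝ) w)
  simp only [inner_zero_right, zero_add] at h3
  rw [h3.unique h2, sig, D.Wl_frame]
  rfl

lemma jac_props (x z w : Coord n) :
    ⟪fderiv ℝ D.divV x (D.frame x z), w⟫ = ⟪fderiv ℝ D.divV x (D.frame x w), z⟫ ∧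
      0 ≤ ⟪fderiv ℝ D.divV x (D.frame x z), z⟫ := by
  obtain ⟨d⟩ := exists_diag (D.symm x)
  have hs : ∀ q, ((1/2:ℝ) • ι q)ᵀ = (1/2:ℝ) • ι q := fun q => by rw [transpose_smul, D.symm]
  have hP : ∀ q, D.P * adM ((1/2:ℝ) • ι q) = adM ((1/2:ℝ) • ι q) * D.P := fun q => by
    rw [adM_smul, Matrix.mul_smul, Matrix.smul_mul, D.P_comm]
  have hhalf : ∀ q, adM (ι q) = (2:ℝ) • adM ((1/2:ℝ) • ι q) := fun q => by
    rw [adM_smul, smul_smul]; norm_num
  obtain ⟨h1, h2⟩ := d.form_props D.P_transpose D.P_idem (D.P_comm x) (hs w) (hs z) (hP w) (hP z)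
  obtain ⟨-, h2'⟩ := d.form_props D.P_transpose D.P_idem (D.P_comm x) (hs z) (hs z) (hP z) (hP z)
  rw [D.inner_fderiv_divV, D.inner_fderiv_divV, D.inner_fderiv_divV, hhalf w, hhalf z]
  simp only [Matrix.mul_smul, Matrix.smul_mul, trace_smul, smul_eq_mul]
  exact ⟨by rw [h1], by linarith⟩

lemma inner_divV_self (x : Coord n) : 0 ≤ ⟪D.divV x, x⟫ := by
  obtain ⟨d⟩ := exists_diag (D.symm x)
  rw [D.inner_divV, d.tauOp_eq, ← d.calc'_id, Matrix.mul_assoc, d.calc'_mul]
  let p := d.Rᵀ * D.P * d.R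
  have e : (D.P * d.calc' (fun t => id t * Real.tanh (t / 4))).trace =
      ∑ a, p a a * (d.lam a * Real.tanh (d.lam a / 4)) := by
    rw [Diag.calc', trace_mul_comm, Matrix.mul_assoc, Matrix.mul_assoc, trace_mul_comm,
      Matrix.mul_assoc]
    have : (diagonal fun q => id (d.lam q) * Real.tanh (d.lam q / 4)) * (d.Rᵀ * D.P * d.R) =
      (diagonal fun q => id (d.lam q) * Real.tanh (d.lam q / 4)) * p := rfl
    rw [this]
    simp [Matrix.trace, diagonal_mul, mul_comm]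
  rw [e]
  refine mul_nonneg (by norm_num) (Finset.sum_nonneg fun a _ => mul_nonneg ?_ ?_)
  · have hp : p = (D.P * d.R)ᵀ * (D.P * d.R) := by
      simp only [p, transpose_mul, D.P_transpose, Matrix.mul_assoc]
      rw [← Matrix.mul_assoc D.P D.P, D.P_idem]
    rw [hp, mul_apply]
    exact Finset.sum_nonneg fun b _ => by rw [transpose_apply]; exact mul_self_nonneg _
  · rcases le_total 0 (d.lam a) with h | h
    · exact mul_nonneg h (tanh_nn (by linarith))
    · have h2 : 0 ≤ Real.tanh (-(d.lam a / 4)) := tanh_nn (by linarith)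
      rw [Real.tanh_neg] at h2
      exact mul_nonneg_of_nonpos_of_nonpos h (by linarith)

lemma divV_bounded : ∃ B : ℝ, ∀ x, ‖D.divV x‖ ≤ B := by
  refine ⟨∑ k : Fin n, (1/4:ℝ) * ∑ a : Idx N, ∑ b : Idx N,
    |(D.P * adM (ι (bas k))) a b| * ∑ _c : Idx N, (1:ℝ), fun x => ?_⟩
  obtain ⟨d⟩ := exists_diag (D.symm x)
  have hR : ∀ a b, |d.R a b| ≤ 1 := by
    intro a b
    have h1 : (d.Rᵀ * d.R) b b = 1 := by rw [d.transpose_mul_R]; simp
    rw [mul_apply] at h1
    simp only [transpose_apply] at h1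
    have h2 : d.R a b * d.R a b ≤ 1 := by
      rw [← h1]
      exact Finset.single_le_sum (fun i _ => mul_self_nonneg (d.R i b)) (Finset.mem_univ a)
    exact (abs_le_one_iff_mul_self_le_one).2 h2
  have hT : ∀ a b, |tauOp (ι x) a b| ≤ ∑ _c : Idx N, (1:ℝ) := by
    intro a b
    rw [d.tauOp_eq, Diag.calc', mul_apply]
    refine (Finset.abs_sum_le_sum_abs _ _).trans (Finset.sum_le_sum fun c _ => ?_)
    rw [mul_diagonal, abs_mul, abs_mul, transpose_apply]
    have ht : |Real.tanh (d.lam c / 4)| ≤ 1 :=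
      abs_le.2 ⟨(Real.neg_one_lt_tanh _).le, (Real.tanh_lt_one _).le⟩
    have := mul_le_mul (mul_le_mul (hR a c) ht (abs_nonneg _) zero_le_one) (hR b c)
      (abs_nonneg _) (by norm_num)
    simpa using this
  refine (norm_sum_le _ _).trans (Finset.sum_le_sum fun k _ => ?_)
  rw [norm_smul, show ‖(bas k : Coord n)‖ = 1 by simp [bas], mul_one, Real.norm_eq_abs, abs_mul,
    abs_of_nonneg (by norm_num : (0:ℝ) ≤ 1/4)]
  refine mul_le_mul_of_nonneg_left ?_ (by norm_num)
  rw [Matrix.trace]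
  refine (Finset.abs_sum_le_sum_abs _ _).trans (Finset.sum_le_sum fun a _ => ?_)
  rw [Matrix.diag, mul_apply]
  refine (Finset.abs_sum_le_sum_abs _ _).trans (Finset.sum_le_sum fun b _ => ?_)
  rw [abs_mul]
  exact mul_le_mul_of_nonneg_left (hT b a) (abs_nonneg _)

end Data

end Vale.Agent.P219

namespace Vale.Agent.P219.Data

open Matrix
open scoped Matrix.Norms.Operator

variable {N n : ℕ} {ι : Coord n →ₗ[ℝ] Mat N} {C : Mat N} (D : Data C ι)
include D

lemma fderiv_pt_eq (x v : Coord n) :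
    fderiv ℝ (pt ι) x v = halfExp ι x * ι (D.Wl x v) * halfExp ι x := by
  have hy : halfExpNeg ι x * fderiv ℝ (pt ι) x v * halfExpNeg ι x = ι (D.Wl x v) := by
    apply D.W_cancel
    apply vec_inj.1
    rw [← D.emb_Wl_vel, D.emb_apply]
  rw [← hy]
  calc fderiv ℝ (pt ι) x v
      = (halfExp ι x * halfExpNeg ι x) * fderiv ℝ (pt ι) x v *
          (halfExpNeg ι x * halfExp ι x) := by
        rw [halfExp_mul_neg, halfExpNeg_mul, Matrix.one_mul, Matrix.mul_one]
    _ = _ := by simp only [Matrix.mul_assoc]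

lemma Wl_self (x : Coord n) : D.Wl x x = x := by
  obtain ⟨d⟩ := exists_diag (D.symm x)
  apply D.emb_injective
  have h0 : adM (ι x) *ᵥ D.emb x = 0 := by rw [D.adM_emb]; simp
  rw [D.emb_Wl d, ← d.calc'_id] at *
  have e : d.calc' fW = 1 + d.calc' (fun t => (if t = 0 then 0 else (fW t - 1) / t) * id t) := by
    rw [← d.calc'_one, d.calc'_add]
    refine d.calc'_congr fun p => ?_
    rcases eq_or_ne (d.lam p) 0 with h | h
    · simp [fW, h]
    · simp only [h, if_false, id_eq]; field_simp; ring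
  rw [e, ← d.calc'_mul, add_mulVec, one_mulVec, ← mulVec_mulVec, h0, mulVec_zero, add_zero]

end Vale.Agent.P219.Data
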