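import Mathlib
import Vale.Agent.P219.Defs
import Vale.Agent.P219.Ad
import Vale.Agent.P219.Setup
import Vale.Agent.P219.Kernel
import Vale.Agent.P219.Exp
import Vale.Agent.P219.Field

/-!
# P219 : a bounded strictly convex regularisation
-/

open Matrix NormedSpace
open scoped RealInnerProductSpace Matrix.Norms.Operator

set_option autoImplicit false
set_option backward.isDefEq.respectTransparency false

namespace Vale.Agent.P219

variable {N n : ℕ}

/-- `h tanh (h / 2)` grows linearly. -/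
lemma mul_tanh_half_ge (t : ℝ) : |t| - 2 ≤ t * Real.tanh (t / 2) := by
  have key : ∀ s : ℝ, 0 ≤ s → s - 2 ≤ s * Real.tanh (s / 2) := by
    intro s hs
    have he : Real.tanh (s / 2) = 1 - 2 / (Real.exp s + 1) := by
      rw [Real.tanh_eq, Real.exp_neg]
      have h1 : Real.exp s = Real.exp (s / 2) * Real.exp (s / 2) := by
        rw [← Real.exp_add]; ring_nf
      rw [h1]
      have := Real.exp_pos (s / 2)
      field_simp
      ring
    rw [he, mul_sub, mul_one, mul_div_assoc']
    have : s * 2 / (Real.exp s + 1) ≤ 2 := by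
      rw [div_le_iff₀ (by positivity)]
      have := Real.add_one_le_exp s
      linarith
    linarith
  rcases le_total 0 t with h | h
  · simpa [abs_of_nonneg h] using key t h
  · have := key (-t) (by linarith)
    rw [neg_div, Real.tanh_neg] at this
    rw [abs_of_nonpos h]
    linarith

variable {ι : Coord n →ₗ[ℝ] Mat N} {C : Mat N}

namespace Data

variable (D : Data C ι)
include D

/-- `tanh (ι x / 2)`. -/
noncomputable def regMat (_D : Data C ι) (x : Coord n) : Mat N :=
  (pt ι x - 1) * (pt ι x + 1)⁻¹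

/-- The regularising vector field. -/
noncomputable def reg (x : Coord n) : Coord n := D.coef (vec (D.W * D.regMat x))

omit D in
lemma pt_eq_diag {x : Coord n} (d : Diag (ι x)) :
    pt ι x = d.U * diagonal (fun i => Real.exp (d.h i)) * d.Uᵀ := by
  have := d.exp_smul_eq 1
  simpa [pt] using this

lemma pt_add_one_inv {x : Coord n} (d : Diag (ι x)) :
    (pt ι x + 1)⁻¹ = d.U * diagonal (fun i => 1 / (Real.exp (d.h i) + 1)) * d.Uᵀ := by
  refine inv_eq_right_inv ?_
  have h1 : pt ι x + 1 = d.U * diagonal (fun i => Real.exp (d.h i) + 1) * d.Uᵀ := by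
    rw [pt_eq_diag d, ← diagonal_add (fun i => Real.exp (d.h i)) (fun _ => (1:ℝ)), diagonal_one,
      Matrix.mul_add, Matrix.add_mul, Matrix.mul_one, d.hUU]
  rw [h1]
  calc d.U * diagonal (fun i => Real.exp (d.h i) + 1) * d.Uᵀ *
      (d.U * diagonal (fun i => 1 / (Real.exp (d.h i) + 1)) * d.Uᵀ)
      = d.U * (diagonal (fun i => Real.exp (d.h i) + 1) * (d.Uᵀ * d.U) *
          diagonal (fun i => 1 / (Real.exp (d.h i) + 1))) * d.Uᵀ := by
        simp only [Matrix.mul_assoc]
    _ = d.U * diagonal (fun i => (Real.exp (d.h i) + 1) * (1 / (Real.exp (d.h i) + 1))) * d.Uᵀ := by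
        rw [d.hUU', Matrix.mul_one, diagonal_mul_diagonal]
    _ = 1 := by
        rw [show (fun i => (Real.exp (d.h i) + 1) * (1 / (Real.exp (d.h i) + 1))) = fun _ => (1:ℝ)
          from funext fun i => mul_one_div_cancel (by positivity), diagonal_one, Matrix.mul_one,
          d.hUU]

lemma regMat_eq {x : Coord n} (d : Diag (ι x)) :
    D.regMat x = d.U * diagonal (fun i => Real.tanh (d.h i / 2)) * d.Uᵀ := by
  have hm : pt ι x - 1 = d.U * diagonal (fun i => Real.exp (d.h i) - 1) * d.Uᵀ := by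
    rw [pt_eq_diag d, ← diagonal_sub (fun i => Real.exp (d.h i)) (fun _ => (1:ℝ)), diagonal_one,
      Matrix.mul_sub, Matrix.sub_mul, Matrix.mul_one, d.hUU]
  rw [regMat, D.pt_add_one_inv d, hm]
  calc d.U * diagonal (fun i => Real.exp (d.h i) - 1) * d.Uᵀ *
      (d.U * diagonal (fun i => 1 / (Real.exp (d.h i) + 1)) * d.Uᵀ)
      = d.U * (diagonal (fun i => Real.exp (d.h i) - 1) * (d.Uᵀ * d.U) *
          diagonal (fun i => 1 / (Real.exp (d.h i) + 1))) * d.Uᵀ := by
        simp only [Matrix.mul_assoc]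
    _ = _ := by
        rw [d.hUU', Matrix.mul_one, diagonal_mul_diagonal]
        congr 3
        funext i
        rw [Real.tanh_eq, Real.exp_neg]
        have h1 : Real.exp (d.h i) = Real.exp (d.h i / 2) * Real.exp (d.h i / 2) := by
          rw [← Real.exp_add]; ring_nf
        rw [h1]
        have := Real.exp_pos (d.h i / 2)
        field_simp

lemma isUnit_pt_add_one (x : Coord n) : IsUnit (pt ι x + 1) := by
  obtain ⟨d⟩ := exists_diag (D.symm x)
  refine (isUnit_iff_isUnit_det _).2 ?_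
  rw [pt_eq_diag d, show d.U * diagonal (fun i => Real.exp (d.h i)) * d.Uᵀ + 1 =
    d.U * diagonal (fun i => Real.exp (d.h i) + 1) * d.Uᵀ by
      rw [← diagonal_add (fun i => Real.exp (d.h i)) (fun _ => (1:ℝ)), diagonal_one,
        Matrix.mul_add, Matrix.add_mul, Matrix.mul_one, d.hUU], det_mul, det_mul, det_diagonal]
  have h : d.U.det * d.Uᵀ.det = 1 := by rw [← det_mul, d.hUU, det_one]
  refine isUnit_iff_ne_zero.2 ?_
  rw [show d.U.det * (∏ i, (Real.exp (d.h i) + 1)) * d.Uᵀ.det =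
    (d.U.det * d.Uᵀ.det) * ∏ i, (Real.exp (d.h i) + 1) by ring, h, one_mul]
  exact (Finset.prod_pos fun i _ => by positivity).ne'

lemma contDiff_reg : ContDiff ℝ 1 D.reg := by
  let L : Mat N →ₗ[ℝ] Coord n :=
    { toFun := fun M => D.coef (vec (D.W * M))
      map_add' := fun a b => by rw [Matrix.mul_add, vec_add, map_add]
      map_smul' := fun c a => by rw [Matrix.mul_smul, vec_smul, map_smul]; rfl }
  exact L.toContinuousLinearMap.contDiff.comp (((contDiff_pt ι).sub contDiff_const).mul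
    (contDiff_iff_contDiffAt.2 fun x => (contDiffAt_matInv (D.isUnit_pt_add_one x)).comp x
      ((contDiff_pt ι).add contDiff_const).contDiffAt))

lemma hasDerivAt_regMat (x z : Coord n) :
    HasDerivAt (fun t : ℝ => D.regMat (x + t • D.frame x z))
      ((2:ℝ) • ((halfExp ι x * (pt ι x + 1)⁻¹) * ι z * (halfExp ι x * (pt ι x + 1)⁻¹))) 0 := by
  obtain ⟨d⟩ := exists_diag (D.symm x)
  set ξ := D.frame x z
  have hc : HasDerivAt (fun t : ℝ => x + t • ξ) ξ 0 := by
    simpa using ((hasDerivAt_id (0:ℝ)).smul_const ξ).const_add x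
  have h1 : HasDerivAt (fun t : ℝ => pt ι (x + t • ξ)) (fderiv ℝ (pt ι) x ξ) 0 :=
    ((contDiff_pt ι (k := 1)).differentiable one_ne_zero x).hasFDerivAt.comp_hasDerivAt_of_eq
      (0:ℝ) hc (by simp)
  have h2 := (h1.sub_const (1 : Mat N)).mul
    (hasDerivAt_matInv (h1.add_const (1 : Mat N)) (D.isUnit_pt_add_one _))
  refine h2.congr_deriv ?_
  simp only [zero_smul, add_zero]
  rw [D.fderiv_pt_eq, D.Wl_frame]
  set P := pt ι x with hP
  set R := (P + 1)⁻¹ with hR
  set S := halfExp ι x with hS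
  have hRS : R * S = S * R := by
    have hc1 : Commute S (P + 1) :=
      ((show Commute S (S * S) from (Commute.refl S).mul_right (Commute.refl S)).add_right
        (Commute.one_right S))
        |> fun h => by rw [hP, ← halfExp_sq]; exact h
    have hu := D.isUnit_pt_add_one x
    have : R * (P + 1) = 1 := nonsing_inv_mul _ ((isUnit_iff_isUnit_det _).1 hu)
    calc R * S = R * S * ((P + 1) * R) := by
          rw [mul_nonsing_inv _ ((isUnit_iff_isUnit_det _).1 hu), Matrix.mul_one]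
      _ = R * (S * (P + 1)) * R := by simp only [Matrix.mul_assoc]
      _ = R * ((P + 1) * S) * R := by rw [hc1.eq]
      _ = _ := by rw [← Matrix.mul_assoc R, this, Matrix.one_mul]
  have hone : (1 : Mat N) - (P - 1) * R = (2:ℝ) • R := by
    have hu := (isUnit_iff_isUnit_det _).1 (D.isUnit_pt_add_one x)
    calc (1 : Mat N) - (P - 1) * R = (P + 1) * R - (P - 1) * R := by
          rw [mul_nonsing_inv _ hu]
      _ = _ := by rw [← Matrix.sub_mul, add_sub_sub_cancel, ← two_smul ℝ (1 : Mat N),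
            Matrix.smul_mul, Matrix.one_mul]
  calc S * ι z * S * R + (P - 1) * -(R * (S * ι z * S) * R)
      = ((1 : Mat N) - (P - 1) * R) * (S * ι z * S * R) := by
        simp only [Matrix.sub_mul, Matrix.one_mul, Matrix.mul_neg, ← Matrix.mul_assoc]
        abel
    _ = _ := by
        rw [hone, Matrix.smul_mul]
        congr 1
        rw [← Matrix.mul_assoc, ← Matrix.mul_assoc, ← Matrix.mul_assoc, hRS]
        simp only [Matrix.mul_assoc]

lemma inner_fderiv_reg {x : Coord n} (d : Diag (ι x)) (z w : Coord n) :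
    ⟪fderiv ℝ D.reg x (D.frame x z), w⟫ = 2 * ∑ i, ∑ j,
      (Real.exp (d.h i / 2) / (Real.exp (d.h i) + 1)) *
      (Real.exp (d.h j / 2) / (Real.exp (d.h j) + 1)) *
      ((d.Uᵀ * (D.W * ι w) * d.U) i j * (d.Uᵀ * (D.W * ι z) * d.U) i j) := by
  let L : Mat N →ₗ[ℝ] Coord n :=
    { toFun := fun M => D.coef (vec (D.W * M))
      map_add' := fun a b => by rw [Matrix.mul_add, vec_add, map_add]
      map_smul' := fun c a => by rw [Matrix.mul_smul, vec_smul, map_smul]; rfl }
  set ξ := D.frame x z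
  have hc : HasDerivAt (fun t : ℝ => x + t • ξ) ξ 0 := by
    simpa using ((hasDerivAt_id (0:ℝ)).smul_const ξ).const_add x
  have h1 : HasDerivAt (fun t : ℝ => D.reg (x + t • ξ)) (fderiv ℝ D.reg x ξ) 0 :=
    (D.contDiff_reg.differentiable one_ne_zero x).hasFDerivAt.comp_hasDerivAt_of_eq
      (0:ℝ) hc (by simp)
  have h2 : HasDerivAt (fun t : ℝ => D.reg (x + t • ξ)) _ 0 :=
    L.toContinuousLinearMap.hasFDerivAt.comp_hasDerivAt (0:ℝ) (D.hasDerivAt_regMat x z)
  let g : Fin N → ℝ := fun i => Real.exp (d.h i / 2) / (Real.exp (d.h i) + 1)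
  have hG : halfExp ι x * (pt ι x + 1)⁻¹ = d.U * diagonal g * d.Uᵀ := by
    rw [halfExp, d.exp_smul_eq, D.pt_add_one_inv d]
    calc d.U * diagonal (fun i => Real.exp (1 / 2 * d.h i)) * d.Uᵀ *
        (d.U * diagonal (fun i => 1 / (Real.exp (d.h i) + 1)) * d.Uᵀ)
        = d.U * (diagonal (fun i => Real.exp (1 / 2 * d.h i)) * (d.Uᵀ * d.U) *
          diagonal (fun i => 1 / (Real.exp (d.h i) + 1))) * d.Uᵀ := by
          simp only [Matrix.mul_assoc]
      _ = _ := by
          rw [d.hUU', Matrix.mul_one, diagonal_mul_diagonal]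
          congr 3
          funext i
          simp only [g]
          rw [show 1 / 2 * d.h i = d.h i / 2 by ring, mul_one_div]
  rw [h1.unique h2]
  show ⟪D.coef (vec (D.W * ((2:ℝ) • _))), w⟫ = _
  rw [real_inner_comm, D.inner_coef, D.emb_apply, vec_dotProduct_vec, hG, transpose_mul, D.hW,
    D.symm, Matrix.mul_smul, Matrix.mul_smul, trace_smul, smul_eq_mul]
  congr 1
  have hWG : D.W * (d.U * diagonal g * d.Uᵀ) = (d.U * diagonal g * d.Uᵀ) * D.W := by
    have h1 : Commute D.W (halfExp ι x) :=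
      ((show Commute D.W (ι x) from D.W_comm x).smul_right (1/2:ℝ)).exp_right
    have h2 : Commute D.W (pt ι x + 1) :=
      ((show Commute D.W (ι x) from D.W_comm x).exp_right).add_right (Commute.one_right _)
    have hu := (isUnit_iff_isUnit_det _).1 (D.isUnit_pt_add_one x)
    have h3 : D.W * (pt ι x + 1)⁻¹ = (pt ι x + 1)⁻¹ * D.W := by
      calc D.W * (pt ι x + 1)⁻¹ = (pt ι x + 1)⁻¹ * ((pt ι x + 1) * D.W) * (pt ι x + 1)⁻¹ := by
            rw [← Matrix.mul_assoc, nonsing_inv_mul _ hu, Matrix.one_mul]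
        _ = (pt ι x + 1)⁻¹ * D.W * ((pt ι x + 1) * (pt ι x + 1)⁻¹) := by
            rw [← h2.eq]; simp only [Matrix.mul_assoc]
        _ = _ := by rw [mul_nonsing_inv _ hu, Matrix.mul_one]
    rw [← hG, ← Matrix.mul_assoc, h1.eq, Matrix.mul_assoc, h3, ← Matrix.mul_assoc]
  let Y := d.Uᵀ * (D.W * ι w) * d.U
  let X := d.Uᵀ * (D.W * ι z) * d.U
  have hXs : Xᵀ = X := by
    simp only [X, transpose_mul, transpose_transpose, D.symm, D.hW, ← D.W_comm z, Matrix.mul_assoc]
  have e : ι w * D.W * (D.W * (d.U * diagonal g * d.Uᵀ * ι z * (d.U * diagonal g * d.Uᵀ))) =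
      d.U * (Y * diagonal g * X * diagonal g) * d.Uᵀ := by
    have e1 : D.W * (d.U * diagonal g * d.Uᵀ * ι z * (d.U * diagonal g * d.Uᵀ)) =
        (d.U * diagonal g * d.Uᵀ) * (D.W * ι z) * (d.U * diagonal g * d.Uᵀ) := by
      calc _ = (D.W * (d.U * diagonal g * d.Uᵀ)) * ι z * (d.U * diagonal g * d.Uᵀ) := by
            simp only [Matrix.mul_assoc]
        _ = _ := by rw [hWG]; simp only [Matrix.mul_assoc]
    rw [e1, ← D.W_comm w]
    simp only [Y, X, ← Matrix.mul_assoc, d.hUU, Matrix.one_mul]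
  rw [e, trace_mul_comm, ← Matrix.mul_assoc, d.hUU', Matrix.one_mul]
  simp only [Matrix.trace, Matrix.diag]
  refine Finset.sum_congr rfl fun i _ => ?_
  rw [mul_diagonal, mul_apply, Finset.sum_mul]
  refine Finset.sum_congr rfl fun j _ => ?_
  rw [mul_diagonal, show X j i = X i j from congrFun (congrFun hXs i) j]
  simp only [g, Y, X]
  ring

lemma reg_symm (x z w : Coord n) :
    ⟪fderiv ℝ D.reg x (D.frame x z), w⟫ = ⟪fderiv ℝ D.reg x (D.frame x w), z⟫ := by
  obtain ⟨d⟩ := exists_diag (D.symm x)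
  simp only [D.inner_fderiv_reg d, mul_comm ((d.Uᵀ * (D.W * ι w) * d.U) _ _)]

lemma reg_pos (x : Coord n) {z : Coord n} (hz : z ≠ 0) :
    0 < ⟪fderiv ℝ D.reg x (D.frame x z), z⟫ := by
  obtain ⟨d⟩ := exists_diag (D.symm x)
  let X := d.Uᵀ * (D.W * ι z) * d.U
  have hX : ∃ i j, X i j ≠ 0 := by
    by_contra h
    push Not at h
    have h0 : X = 0 := Matrix.ext fun i j => h i j
    have h1 : D.W * ι z = 0 := by
      calc D.W * ι z = (d.U * d.Uᵀ) * (D.W * ι z) * (d.U * d.Uᵀ) := by simp [d.hUU]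
        _ = d.U * X * d.Uᵀ := by simp only [X, Matrix.mul_assoc]
        _ = 0 := by simp [h0]
    exact hz (D.emb_injective (by rw [D.emb_apply, h1, vec_zero, map_zero]))
  obtain ⟨i, j, hij⟩ := hX
  rw [D.inner_fderiv_reg d]
  refine mul_pos two_pos ?_
  refine Finset.sum_pos' (fun a _ => Finset.sum_nonneg fun b _ => ?_) ⟨i, Finset.mem_univ i, ?_⟩
  · exact mul_nonneg (by positivity) (mul_self_nonneg _)
  · refine Finset.sum_pos' (fun b _ => ?_) ⟨j, Finset.mem_univ j, ?_⟩
    · exact mul_nonneg (by positivity) (mul_self_nonneg _)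
    · exact mul_pos (by positivity) (mul_self_pos.2 hij)

lemma reg_bounded : ∃ B : ℝ, ∀ x, ‖D.reg x‖ ≤ B := by
  refine ⟨∑ k : Fin n, ∑ p : Idx N, |D.emb (bas k) p| * ∑ l : Fin N,
    |D.W p.2 l| * ∑ _c : Fin N, (1:ℝ), fun x => ?_⟩
  obtain ⟨d⟩ := exists_diag (D.symm x)
  have hU : ∀ a b, |d.U a b| ≤ 1 := by
    intro a b
    have h1 : (d.Uᵀ * d.U) b b = 1 := by rw [d.hUU']; simp
    rw [mul_apply] at h1
    simp only [transpose_apply] at h1
    have h2 : d.U a b * d.U a b ≤ 1 := by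
      rw [← h1]
      exact Finset.single_le_sum (fun i _ => mul_self_nonneg (d.U i b)) (Finset.mem_univ a)
    exact (abs_le_one_iff_mul_self_le_one).2 h2
  have hR : ∀ a b, |D.regMat x a b| ≤ ∑ _c : Fin N, (1:ℝ) := by
    intro a b
    rw [D.regMat_eq d, mul_apply]
    refine (Finset.abs_sum_le_sum_abs _ _).trans (Finset.sum_le_sum fun c _ => ?_)
    rw [mul_diagonal, abs_mul, abs_mul, transpose_apply]
    have ht : |Real.tanh (d.h c / 2)| ≤ 1 :=
      abs_le.2 ⟨(Real.neg_one_lt_tanh _).le, (Real.tanh_lt_one _).le⟩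
    have := mul_le_mul (mul_le_mul (hU a c) ht (abs_nonneg _) zero_le_one) (hU b c)
      (abs_nonneg _) (by norm_num)
    simpa using this
  show ‖∑ k, (D.emb (bas k) ⬝ᵥ vec (D.W * D.regMat x)) • bas k‖ ≤ _
  refine (norm_sum_le _ _).trans (Finset.sum_le_sum fun k _ => ?_)
  rw [norm_smul, show ‖(bas k : Coord n)‖ = 1 by simp [bas], mul_one, Real.norm_eq_abs, dotProduct]
  refine (Finset.abs_sum_le_sum_abs _ _).trans (Finset.sum_le_sum fun p _ => ?_)
  rw [abs_mul]
  refine mul_le_mul_of_nonneg_left ?_ (abs_nonneg _)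
  rw [vec, mul_apply]
  refine (Finset.abs_sum_le_sum_abs _ _).trans (Finset.sum_le_sum fun l _ => ?_)
  rw [abs_mul]
  exact mul_le_mul_of_nonneg_left (hR l p.1) (abs_nonneg _)

/-- The regulariser grows linearly along the radial direction. -/
lemma inner_reg_self : ∃ c b : ℝ, 0 < c ∧ ∀ x, c * ‖x‖ - b ≤ ⟪D.reg x, x⟫ := by
  have hCs : Cᵀ = C := by
    simpa [Matrix.IsHermitian, conjTranspose_eq_transpose_of_trivial] using D.hT.1.isHermitian
  obtain ⟨e⟩ := exists_diag hCs
  have hpos : ∀ i, 0 < e.h i := by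
    intro i
    have hd : diagonal e.h = e.Uᵀ * C * e.U := by
      calc diagonal e.h = (e.Uᵀ * e.U) * diagonal e.h * (e.Uᵀ * e.U) := by simp [e.hUU']
        _ = e.Uᵀ * (e.U * diagonal e.h * e.Uᵀ) * e.U := by simp only [Matrix.mul_assoc]
        _ = _ := by rw [← e.hH]
    have hpd : (diagonal e.h).PosDef := by
      rw [hd, ← conjTranspose_eq_transpose_of_trivial]
      refine D.hT.1.conjTranspose_mul_mul_same fun v w hvw => ?_
      have := congrArg (e.Uᵀ *ᵥ ·) hvw
      simpa [mulVec_mulVec, e.hUU'] using this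
    exact Matrix.posDef_diagonal_iff.1 hpd i
  obtain ⟨c0, hc0, hc0le⟩ : ∃ c0 : ℝ, 0 < c0 ∧ ∀ i, c0 ≤ e.h i := by
    by_cases hN : (Finset.univ : Finset (Fin N)).Nonempty
    · exact ⟨Finset.univ.inf' hN e.h, (Finset.lt_inf'_iff hN).2 fun i _ => hpos i,
        fun i => Finset.inf'_le _ (Finset.mem_univ i)⟩
    · exact ⟨1, one_pos, fun i => absurd ⟨i, Finset.mem_univ i⟩ hN⟩
  refine ⟨Real.sqrt c0, 2 * C.trace, Real.sqrt_pos.2 hc0, fun x => ?_⟩
  obtain ⟨d⟩ := exists_diag (D.symm x)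
  let K := d.Uᵀ * C * d.U
  have hK : ∀ i, c0 ≤ K i i := by
    intro i
    let Q := e.Uᵀ * d.U
    have hKQ : K = Qᵀ * diagonal e.h * Q := by
      simp only [K, Q, transpose_mul, transpose_transpose]
      rw [congrArg (fun M => d.Uᵀ * M * d.U) e.hH]
      simp only [Matrix.mul_assoc]
    have hQQ : Qᵀ * Q = 1 := by
      simp only [Q, transpose_mul, transpose_transpose, Matrix.mul_assoc]
      rw [← Matrix.mul_assoc e.U, e.hUU, Matrix.one_mul, d.hUU']
    have h1 : (Qᵀ * Q) i i = 1 := by rw [hQQ]; simp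
    rw [mul_apply] at h1
    simp only [transpose_apply] at h1
    rw [hKQ, mul_apply]
    simp only [mul_diagonal, transpose_apply]
    calc c0 = ∑ l, c0 * (Q l i * Q l i) := by rw [← Finset.mul_sum, h1, mul_one]
      _ ≤ ∑ l, Q l i * e.h l * Q l i := Finset.sum_le_sum fun l _ => by
          nlinarith [hc0le l, mul_self_nonneg (Q l i)]
  have htrace : ∑ i, K i i = C.trace := by
    show (d.Uᵀ * C * d.U).trace = _
    rw [trace_mul_comm, ← Matrix.mul_assoc, d.hUU, Matrix.one_mul]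
  have hform : ∀ f : Fin N → ℝ,
      (ι x * C * (d.U * diagonal f * d.Uᵀ)).trace = ∑ i, K i i * (d.h i * f i) := by
    intro f
    rw [congrArg (fun M => (M * C * (d.U * diagonal f * d.Uᵀ)).trace) d.hH]
    rw [show d.U * diagonal d.h * d.Uᵀ * C * (d.U * diagonal f * d.Uᵀ) =
      d.U * (diagonal d.h * (d.Uᵀ * C * d.U) * diagonal f) * d.Uᵀ by simp only [Matrix.mul_assoc],
      trace_mul_comm, ← Matrix.mul_assoc, d.hUU', Matrix.one_mul]
    simp only [Matrix.trace, Matrix.diag, mul_diagonal, diagonal_mul]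
    exact Finset.sum_congr rfl fun i _ => by simp only [K]; ring
  have h1 : ⟪D.reg x, x⟫ = ∑ i, K i i * (d.h i * Real.tanh (d.h i / 2)) := by
    rw [real_inner_comm, reg, D.inner_coef, D.emb_apply, vec_dotProduct_vec, transpose_mul, D.hW,
      D.symm, ← hform, D.regMat_eq d, Matrix.mul_assoc (ι x) D.W, ← Matrix.mul_assoc D.W, D.hWW,
      ← Matrix.mul_assoc]
  have h2 : ‖x‖ ^ 2 = ∑ i, K i i * (d.h i * d.h i) := by
    rw [← real_inner_self_eq_norm_sq, ← D.emb_dot, D.emb_apply, vec_dotProduct_vec, transpose_mul,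
      D.hW, D.symm, ← hform, ← d.hH, Matrix.mul_assoc (ι x) D.W, ← Matrix.mul_assoc D.W, D.hWW,
      ← Matrix.mul_assoc]
  let s := ∑ i, K i i * |d.h i|
  have hs0 : 0 ≤ s := Finset.sum_nonneg fun i _ => mul_nonneg (hc0.le.trans (hK i)) (abs_nonneg _)
  have h3 : c0 * ‖x‖ ^ 2 ≤ s * s := by
    rw [h2, Finset.mul_sum]
    conv_rhs => rw [show s * s = ∑ i, K i i * |d.h i| * s from Finset.sum_mul _ _ _]
    refine Finset.sum_le_sum fun i _ => ?_
    have hi : K i i * |d.h i| ≤ s := Finset.single_le_sum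
      (fun j _ => mul_nonneg (hc0.le.trans (hK j)) (abs_nonneg (d.h j))) (Finset.mem_univ i)
    have hKi : 0 ≤ K i i := hc0.le.trans (hK i)
    calc c0 * (K i i * (d.h i * d.h i)) = c0 * (K i i * (|d.h i| * |d.h i|)) := by
          rw [abs_mul_abs_self]
      _ ≤ K i i * (K i i * (|d.h i| * |d.h i|)) :=
          mul_le_mul_of_nonneg_right (hK i) (by positivity)
      _ = K i i * |d.h i| * (K i i * |d.h i|) := by ring
      _ ≤ _ := mul_le_mul_of_nonneg_left hi (by positivity)
  have h4 : Real.sqrt c0 * ‖x‖ ≤ s := by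
    rw [← Real.sqrt_mul_self hs0, ← Real.sqrt_sq (norm_nonneg x), ← Real.sqrt_mul hc0.le]
    exact Real.sqrt_le_sqrt h3
  calc Real.sqrt c0 * ‖x‖ - 2 * C.trace ≤ s - 2 * C.trace := by linarith
    _ = ∑ i, K i i * (|d.h i| - 2) := by
        simp only [s, mul_sub, Finset.sum_sub_distrib, ← Finset.sum_mul, htrace]
        ring
    _ ≤ _ := by
        rw [h1]
        exact Finset.sum_le_sum fun i _ =>
          mul_le_mul_of_nonneg_left (mul_tanh_half_ge _) (hc0.le.trans (hK i))

end Data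

end Vale.Agent.P219
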