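import Mathlib
import Vale.Agent.P219.Defs
import Vale.Agent.P219.Ad
import Vale.Agent.P219.Setup
import Vale.Agent.P219.Kernel
import Vale.Agent.P219.Exp
import Vale.Agent.P219.Field

/-!
# P219 : isometric actions, weak divergence of the frame
-/

open Matrix MeasureTheory Metric Set
open scoped RealInnerProductSpace

set_option autoImplicit false

namespace Vale.Agent.P219

variable {N n : ℕ} {C : Mat N} {ι : Coord n →ₗ[ℝ] Mat N}

/-- A transitive family of isometries with the transvection velocities. -/
structure Action (D : Data C ι) where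
  /-- the family -/
  act : Coord n → Coord n → Coord n
  smooth : ContDiff ℝ 1 (fun q : Coord n × Coord n => act q.1 q.2)
  origin : ∀ a, act a 0 = a
  zero_act : ∀ x, act 0 x = x
  neg_act : ∀ a x, act (-a) (act a x) = x
  isometry : ∀ a x v, ‖D.Wl (act a x) (fderiv ℝ (act a) x v)‖ = ‖D.Wl x v‖
  velocity : ∀ a x, HasDerivAt (fun t : ℝ => act (t • a) x) (D.killing a x) 0

namespace Action

variable {D : Data C ι} (A : Action D)
include A

lemma act_neg (a x : Coord n) : A.act a (A.act (-a) x) = x := by
  simpa using A.neg_act (-a) x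

lemma contDiff_act (a : Coord n) : ContDiff ℝ 1 (A.act a) :=
  A.smooth.comp (contDiff_const.prodMk contDiff_id)

lemma bijective (a : Coord n) : Function.Bijective (A.act a) :=
  ⟨Function.LeftInverse.injective (A.neg_act a), fun x => ⟨A.act (-a) x, A.act_neg a x⟩⟩

lemma det_mul (a x : Coord n) :
    |(fderiv ℝ (A.act a) x).det| * volDensity C ι (A.act a x) = volDensity C ι x := by
  obtain ⟨e, he⟩ : ∃ e : Coord n ≃L[ℝ] Coord n, (e : Coord n →L[ℝ] Coord n) = D.Wl x :=
    ⟨D.WlE x, rfl⟩
  obtain ⟨M, hMdef⟩ : ∃ M : Coord n →ₗ[ℝ] Coord n, M = (D.Wl (A.act a x)).toLinearMap ∘ₗ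
      ((fderiv ℝ (A.act a) x).toLinearMap ∘ₗ (D.frame x).toLinearMap) := ⟨_, rfl⟩
  have hM : ∀ z, ‖M z‖ = ‖z‖ := by
    intro z
    simp only [hMdef, LinearMap.comp_apply, ContinuousLinearMap.coe_coe]
    rw [A.isometry, D.Wl_frame]
  let L : Coord n →ₗᵢ[ℝ] Coord n := ⟨M, hM⟩
  have hd : |LinearMap.det M| = 1 := by
    have h := MeasureTheory.Measure.addHaar_image_linearMap (μ := (volume : Measure (Coord n)))
      M (ball 0 1)
    have hi : M '' ball 0 1 = ball 0 1 := by
      have h2 := (L.toLinearIsometryEquiv rfl).image_ball 0 1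
      simp only [map_zero] at h2
      exact h2
    rw [hi] at h
    have hpos : volume (ball (0 : Coord n) 1) ≠ 0 := (measure_ball_pos _ _ one_pos).ne'
    have h3 : ENNReal.ofReal |LinearMap.det M| = 1 :=
      (ENNReal.mul_left_inj hpos measure_ball_lt_top.ne).1 (by rw [← h, one_mul])
    exact ENNReal.ofReal_eq_one.1 h3
  have hf : (D.frame x).toLinearMap ∘ₗ (D.Wl x).toLinearMap = LinearMap.id :=
    LinearMap.ext fun v => D.frame_Wl x v
  have hcomp : M ∘ₗ (D.Wl x).toLinearMap =
      (D.Wl (A.act a x)).toLinearMap ∘ₗ (fderiv ℝ (A.act a) x).toLinearMap := by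
    rw [hMdef, LinearMap.comp_assoc, LinearMap.comp_assoc, hf, LinearMap.comp_id]
  have := congrArg (fun T => |LinearMap.det T|) hcomp
  simp only [LinearMap.det_comp, abs_mul, hd, one_mul] at this
  rw [D.volDensity_eq, D.volDensity_eq, this, mul_comm, ContinuousLinearMap.det]

lemma integral_comp (a : Coord n) (f : Coord n → ℝ) :
    ∫ x, f (A.act a x) * volDensity C ι x = ∫ x, f x * volDensity C ι x := by
  have h := integral_image_eq_integral_abs_det_fderiv_smul (volume : Measure (Coord n))
    MeasurableSet.univ
    (fun x _ => ((A.contDiff_act a).differentiable one_ne_zero x).hasFDerivAt.hasFDerivWithinAt)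
    (A.bijective a).1.injOn (fun y => f y * volDensity C ι y)
  rw [image_univ, (A.bijective a).2.range_eq, setIntegral_univ, setIntegral_univ] at h
  rw [h]
  refine integral_congr_ae (Filter.Eventually.of_forall fun x => ?_)
  simp only [smul_eq_mul]
  rw [← A.det_mul a x]
  ring

lemma lintegral_comp (a : Coord n) (f : Coord n → ENNReal) :
    ∫⁻ x, f (A.act a x) * ENNReal.ofReal (volDensity C ι x) =
      ∫⁻ x, f x * ENNReal.ofReal (volDensity C ι x) := by
  have h := lintegral_image_eq_lintegral_abs_det_fderiv_mul (volume : Measure (Coord n))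
    MeasurableSet.univ
    (fun x _ => ((A.contDiff_act a).differentiable one_ne_zero x).hasFDerivAt.hasFDerivWithinAt)
    (A.bijective a).1.injOn (fun y => f y * ENNReal.ofReal (volDensity C ι y))
  rw [image_univ, (A.bijective a).2.range_eq, setLIntegral_univ, setLIntegral_univ] at h
  rw [h]
  refine lintegral_congr fun x => ?_
  conv_lhs => rw [← A.det_mul a x, ENNReal.ofReal_mul (abs_nonneg _)]
  ring

lemma norm_sub_le (a x : Coord n) {M : ℝ}
    (hM : ∀ t ∈ Icc (0:ℝ) 1, ‖D.Wl (t • x) x‖ ≤ M) :
    ‖A.act a x - a‖ ≤ M := by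
  have hd : ∀ t ∈ Icc (0:ℝ) 1, HasDerivWithinAt (fun t : ℝ => A.act a (t • x))
      (fderiv ℝ (A.act a) (t • x) x) (Icc 0 1) t := by
    intro t _
    exact (((A.contDiff_act a).differentiable one_ne_zero _).hasFDerivAt.comp_hasDerivAt t
      (by simpa using (hasDerivAt_id t).smul_const x)).hasDerivWithinAt
  have := norm_image_sub_le_of_norm_deriv_le_segment' hd (C := M) (fun t ht => ?_) 1
    (by simp)
  · simpa [A.origin] using this
  · calc ‖fderiv ℝ (A.act a) (t • x) x‖ ≤ ‖D.Wl (A.act a (t • x)) (fderiv ℝ (A.act a) (t • x) x)‖ :=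
        D.norm_le_Wl _ _
      _ ≤ M := by rw [A.isometry]; exact hM t ⟨ht.1, ht.2.le⟩

/-- Transvection velocities have zero divergence. -/
lemma integral_killing {f : Coord n → ℝ} (hf : ContDiff ℝ 1 f) (hc : HasCompactSupport f)
    (a : Coord n) : ∫ x, fderiv ℝ f x (D.killing a x) * volDensity C ι x = 0 := by
  let F : ℝ → Coord n → ℝ := fun t x => f (A.act (t • a) x) * volDensity C ι x
  let g : ℝ × Coord n → ℝ := fun q => f (A.act (q.1 • a) q.2)
  have hg : ContDiff ℝ 1 g :=
    hf.comp (A.smooth.comp ((contDiff_fst.smul contDiff_const).prodMk contDiff_snd))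
  let F' : ℝ → Coord n → ℝ := fun t x => fderiv ℝ g (t, x) (1, 0) * volDensity C ι x
  have hd : ∀ t x, HasDerivAt (fun s => F s x) (F' t x) t := by
    intro t x
    have h1 : HasDerivAt (fun s : ℝ => ((s, x) : ℝ × Coord n)) (1, 0) t :=
      (hasDerivAt_id t).prodMk (hasDerivAt_const t x)
    exact ((hg.differentiable one_ne_zero (t, x)).hasFDerivAt.comp_hasDerivAt t h1).mul_const _
  have hF'c : Continuous (fun q : ℝ × Coord n => F' q.1 q.2) :=
    ((hg.continuous_fderiv one_ne_zero).clm_apply continuous_const).mul
      (D.continuous_volDensity.comp continuous_snd)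
  let K : Set (Coord n) :=
    (fun q : ℝ × Coord n => A.act (-(q.1 • a)) q.2) '' (Icc (-1:ℝ) 1 ×ˢ tsupport f)
  have hK : IsCompact K := (isCompact_Icc.prod hc).image
    (A.smooth.continuous.comp (((continuous_fst.smul continuous_const).neg).prodMk continuous_snd))
  have hzero : ∀ t ∈ Ioo (-1:ℝ) 1, ∀ x ∉ K, F' t x = 0 := by
    intro t ht x hx
    have hev : (fun s => F s x) =ᶠ[nhds t] fun _ => 0 := by
      filter_upwards [Ioo_mem_nhds ht.1 ht.2] with s hs
      have : A.act (s • a) x ∉ tsupport f := fun h =>
        hx ⟨(s, A.act (s • a) x), ⟨⟨hs.1.le, hs.2.le⟩, h⟩, A.neg_act _ _⟩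
      simp [F, image_eq_zero_of_notMem_tsupport this]
    exact (hd t x).unique ((hasDerivAt_const t (0:ℝ)).congr_of_eventuallyEq hev)
  obtain ⟨B, hB⟩ := (isCompact_Icc (a := (-1:ℝ)) (b := 1) |>.prod hK).exists_bound_of_continuousOn
    hF'c.continuousOn
  have hcont : ∀ t, Continuous (F t) := fun t =>
    (hg.continuous.comp (continuous_const.prodMk continuous_id)).mul D.continuous_volDensity
  have h0 : Integrable (F 0) := by
    refine (hcont 0).integrable_of_hasCompactSupport (HasCompactSupport.intro hK fun x hx => ?_)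
    have : A.act ((0:ℝ) • a) x ∉ tsupport f := fun h =>
      hx ⟨((0:ℝ), A.act ((0:ℝ) • a) x), ⟨⟨by norm_num, by norm_num⟩, h⟩, A.neg_act _ _⟩
    show f (A.act ((0:ℝ) • a) x) * _ = 0
    rw [image_eq_zero_of_notMem_tsupport this, zero_mul]
  have key := hasDerivAt_integral_of_dominated_loc_of_deriv_le (μ := (volume : Measure (Coord n)))
    (F := F) (F' := F') (bound := fun x => K.indicator (fun _ => |B|) x)
    (Ioo_mem_nhds (show (-1:ℝ) < 0 by norm_num) (show (0:ℝ) < 1 by norm_num))
    (Filter.Eventually.of_forall fun t => (hcont t).aestronglyMeasurable) h0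
    (hF'c.comp (continuous_const.prodMk continuous_id)).aestronglyMeasurable
    (Filter.Eventually.of_forall fun x t ht => by
      by_cases hx : x ∈ K
      · rw [indicator_of_mem hx]
        exact (hB (t, x) ⟨⟨ht.1.le, ht.2.le⟩, hx⟩).trans (le_abs_self B)
      · simp [hzero t ht x hx, indicator_of_notMem hx])
    ((integrableOn_const hK.measure_lt_top.ne).integrable_indicator hK.isClosed.measurableSet)
    (Filter.Eventually.of_forall fun x t _ => hd t x)
  have hconst : (fun t => ∫ x, F t x) = fun _ => ∫ x, f x * volDensity C ι x :=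
    funext fun t => A.integral_comp (t • a) f
  have h := key.2
  rw [hconst] at h
  have hz := h.unique (hasDerivAt_const (0:ℝ) _)
  rw [← hz]
  refine integral_congr_ae (Filter.Eventually.of_forall fun x => ?_)
  have hx0 : A.act ((0:ℝ) • a) x = x := by rw [zero_smul, A.zero_act]
  have h1 : HasDerivAt (fun s => F s x) (fderiv ℝ f x (D.killing a x) * volDensity C ι x) 0 :=
    ((hf.differentiable one_ne_zero x).hasFDerivAt.comp_hasDerivAt_of_eq (0:ℝ) (A.velocity a x)
      hx0.symm).mul_const _
  exact ((hd 0 x).unique h1).symm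

/-- Weak divergence of a constant combination of frame fields. -/
lemma integral_frame {η : Coord n → ℝ} (hη : ContDiff ℝ 1 η) (hc : HasCompactSupport η)
    (z : Coord n) :
    ∫ x, fderiv ℝ η x (D.frame x z) * volDensity C ι x =
      -∫ x, η x * ⟪D.divV x, z⟫ * volDensity C ι x := by
  let c : Fin n → Coord n → ℝ := fun k x => ⟪Data.bas k, D.coefC z x⟫
  have hcd : ∀ k, ContDiff ℝ 1 (c k) := fun k => contDiff_const.inner ℝ (D.contDiff_coefC z)
  let P : Fin n → Coord n → ℝ := fun k x => c k x * fderiv ℝ η x (D.killing (Data.bas k) x) *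
    volDensity C ι x
  let Q : Fin n → Coord n → ℝ := fun k x => η x *
    ⟪Data.bas k, fderiv ℝ (D.coefC z) x (D.killing (Data.bas k) x)⟫ * volDensity C ι x
  have hP : ∀ k, Integrable (P k) := by
    intro k
    refine Continuous.integrable_of_hasCompactSupport
      (((hcd k).continuous.mul ((hη.continuous_fderiv one_ne_zero).clm_apply
        (D.contDiff_killing _).continuous)).mul D.continuous_volDensity) ?_
    refine HasCompactSupport.intro hc fun x hx => ?_
    simp [P, fderiv_of_notMem_tsupport ℝ hx]
  have hQ : ∀ k, Integrable (Q k) := by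
    intro k
    refine Continuous.integrable_of_hasCompactSupport
      ((hη.continuous.mul (continuous_const.inner
        (((D.contDiff_coefC z).continuous_fderiv one_ne_zero).clm_apply
          (D.contDiff_killing _).continuous))).mul D.continuous_volDensity) ?_
    refine HasCompactSupport.intro hc fun x hx => ?_
    simp [Q, image_eq_zero_of_notMem_tsupport hx]
  have hk : ∀ k, ∫ x, P k x = -∫ x, Q k x := by
    intro k
    have h := A.integral_killing ((hcd k).mul hη) (hc.mul_left) (Data.bas k)
    rw [eq_neg_iff_add_eq_zero, ← integral_add (hP k) (hQ k), ← h]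
    refine integral_congr_ae (Filter.Eventually.of_forall fun x => ?_)
    have h1 : HasFDerivAt (c k) ((innerSL ℝ (Data.bas k)).comp (fderiv ℝ (D.coefC z) x)) x :=
      (innerSL ℝ (Data.bas k)).hasFDerivAt.comp x
        ((D.contDiff_coefC z).differentiable one_ne_zero x).hasFDerivAt
    have h2 := (h1.mul (hη.differentiable one_ne_zero x).hasFDerivAt).fderiv
    simp only [P, Q]
    rw [show fderiv ℝ (fun y => c k y * η y) x = _ from h2]
    simp [c]
    ring
  calc ∫ x, fderiv ℝ η x (D.frame x z) * volDensity C ι x = ∫ x, ∑ k, P k x := by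
        refine integral_congr_ae (Filter.Eventually.of_forall fun x => ?_)
        simp only [P, c]
        rw [D.frame_sum z x, map_sum, Finset.sum_mul]
        simp [map_smul]
    _ = ∑ k, -∫ x, Q k x := by
        rw [integral_finsetSum _ fun k _ => hP k]
        exact Finset.sum_congr rfl fun k _ => hk k
    _ = _ := by
        rw [Finset.sum_neg_distrib, ← integral_finsetSum _ fun k _ => hQ k]
        congr 1
        refine integral_congr_ae (Filter.Eventually.of_forall fun x => ?_)
        simp only [Q]
        rw [← Finset.sum_mul, ← Finset.mul_sum, D.sum_coefC_deriv]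

/-- Weak divergence of a variable combination of frame fields. -/
lemma integral_frame_field {η : Coord n → ℝ} {T : Coord n → Coord n} (hη : ContDiff ℝ 1 η)
    (hc : HasCompactSupport η) (hT : ContDiff ℝ 1 T) :
    ∫ x, fderiv ℝ η x (D.frame x (T x)) * volDensity C ι x =
      -∫ x, η x * ((∑ k, ⟪Data.bas k, fderiv ℝ T x (D.frame x (Data.bas k))⟫) +
        ⟪D.divV x, T x⟫) * volDensity C ι x := by
  let c : Fin n → Coord n → ℝ := fun k x => ⟪Data.bas k, T x⟫
  have hcd : ∀ k, ContDiff ℝ 1 (c k) := fun k => contDiff_const.inner ℝ hT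
  let P : Fin n → Coord n → ℝ := fun k x =>
    c k x * fderiv ℝ η x (D.frame x (Data.bas k)) * volDensity C ι x
  let Q : Fin n → Coord n → ℝ := fun k x => η x *
    (⟪Data.bas k, fderiv ℝ T x (D.frame x (Data.bas k))⟫ + c k x * ⟪D.divV x, Data.bas k⟫) *
      volDensity C ι x
  let R : Fin n → Coord n → ℝ := fun k x => η x *
    ⟪Data.bas k, fderiv ℝ T x (D.frame x (Data.bas k))⟫ * volDensity C ι x
  have hframe : ∀ k, Continuous (fun x => D.frame x (Data.bas k)) := fun k =>
    D.contDiff_frame.continuous.clm_apply continuous_const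
  have hP : ∀ k, Integrable (P k) := by
    intro k
    refine Continuous.integrable_of_hasCompactSupport
      (((hcd k).continuous.mul ((hη.continuous_fderiv one_ne_zero).clm_apply
        (hframe k))).mul D.continuous_volDensity) ?_
    refine HasCompactSupport.intro hc fun x hx => ?_
    simp [P, fderiv_of_notMem_tsupport ℝ hx]
  have hR : ∀ k, Integrable (R k) := by
    intro k
    refine Continuous.integrable_of_hasCompactSupport
      ((hη.continuous.mul (continuous_const.inner
        ((hT.continuous_fderiv one_ne_zero).clm_apply (hframe k)))).mul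
        D.continuous_volDensity) ?_
    refine HasCompactSupport.intro hc fun x hx => ?_
    simp [R, image_eq_zero_of_notMem_tsupport hx]
  have hQ : ∀ k, Integrable (Q k) := by
    intro k
    refine Continuous.integrable_of_hasCompactSupport
      ((hη.continuous.mul ((continuous_const.inner
        ((hT.continuous_fderiv one_ne_zero).clm_apply (hframe k))).add
        ((hcd k).continuous.mul (D.contDiff_divV.continuous.inner continuous_const)))).mul
        D.continuous_volDensity) ?_
    refine HasCompactSupport.intro hc fun x hx => ?_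
    simp [Q, image_eq_zero_of_notMem_tsupport hx]
  have hk : ∀ k, ∫ x, P k x = -∫ x, Q k x := by
    intro k
    have h := A.integral_frame ((hcd k).mul hη) (hc.mul_left) (Data.bas k)
    have e1 : ∫ x, fderiv ℝ (fun y => c k y * η y) x (D.frame x (Data.bas k)) *
        volDensity C ι x = (∫ x, P k x) + ∫ x, R k x := by
      rw [← integral_add (hP k) (hR k)]
      refine integral_congr_ae (Filter.Eventually.of_forall fun x => ?_)
      have h1 : HasFDerivAt (c k) ((innerSL ℝ (Data.bas k)).comp (fderiv ℝ T x)) x :=
        (innerSL ℝ (Data.bas k)).hasFDerivAt.comp x (hT.differentiable one_ne_zero x).hasFDerivAt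
      have h2 := (h1.mul (hη.differentiable one_ne_zero x).hasFDerivAt).fderiv
      dsimp only
      rw [show fderiv ℝ (fun y => c k y * η y) x = _ from h2]
      simp [P, R, c]
      ring
    have hS : Integrable (fun x => c k x * η x * ⟪D.divV x, Data.bas k⟫ * volDensity C ι x) := by
      refine Continuous.integrable_of_hasCompactSupport ((((hcd k).continuous.mul hη.continuous).mul
        (D.contDiff_divV.continuous.inner continuous_const)).mul D.continuous_volDensity) ?_
      refine HasCompactSupport.intro hc fun x hx => ?_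
      simp [image_eq_zero_of_notMem_tsupport hx]
    have e2 : ∫ x, Q k x = (∫ x, R k x) +
        ∫ x, c k x * η x * ⟪D.divV x, Data.bas k⟫ * volDensity C ι x := by
      rw [← integral_add (hR k) hS]
      refine integral_congr_ae (Filter.Eventually.of_forall fun x => ?_)
      simp only [Q, R]
      ring
    rw [e1] at h
    linarith
  calc ∫ x, fderiv ℝ η x (D.frame x (T x)) * volDensity C ι x = ∫ x, ∑ k, P k x := by
        refine integral_congr_ae (Filter.Eventually.of_forall fun x => ?_)
        simp only [P, c]
        conv_lhs => rw [← Data.sum_bas (T x)]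
        rw [map_sum, map_sum, Finset.sum_mul]
        simp [map_smul]
    _ = ∑ k, -∫ x, Q k x := by
        rw [integral_finsetSum _ fun k _ => hP k]
        exact Finset.sum_congr rfl fun k _ => hk k
    _ = _ := by
        rw [Finset.sum_neg_distrib, ← integral_finsetSum _ fun k _ => hQ k]
        congr 1
        refine integral_congr_ae (Filter.Eventually.of_forall fun x => ?_)
        simp only [Q, c]
        rw [← Finset.sum_mul, ← Finset.mul_sum, Finset.sum_add_distrib]
        congr 3
        conv_rhs => rw [← Data.sum_bas (T x), inner_sum]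
        simp [inner_smul_right]

end Action

end Vale.Agent.P219
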