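import Mathlib
import Vale.Agent.P219.Defs
import Vale.Agent.P219.Ad
import Vale.Agent.P219.Setup
import Vale.Agent.P219.Kernel
import Vale.Agent.P219.Exp
import Vale.Agent.P219.Field
import Vale.Agent.P219.Weak

/-!
# P219 : the transvections of the space

`act a x` is the coordinate of `exp (a / 2) pt x exp (a / 2)`.
-/

open Matrix NormedSpace MeasureTheory Filter Topology Metric Set
open scoped Kronecker RealInnerProductSpace Matrix.Norms.Operator NNReal

set_option autoImplicit false
set_option backward.isDefEq.respectTransparency false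

namespace Vale.Agent.P219

variable {N n : ℕ}

/-- The exponential is injective on symmetric matrices. -/
lemma exp_inj_symm {A B : Mat N} (hA : Aᵀ = A) (hB : Bᵀ = B)
    (h : NormedSpace.exp A = NormedSpace.exp B) : A = B := by
  obtain ⟨d⟩ := exists_diag hA
  obtain ⟨e⟩ := exists_diag hB
  have h1 := d.exp_smul_eq 1
  have h2 := e.exp_smul_eq 1
  simp only [one_smul, one_mul] at h1 h2
  set M := e.Uᵀ * d.U with hM
  have key : M * diagonal (fun i => Real.exp (d.h i)) =
      diagonal (fun i => Real.exp (e.h i)) * M := by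
    have h3 : d.U * diagonal (fun i => Real.exp (d.h i)) * d.Uᵀ =
        e.U * diagonal (fun i => Real.exp (e.h i)) * e.Uᵀ := by rw [← h1, ← h2, h]
    calc M * diagonal (fun i => Real.exp (d.h i))
        = e.Uᵀ * (d.U * diagonal (fun i => Real.exp (d.h i)) * d.Uᵀ) * d.U := by
          simp [M, Matrix.mul_assoc, d.hUU']
      _ = e.Uᵀ * (e.U * diagonal (fun i => Real.exp (e.h i)) * e.Uᵀ) * d.U := by rw [h3]
      _ = _ := by
          rw [← Matrix.mul_assoc e.Uᵀ, ← Matrix.mul_assoc e.Uᵀ, e.hUU', Matrix.one_mul,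
            Matrix.mul_assoc]
  have key2 : M * diagonal d.h = diagonal e.h * M := by
    ext i j
    have := congrFun (congrFun key i) j
    simp only [mul_diagonal, diagonal_mul] at this ⊢
    by_cases hz : M i j = 0
    · simp [hz]
    · have h4 : Real.exp (d.h j) = Real.exp (e.h i) := mul_left_cancel₀ hz (by linarith)
      rw [Real.exp_injective h4]; ring
  calc A = (e.U * e.Uᵀ) * (d.U * diagonal d.h * d.Uᵀ) := by rw [e.hUU, Matrix.one_mul, ← d.hH]
    _ = e.U * (M * diagonal d.h) * d.Uᵀ := by simp [M, Matrix.mul_assoc]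
    _ = e.U * (diagonal e.h * M) * d.Uᵀ := by rw [key2]
    _ = e.U * diagonal e.h * e.Uᵀ * (d.U * d.Uᵀ) := by simp [M, Matrix.mul_assoc]
    _ = B := by rw [d.hUU, Matrix.mul_one, ← e.hH]

variable {C : Mat N} {ι : Coord n →ₗ[ℝ] Mat N}

namespace Data

variable (D : Data C ι)
include D

lemma iota_injective : Function.Injective ι := fun a b h => by
  apply D.emb_injective
  rw [D.emb_apply, D.emb_apply, h]

lemma pt_injective : Function.Injective (pt ι) := fun a b h =>
  D.iota_injective (exp_inj_symm (D.symm a) (D.symm b) h)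

/-- `cosh (ad H / 2) A` at the point `x`. -/
noncomputable def coshMat (_D : Data C ι) (a x : Coord n) : Mat N :=
  (1/2 : ℝ) • (halfExpNeg ι x * ι a * halfExp ι x + halfExp ι x * ι a * halfExpNeg ι x)

/-- Coordinates of `coshMat`. -/
noncomputable def coshVec (a x : Coord n) : Coord n := D.coef (vec (D.W * D.coshMat a x))

lemma vec_coshMat {x : Coord n} (d : Diag (ι x)) (a : Coord n) :
    vec (D.W * D.coshMat a x) = d.calc' (fun t => Real.cosh (t / 2)) *ᵥ D.emb a := by
  have hQ : ∀ X : Mat N, vec (halfExpNeg ι x * X * halfExp ι x) =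
      d.calc' (fun t => Real.exp (-t / 2)) *ᵥ vec X := by
    intro X
    have hQ : d.calc' (fun t => Real.exp (-t / 2)) * qOp (ι x) = 1 := by
      rw [d.qOp_eq, d.calc'_mul, ← d.calc'_one]
      refine d.calc'_congr fun p => ?_
      rw [← Real.exp_add]
      simp [neg_div]
    have : qOp (ι x) *ᵥ vec (halfExpNeg ι x * X * halfExp ι x) = vec X := by
      rw [qOp_mulVec]
      congr 1
      calc halfExp ι x * (halfExpNeg ι x * X * halfExp ι x) * halfExpNeg ι x
          = (halfExp ι x * halfExpNeg ι x) * X * (halfExp ι x * halfExpNeg ι x) := by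
            simp only [Matrix.mul_assoc]
        _ = X := by rw [halfExp_mul_neg]; simp
    rw [← this, mulVec_mulVec, hQ, one_mulVec]
  rw [← D.leftW_mulVec, coshMat, vec_smul, vec_add, hQ, ← qOp_mulVec, d.qOp_eq, ← add_mulVec,
    d.calc'_add, ← smul_mulVec, d.calc'_smul, mulVec_mulVec, d.comm_calc' (D.leftW_comm x),
    ← mulVec_mulVec, D.leftW_mulVec, ← D.emb_apply]
  congr 1
  refine d.calc'_congr fun p => ?_
  rw [Real.cosh_eq, neg_div]
  ring

lemma emb_coshVec (a x : Coord n) : D.emb (D.coshVec a x) = vec (D.W * D.coshMat a x) := by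
  obtain ⟨d⟩ := exists_diag (D.symm x)
  rw [coshVec, D.vec_coshMat d a, D.even_emb d (fun t => by rw [neg_div, Real.cosh_neg])]

lemma Wl_invertible (x : Coord n) : (D.Wl x).IsInvertible :=
  ⟨(LinearEquiv.ofBijective (D.Wl x).toLinearMap
    ⟨D.Wl_injective x, D.Wl_surjective x⟩).toContinuousLinearEquiv, by ext v; rfl⟩

/-- The velocity of the transvection flow. -/
noncomputable def flowField (a x : Coord n) : Coord n := (D.Wl x).inverse (D.coshVec a x)

lemma Wl_flowField (a x : Coord n) : D.Wl x (D.flowField a x) = D.coshVec a x :=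
  (D.Wl_invertible x).self_apply_inverse _

lemma contDiff_flowField (a : Coord n) : ContDiff ℝ 1 (D.flowField a) := by
  have hc : ContDiff ℝ 1 (D.coshVec a) := by
    have e : D.coshVec a = fun x => D.coef.toContinuousLinearMap
        ((D.leftW.mulVecLin.comp
          ({ toFun := fun M : Mat N => vec M
             map_add' := fun a b => vec_add a b
             map_smul' := fun c a => vec_smul c a } : Mat N →ₗ[ℝ] (Idx N → ℝ))).toContinuousLinearMap
          (D.coshMat a x)) := by
      funext x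
      simp [coshVec, D.leftW_mulVec, -vec]
    rw [e]
    refine (ContinuousLinearMap.contDiff _).comp ((ContinuousLinearMap.contDiff _).comp ?_)
    exact ((((contDiff_halfExpNeg ι).mul contDiff_const).mul (contDiff_halfExp ι)).add
      (((contDiff_halfExp ι).mul contDiff_const).mul (contDiff_halfExpNeg ι))).const_smul (1/2 : ℝ)
  have hi : ContDiff ℝ 1 (fun x => (D.Wl x).inverse) :=
    contDiff_iff_contDiffAt.2 fun x =>
      (D.Wl_invertible x).contDiffAt_map_inverse.comp x D.contDiff_Wl.contDiffAt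
  exact hi.clm_apply hc

lemma fderiv_pt_flowField (a x : Coord n) :
    fderiv ℝ (pt ι) x (D.flowField a x) = (1/2 : ℝ) • (ι a * pt ι x + pt ι x * ι a) := by
  have h : D.W * (halfExpNeg ι x * fderiv ℝ (pt ι) x (D.flowField a x) * halfExpNeg ι x) =
      D.W * D.coshMat a x := by
    apply vec_inj.1
    rw [← D.emb_Wl_vel, D.Wl_flowField, D.emb_coshVec]
  have h2 := congrArg (fun X => halfExp ι x * X * halfExp ι x) (D.W_cancel h)
  have hl : ∀ X : Mat N, halfExp ι x * (halfExpNeg ι x * X * halfExpNeg ι x) * halfExp ι x = X :=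
    fun X => by
      calc _ = (halfExp ι x * halfExpNeg ι x) * X * (halfExpNeg ι x * halfExp ι x) := by
            simp only [Matrix.mul_assoc]
        _ = X := by rw [halfExp_mul_neg, halfExpNeg_mul]; simp
  simp only [hl] at h2
  rw [h2, coshMat, Matrix.mul_smul, Matrix.smul_mul, ← halfExp_sq]
  congr 1
  rw [Matrix.mul_add, Matrix.add_mul]
  congr 1
  · calc _ = (halfExp ι x * halfExpNeg ι x) * ι a * (halfExp ι x * halfExp ι x) := by
          simp only [Matrix.mul_assoc]
      _ = _ := by rw [halfExp_mul_neg, Matrix.one_mul]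
  · calc _ = (halfExp ι x * halfExp ι x) * ι a * (halfExpNeg ι x * halfExp ι x) := by
          simp only [Matrix.mul_assoc]
      _ = _ := by rw [halfExpNeg_mul, Matrix.mul_one]

lemma Wl_smul_self (t : ℝ) (x : Coord n) : D.Wl (t • x) x = x := by
  apply D.emb_injective
  have hc : Commute (ι (t • x)) (ι x) := by rw [map_smul]; exact (Commute.refl _).smul_left t
  have hc2 : halfExpNeg ι (t • x) * ι x = ι x * halfExpNeg ι (t • x) :=
    ((hc.smul_left (-(1/2:ℝ))).exp_left).eq
  rw [D.emb_Wl_vel, fderiv_pt_apply, fderiv_exp_commute hc, D.emb_apply]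
  congr 2
  rw [show NormedSpace.exp (ι (t • x)) = pt ι (t • x) from rfl, ← halfExp_sq]
  calc halfExpNeg ι (t • x) * (halfExp ι (t • x) * halfExp ι (t • x) * ι x) * halfExpNeg ι (t • x)
      = (halfExpNeg ι (t • x) * halfExp ι (t • x)) * halfExp ι (t • x) *
          (ι x * halfExpNeg ι (t • x)) := by simp only [Matrix.mul_assoc]
    _ = (halfExp ι (t • x) * halfExpNeg ι (t • x)) * ι x := by
        rw [halfExpNeg_mul, Matrix.one_mul, ← hc2, Matrix.mul_assoc]
    _ = ι x := by rw [halfExp_mul_neg, Matrix.one_mul]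

lemma inner_flowField (a x : Coord n) : ⟪x, D.flowField a x⟫ = ⟪x, a⟫ := by
  have hself : D.Wl x x = x := by simpa using D.Wl_smul_self 1 x
  have h0 : ⟪x, D.flowField a x⟫ = ⟪x, D.coshVec a x⟫ := by
    rw [← D.Wl_flowField, ← D.Wl_symm, hself]
  rw [h0, ← D.emb_dot, D.emb_coshVec]
  rw [D.emb_apply, vec_dotProduct_vec, transpose_mul, D.hW, D.symm, ← D.hT.2.2.2.1 x a]
  set S := halfExp ι x
  set T := halfExpNeg ι x
  have hcH : ∀ c : ℝ, Commute (NormedSpace.exp (c • ι x)) (ι x) := fun c =>
    ((Commute.refl (ι x)).smul_left c).exp_left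
  have hcC : ∀ c : ℝ, Commute (NormedSpace.exp (c • ι x)) C := fun c =>
    ((show Commute (ι x) C from (D.hT.2.2.1 x).symm).smul_left c).exp_left
  have e : ι x * D.W * (D.W * D.coshMat a x) = C * ι x * D.coshMat a x := by
    rw [Matrix.mul_assoc, ← Matrix.mul_assoc D.W, D.hWW, ← Matrix.mul_assoc, ← D.hT.2.2.1 x]
  have h1 : ∀ U V : Mat N, Commute U (C * ι x) → U * V = 1 → V * U = 1 →
      (C * ι x * (V * ι a * U)).trace = (C * ι x * ι a).trace := by
    intro U V hU hUV hVU
    calc (C * ι x * (V * ι a * U)).trace = (U * (C * ι x) * V * ι a).trace := by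
          rw [← Matrix.mul_assoc, ← Matrix.mul_assoc, trace_mul_comm]
          simp only [Matrix.mul_assoc]
      _ = _ := by rw [hU.eq, Matrix.mul_assoc (C * ι x), hUV, Matrix.mul_one]
  rw [e, coshMat, Matrix.mul_smul, trace_smul, Matrix.mul_add, trace_add,
    h1 S T ((hcC _).mul_right (hcH _)) (halfExp_mul_neg ι x) (halfExpNeg_mul ι x),
    h1 T S ((hcC _).mul_right (hcH _)) (halfExpNeg_mul ι x) (halfExp_mul_neg ι x), smul_eq_mul]
  ring

/-- The transvection moves the space into itself, with an explicit bound. -/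
lemma exists_act (a x : Coord n) : ∃ y : Coord n,
    pt ι y = NormedSpace.exp ((1/2 : ℝ) • ι a) * pt ι x * NormedSpace.exp ((1/2 : ℝ) • ι a) ∧
      ‖y‖ ≤ Real.sqrt (1 + ‖x‖ ^ 2) + ‖a‖ := by
  set R := Real.sqrt (1 + ‖x‖ ^ 2) + ‖a‖ with hR
  have hR0 : 0 < R := by positivity
  let χ : ContDiffBump (0 : Coord n) := ⟨R, R + 1, hR0, by linarith⟩
  let F : Coord n → Coord n := fun y => χ y • D.flowField a y
  have hF : ContDiff ℝ 1 F := χ.contDiff.smul (D.contDiff_flowField a)
  have hFs : HasCompactSupport F := χ.hasCompactSupport.smul_right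
  obtain ⟨K, hK⟩ := ContDiff.lipschitzWith_of_hasCompactSupport hFs hF one_ne_zero
  obtain ⟨L, hL⟩ := hF.continuous.bounded_above_of_compact_support hFs
  have hPL : IsPicardLindelof (fun _ : ℝ => F) (⟨0, by simp⟩ : Icc (0:ℝ) 1) x
      L.toNNReal 0 L.toNNReal K :=
    { lipschitzOnWith := fun _ _ => hK.lipschitzOnWith
      continuousOn := fun _ _ => continuousOn_const
      norm_le := fun _ _ y _ => (hL y).trans (Real.le_coe_toNNReal L)
      mul_max_le := by simp }
  obtain ⟨γ, hγ0, hγ⟩ := hPL.exists_eq_forall_mem_Icc_hasDerivWithinAt₀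
  simp only at hγ0
  have hbound : ∀ t ∈ Icc (0:ℝ) 1, ‖γ t‖ ≤ R := by
    intro t ht
    let φ : ℝ → ℝ := fun s => Real.sqrt (1 + ‖γ s‖ ^ 2)
    have hd : ∀ s ∈ Icc (0:ℝ) 1, HasDerivWithinAt φ
        (χ (γ s) * ⟪γ s, a⟫ / φ s) (Icc 0 1) s := by
      intro s hs
      have h1 := ((hγ s hs).norm_sq.const_add 1).sqrt (by positivity)
      refine h1.congr_deriv ?_
      simp only [F, inner_smul_right, D.inner_flowField, φ]
      have : 0 < Real.sqrt (1 + ‖γ s‖ ^ 2) := by positivity
      field_simp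
    have hb : ∀ s ∈ Icc (0:ℝ) 1, ‖χ (γ s) * ⟪γ s, a⟫ / φ s‖ ≤ ‖a‖ := by
      intro s _
      have hpos : 0 < φ s := by positivity
      rw [Real.norm_eq_abs, abs_div, abs_mul, abs_of_pos hpos, abs_of_nonneg χ.nonneg,
        div_le_iff₀ hpos]
      have h1 : ‖γ s‖ ≤ φ s := Real.le_sqrt_of_sq_le (by linarith)
      calc χ (γ s) * |⟪γ s, a⟫| ≤ 1 * (‖γ s‖ * ‖a‖) :=
            mul_le_mul χ.le_one (abs_real_inner_le_norm _ _) (abs_nonneg _) zero_le_one
        _ ≤ ‖a‖ * φ s := by rw [one_mul, mul_comm]; gcongr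
    have h2 := (convex_Icc (0:ℝ) 1).norm_image_sub_le_of_norm_hasDerivWithin_le hd hb
      (left_mem_Icc.2 zero_le_one) ht
    rw [Real.norm_eq_abs, Real.norm_eq_abs, sub_zero, abs_of_nonneg ht.1] at h2
    have h3 : φ 0 = Real.sqrt (1 + ‖x‖ ^ 2) := by simp [φ, hγ0]
    have h4 : φ t - φ 0 ≤ ‖a‖ := (le_abs_self _).trans (h2.trans (by nlinarith [norm_nonneg a, ht.2]))
    have h5 : ‖γ t‖ ≤ φ t := Real.le_sqrt_of_sq_le (by linarith)
    rw [hR, ← h3]
    linarith
  refine ⟨γ 1, ?_, hbound 1 (right_mem_Icc.2 zero_le_one)⟩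
  set A' : Mat N := (-(1/2 : ℝ)) • ι a with hA'
  let ψ : ℝ → Mat N := fun t => NormedSpace.exp (t • A') * pt ι (γ t) * NormedSpace.exp (t • A')
  have hψ : ∀ s ∈ Icc (0:ℝ) 1, HasDerivWithinAt ψ 0 (Icc 0 1) s := by
    intro s hs
    have hFs' : F (γ s) = D.flowField a (γ s) := by
      have : χ (γ s) = 1 := χ.one_of_mem_closedBall (by simpa using hbound s hs)
      simp [F, this]
    have hp : HasDerivWithinAt (fun t => pt ι (γ t))
        ((1/2 : ℝ) • (ι a * pt ι (γ s) + pt ι (γ s) * ι a)) (Icc 0 1) s := by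
      have h1 := hγ s hs
      rw [hFs'] at h1
      have := ((contDiff_pt ι (k := 1)).differentiable one_ne_zero (γ s)).hasFDerivAt
        |>.comp_hasDerivWithinAt s h1
      rwa [D.fderiv_pt_flowField] at this
    have h3 := (((hasDerivAt_exp_smul_const (𝕂 := ℝ) A' s).hasDerivWithinAt).mul hp).mul
      ((hasDerivAt_exp_smul_const' (𝕂 := ℝ) A' s).hasDerivWithinAt)
    refine h3.congr_deriv ?_
    simp only [hA', Pi.mul_apply, Matrix.mul_assoc, Matrix.mul_add, Matrix.add_mul, Matrix.smul_mul,
      Matrix.mul_smul, neg_smul, Matrix.neg_mul, Matrix.mul_neg, smul_add]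
    abel
  have hc := (convex_Icc (0:ℝ) 1).norm_image_sub_le_of_norm_hasDerivWithin_le (C := 0) hψ
    (fun _ _ => by simp) (left_mem_Icc.2 zero_le_one) (right_mem_Icc.2 zero_le_one)
  simp only [zero_mul, norm_le_zero_iff, sub_eq_zero] at hc
  simp only [ψ, one_smul, zero_smul, NormedSpace.exp_zero, hγ0, Matrix.one_mul,
    Matrix.mul_one] at hc
  have he : NormedSpace.exp ((1/2 : ℝ) • ι a) * NormedSpace.exp A' = 1 := halfExp_mul_neg ι a
  have he' : NormedSpace.exp A' * NormedSpace.exp ((1/2 : ℝ) • ι a) = 1 := halfExpNeg_mul ι a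
  rw [← hc]
  simp only [← Matrix.mul_assoc]
  rw [he, Matrix.one_mul, Matrix.mul_assoc, he', Matrix.mul_one]

/-- The transvection with translation part `a`, in coordinates. -/
noncomputable def act (a x : Coord n) : Coord n := Classical.choose (D.exists_act a x)

lemma pt_act (a x : Coord n) :
    pt ι (D.act a x) = NormedSpace.exp ((1/2 : ℝ) • ι a) * pt ι x *
      NormedSpace.exp ((1/2 : ℝ) • ι a) :=
  (Classical.choose_spec (D.exists_act a x)).1

lemma norm_act_le (a x : Coord n) : ‖D.act a x‖ ≤ Real.sqrt (1 + ‖x‖ ^ 2) + ‖a‖ :=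
  (Classical.choose_spec (D.exists_act a x)).2

lemma act_zero_left (x : Coord n) : D.act 0 x = x :=
  D.pt_injective (by rw [D.pt_act]; simp)

lemma act_zero_right (a : Coord n) : D.act a 0 = a :=
  D.pt_injective (by rw [D.pt_act, ← halfExp_sq ι a]; simp [pt, halfExp])

lemma act_neg_act (a x : Coord n) : D.act (-a) (D.act a x) = x := by
  refine D.pt_injective ?_
  rw [D.pt_act, D.pt_act, map_neg, smul_neg, ← neg_smul]
  have he : NormedSpace.exp ((-(1/2 : ℝ)) • ι a) * NormedSpace.exp ((1/2 : ℝ) • ι a) = 1 :=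
    halfExpNeg_mul ι a
  have he' : NormedSpace.exp ((1/2 : ℝ) • ι a) * NormedSpace.exp ((-(1/2 : ℝ)) • ι a) = 1 :=
    halfExp_mul_neg ι a
  simp only [← Matrix.mul_assoc]
  rw [he, Matrix.one_mul, Matrix.mul_assoc, he', Matrix.mul_one]

lemma act_act_neg (a x : Coord n) : D.act a (D.act (-a) x) = x := by
  simpa using D.act_neg_act (-a) x

lemma contDiff_pt_act {k : WithTop ℕ∞} :
    ContDiff ℝ k (fun q : Coord n × Coord n => pt ι (D.act q.1 q.2)) := by
  simp only [D.pt_act]
  have h : ContDiff ℝ k (fun q : Coord n × Coord n => NormedSpace.exp ((1/2 : ℝ) • ι q.1)) :=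
    (contDiff_halfExp ι).comp contDiff_fst
  exact (h.mul ((contDiff_pt ι).comp contDiff_snd)).mul h

lemma continuous_act : Continuous (fun q : Coord n × Coord n => D.act q.1 q.2) := by
  refine continuous_iff_continuousAt.2 fun q => ?_
  set B := Real.sqrt (1 + ‖q.2‖ ^ 2) + ‖q.1‖ + 1 with hB
  refine (isCompact_closedBall (0 : Coord n) B).tendsto_nhds_of_unique_mapClusterPt ?_ ?_
  · have hc : Continuous (fun p : Coord n × Coord n =>
        Real.sqrt (1 + ‖p.2‖ ^ 2) + ‖p.1‖) := by fun_prop
    filter_upwards [hc.continuousAt.eventually_lt_const (u := B) (by rw [hB]; linarith)] with p hp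
    exact mem_closedBall_zero_iff.2 ((D.norm_act_le p.1 p.2).trans hp.le)
  · intro y _ hy
    refine D.pt_injective ?_
    have h1 : MapClusterPt (pt ι y) (𝓝 q) (fun p => pt ι (D.act p.1 p.2)) :=
      hy.continuousAt_comp (contDiff_pt ι (k := 1)).continuous.continuousAt
    have h2 : Tendsto (fun p : Coord n × Coord n => pt ι (D.act p.1 p.2)) (𝓝 q)
        (𝓝 (pt ι (D.act q.1 q.2))) := (D.contDiff_pt_act (k := 1)).continuous.continuousAt
    exact eq_of_nhds_neBot (ClusterPt.mono h1 h2)

lemma fderiv_pt_injective (x : Coord n) : Function.Injective (fderiv ℝ (pt ι) x) := fun u v h => by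
  apply D.Wl_injective x
  rw [D.Wl_apply, D.Wl_apply, h]

/-- The transvections depend smoothly on both variables. -/
theorem contDiff_act {k : WithTop ℕ∞} (hk : k ≠ 0) :
    ContDiff ℝ k (fun q : Coord n × Coord n => D.act q.1 q.2) := by
  refine contDiff_iff_contDiffAt.2 fun q => ?_
  set y := D.act q.1 q.2 with hy
  obtain ⟨L, hL⟩ := LinearMap.exists_leftInverse_of_injective
    (fderiv ℝ (pt ι) y).toLinearMap (LinearMap.ker_eq_bot.2 (D.fderiv_pt_injective y))
  set L' : Mat N →L[ℝ] Coord n := L.toContinuousLinearMap with hL'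
  have hf : ContDiff ℝ k (fun z => L' (pt ι z)) := L'.contDiff.comp (contDiff_pt ι)
  have hd : HasFDerivAt (fun z => L' (pt ι z))
      ((ContinuousLinearEquiv.refl ℝ (Coord n)) : Coord n →L[ℝ] Coord n) y := by
    have h1 := L'.hasFDerivAt.comp y
      ((contDiff_pt ι (k := 1)).differentiable one_ne_zero y).hasFDerivAt
    refine h1.congr_fderiv ?_
    ext1 v
    exact LinearMap.congr_fun hL v
  have hinv := hf.contDiffAt.to_localInverse hd hk
  have hev : ∀ᶠ z in 𝓝 y, hf.contDiffAt.localInverse hd hk (L' (pt ι z)) = z :=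
    HasStrictFDerivAt.eventually_left_inverse _
  have hev2 : (fun p : Coord n × Coord n => D.act p.1 p.2) =ᶠ[𝓝 q]
      fun p => hf.contDiffAt.localInverse hd hk (L' (pt ι (D.act p.1 p.2))) := by
    filter_upwards [(D.continuous_act.continuousAt (x := q)).eventually hev] with p hp
    exact hp.symm
  refine ContDiffAt.congr_of_eventuallyEq ?_ hev2
  exact hinv.comp q (L'.contDiff.comp D.contDiff_pt_act).contDiffAt

lemma contDiff_act_right {k : WithTop ℕ∞} (hk : k ≠ 0) (a : Coord n) : ContDiff ℝ k (D.act a) :=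
  ContDiff.comp (g := fun q : Coord n × Coord n => D.act q.1 q.2) (f := fun x : Coord n => (a, x))
    (D.contDiff_act hk) (contDiff_const.prodMk contDiff_id)

/-- The generator of the transvections is `flowField`. -/
theorem hasDerivAt_act (a x : Coord n) :
    HasDerivAt (fun t : ℝ => D.act (t • a) x) (D.flowField a x) 0 := by
  have hdiff : DifferentiableAt ℝ (fun t : ℝ => D.act (t • a) x) 0 := by
    have h := (D.contDiff_act (k := 1) one_ne_zero).differentiable one_ne_zero ((0:ℝ) • a, x)
    exact DifferentiableAt.comp (g := fun q : Coord n × Coord n => D.act q.1 q.2)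
      (f := fun t : ℝ => (t • a, x)) 0 h
      ((differentiableAt_id.smul_const a).prodMk (differentiableAt_const x))
  have h1 := ((contDiff_pt ι (k := 1)).differentiable one_ne_zero x).hasFDerivAt.comp_hasDerivAt_of_eq
    (0:ℝ) hdiff.hasDerivAt (by simp [D.act_zero_left])
  have e : (pt ι ∘ fun t : ℝ => D.act (t • a) x) = fun t : ℝ =>
      NormedSpace.exp (t • ((1/2 : ℝ) • ι a)) * pt ι x *
        NormedSpace.exp (t • ((1/2 : ℝ) • ι a)) := by
    funext t
    simp only [Function.comp, D.pt_act, map_smul, smul_comm t]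
  rw [e] at h1
  have h2 := (((hasDerivAt_exp_smul_const (𝕂 := ℝ) ((1/2 : ℝ) • ι a) 0)).mul_const (pt ι x)).mul
    (hasDerivAt_exp_smul_const (𝕂 := ℝ) ((1/2 : ℝ) • ι a) 0)
  have h3 := h1.unique h2
  have h4 : deriv (fun t : ℝ => D.act (t • a) x) 0 = D.flowField a x := by
    apply D.fderiv_pt_injective x
    rw [h3, D.fderiv_pt_flowField]
    simp [smul_add]
  rw [← h4]
  exact hdiff.hasDerivAt

lemma flowField_eq_killing (a x : Coord n) : D.flowField a x = D.killing a x := by
  obtain ⟨d⟩ := exists_diag (D.symm x)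
  have h : D.Wl x (D.flowField a x) = D.Wl x (D.killing a x) := by
    rw [D.Wl_flowField, killing, D.Wl_frame]
    apply D.emb_injective
    rw [D.emb_coshVec, D.emb_ch, d.chOp_eq, D.vec_coshMat d a]
  exact D.Wl_injective x h

/-- The generator of the transvections is the Killing field. -/
theorem hasDerivAt_act_killing (a x : Coord n) :
    HasDerivAt (fun t : ℝ => D.act (t • a) x) (D.killing a x) 0 :=
  D.flowField_eq_killing a x ▸ D.hasDerivAt_act a x

lemma fderiv_pt_act (a x v : Coord n) :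
    fderiv ℝ (pt ι) (D.act a x) (fderiv ℝ (D.act a) x v) =
      NormedSpace.exp ((1/2 : ℝ) • ι a) * fderiv ℝ (pt ι) x v *
        NormedSpace.exp ((1/2 : ℝ) • ι a) := by
  have h1 := ((contDiff_pt ι (k := 1)).differentiable one_ne_zero (D.act a x)).hasFDerivAt.comp x
    ((D.contDiff_act_right one_ne_zero a).differentiable one_ne_zero x).hasFDerivAt
  have h2 := ((((contDiff_pt ι (k := 1)).differentiable one_ne_zero x).hasFDerivAt).const_mul
    (NormedSpace.exp ((1/2 : ℝ) • ι a))).mul_const' (NormedSpace.exp ((1/2 : ℝ) • ι a))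
  have e : (pt ι ∘ D.act a) = fun y => NormedSpace.exp ((1/2 : ℝ) • ι a) * pt ι y *
      NormedSpace.exp ((1/2 : ℝ) • ι a) := funext (D.pt_act a)
  rw [e] at h1
  simpa using congrArg (fun L : Coord n →L[ℝ] Mat N => L v) (h1.unique h2)

/-- The transvections are isometries. -/
theorem inner_Wl_act (a x v w : Coord n) :
    ⟪D.Wl (D.act a x) (fderiv ℝ (D.act a) x v), D.Wl (D.act a x) (fderiv ℝ (D.act a) x w)⟫ =
      ⟪D.Wl x v, D.Wl x w⟫ := by
  rw [D.inner_Wl, D.inner_Wl, dpt_eq, dpt_eq, dpt_eq, dpt_eq, D.fderiv_pt_act, D.fderiv_pt_act,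
    D.pt_act]
  set e := NormedSpace.exp ((1/2 : ℝ) • ι a)
  set f := NormedSpace.exp ((-(1/2 : ℝ)) • ι a)
  have hef : e * f = 1 := halfExp_mul_neg ι a
  have hfe : f * e = 1 := halfExpNeg_mul ι a
  have hinv : (e * pt ι x * e)⁻¹ = f * (pt ι x)⁻¹ * f := by
    rw [Matrix.mul_inv_rev, Matrix.mul_inv_rev, inv_eq_right_inv hef, ← Matrix.mul_assoc]
  have hfC : f * C = C * f :=
    (((show Commute (ι a) C from (D.hT.2.2.1 a).symm).smul_left _).exp_left).eq
  have hfe2 : ∀ X : Mat N, f * (e * X) = X := fun X => by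
    rw [← Matrix.mul_assoc, hfe, Matrix.one_mul]
  have hef2 : ∀ X : Mat N, e * (f * X) = X := fun X => by
    rw [← Matrix.mul_assoc, hef, Matrix.one_mul]
  rw [hinv]
  simp only [Matrix.mul_assoc, hfe2, hef2]
  rw [← Matrix.mul_assoc C f, ← hfC, Matrix.mul_assoc f C, trace_mul_comm f]
  simp [Matrix.mul_assoc, hef]

lemma norm_Wl_act (a x v : Coord n) :
    ‖D.Wl (D.act a x) (fderiv ℝ (D.act a) x v)‖ = ‖D.Wl x v‖ := by
  rw [norm_eq_sqrt_real_inner, norm_eq_sqrt_real_inner, D.inner_Wl_act]

/-- The transvections keep the volume. -/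
theorem volDensity_act (a x : Coord n) :
    |(fderiv ℝ (D.act a) x).det| * volDensity C ι (D.act a x) = volDensity C ι x := by
  rw [D.volDensity_eq, D.volDensity_eq, ContinuousLinearMap.det, ← abs_mul, mul_comm,
    ← LinearMap.det_comp, ← sq_eq_sq_iff_abs_eq_abs]
  set b := (EuclideanSpace.basisFun (Fin n) ℝ).toBasis
  rw [← LinearMap.det_toMatrix b, ← LinearMap.det_toMatrix b, sq, sq]
  conv_lhs => rw [← Matrix.det_mul]; arg 1; skip
  set M := LinearMap.toMatrix b b
    ((D.Wl (D.act a x)).toLinearMap ∘ₗ (fderiv ℝ (D.act a) x).toLinearMap)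
  set M' := LinearMap.toMatrix b b (D.Wl x).toLinearMap
  have key : Mᵀ * M = M'ᵀ * M' := by
    ext i j
    have := D.inner_Wl_act a x (EuclideanSpace.single i 1) (EuclideanSpace.single j 1)
    simp only [PiLp.inner_apply] at this
    simpa [M, M', b, mul_apply, LinearMap.toMatrix_apply, mul_comm] using this
  have := congrArg Matrix.det key
  simpa [Matrix.det_mul, Matrix.det_transpose] using this

theorem lintegral_comp_act (a : Coord n) (f : Coord n → ENNReal) :
    ∫⁻ x, f (D.act a x) * ENNReal.ofReal (volDensity C ι x) =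
      ∫⁻ x, f x * ENNReal.ofReal (volDensity C ι x) := by
  have himg : D.act a '' univ = univ :=
    eq_univ_of_forall fun y => ⟨D.act (-a) y, mem_univ _, D.act_act_neg a y⟩
  have h := lintegral_image_eq_lintegral_abs_det_fderiv_mul volume MeasurableSet.univ
    (fun x _ => (((D.contDiff_act_right one_ne_zero a).differentiable one_ne_zero x).hasFDerivAt
      ).hasFDerivWithinAt)
    (Function.LeftInverse.injective (D.act_neg_act a)).injOn
    (fun x => f x * ENNReal.ofReal (volDensity C ι x))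
  rw [himg, setLIntegral_univ, setLIntegral_univ] at h
  rw [h]
  refine lintegral_congr fun x => ?_
  conv_lhs => rw [← D.volDensity_act a x, ENNReal.ofReal_mul (abs_nonneg _)]
  ring

theorem integral_comp_act (a : Coord n) (f : Coord n → ℝ) :
    ∫ x, f (D.act a x) * volDensity C ι x = ∫ x, f x * volDensity C ι x := by
  have himg : D.act a '' univ = univ :=
    eq_univ_of_forall fun y => ⟨D.act (-a) y, mem_univ _, D.act_act_neg a y⟩
  have h := integral_image_eq_integral_abs_det_fderiv_smul volume MeasurableSet.univ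
    (fun x _ => (((D.contDiff_act_right one_ne_zero a).differentiable one_ne_zero x).hasFDerivAt
      ).hasFDerivWithinAt)
    (Function.LeftInverse.injective (D.act_neg_act a)).injOn
    (fun x => f x * volDensity C ι x)
  rw [himg, setIntegral_univ, setIntegral_univ] at h
  rw [h]
  refine integral_congr_ae (Eventually.of_forall fun x => ?_)
  simp only [smul_eq_mul]
  conv_lhs => rw [← D.volDensity_act a x]
  ring

/-- A transvection moves `x` by at most `‖x‖` from the image of the origin. -/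
theorem norm_act_sub_le (a x : Coord n) : ‖D.act a x - a‖ ≤ ‖x‖ := by
  have hd : ∀ t ∈ Icc (0:ℝ) 1, HasDerivWithinAt (fun t : ℝ => D.act a (t • x))
      (fderiv ℝ (D.act a) (t • x) x) (Icc 0 1) t := by
    intro t _
    have hc : HasDerivAt (fun t : ℝ => t • x) x t := by
      simpa using (hasDerivAt_id t).smul_const x
    exact ((((D.contDiff_act_right one_ne_zero a).differentiable one_ne_zero (t • x)).hasFDerivAt
      ).comp_hasDerivAt t hc).hasDerivWithinAt
  have hb : ∀ t ∈ Icc (0:ℝ) 1, ‖fderiv ℝ (D.act a) (t • x) x‖ ≤ ‖x‖ := fun t _ => by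
    calc _ ≤ ‖D.Wl (D.act a (t • x)) (fderiv ℝ (D.act a) (t • x) x)‖ := D.norm_le_Wl _ _
      _ = ‖x‖ := by rw [D.norm_Wl_act, D.Wl_smul_self]
  have := (convex_Icc (0:ℝ) 1).norm_image_sub_le_of_norm_hasDerivWithin_le hd hb
    (left_mem_Icc.2 zero_le_one) (right_mem_Icc.2 zero_le_one)
  simpa [D.act_zero_right] using this

end Data

/-- The transvections form a transitive family of isometries. -/
theorem exists_action (D : Data C ι) : Nonempty (Action D) :=
  ⟨{ act := D.act
     smooth := D.contDiff_act one_ne_zero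
     origin := D.act_zero_right
     zero_act := D.act_zero_left
     neg_act := D.act_neg_act
     isometry := D.norm_Wl_act
     velocity := D.hasDerivAt_act_killing }⟩

end Vale.Agent.P219
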