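import Mathlib
import Vale.Agent.P219.Defs
import Vale.Agent.P219.Ad
import Vale.Agent.P219.Setup
import Vale.Agent.P219.Kernel
import Vale.Agent.P219.Exp
import Vale.Agent.P219.Field
import Vale.Agent.P219.Transitive
import Vale.Agent.P219.Weak
import Vale.Agent.P219.Reg
import Vale.Agent.P219.LinAlg
import Vale.Agent.P219.Transport

/-!
# P219 : the sharp Sobolev inequality for nonnegative functions
-/

open Matrix MeasureTheory Metric Set Filter Topology
open scoped RealInnerProductSpace ENNReal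

set_option autoImplicit false

namespace Vale.Agent.P219

variable {N n : ℕ} {C : Mat N} {ι : Coord n →ₗ[ℝ] Mat N}

namespace Data

variable (D : Data C ι)
include D

/-- The transvections as an action. -/
noncomputable def action : Action D where
  act := D.act
  smooth := D.contDiff_act one_ne_zero
  origin := D.act_zero_right
  zero_act := D.act_zero_left
  neg_act := D.act_neg_act
  isometry := D.norm_Wl_act
  velocity := D.hasDerivAt_act_killing

/-- The chart built from the divergence of the frame. -/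
noncomputable def chart (δ : ℝ) (x : Coord n) : Coord n := D.divV x + δ • D.reg x

lemma contDiff_chart (δ : ℝ) : ContDiff ℝ 1 (D.chart δ) :=
  D.contDiff_divV.add (D.contDiff_reg.const_smul δ)

lemma jac_chart {δ : ℝ} (hδ : 0 < δ) (x : Coord n) :
    (∀ z w, ⟪fderiv ℝ (D.chart δ) x (D.frame x z), w⟫ =
      ⟪fderiv ℝ (D.chart δ) x (D.frame x w), z⟫) ∧
    (∀ z, z ≠ 0 → 0 < ⟪fderiv ℝ (D.chart δ) x (D.frame x z), z⟫) := by
  have h : fderiv ℝ (D.chart δ) x = fderiv ℝ D.divV x + δ • fderiv ℝ D.reg x :=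
    ((D.contDiff_divV.differentiable one_ne_zero x).hasFDerivAt.add
      ((D.contDiff_reg.differentiable one_ne_zero x).hasFDerivAt.const_smul δ)).fderiv
  constructor
  · intro z w
    simp only [h, ContinuousLinearMap.add_apply, ContinuousLinearMap.smul_apply, inner_add_left,
      inner_smul_left, RCLike.conj_to_real]
    rw [(D.jac_props x z w).1, D.reg_symm x z w]
  · intro z hz
    simp only [h, ContinuousLinearMap.add_apply, ContinuousLinearMap.smul_apply, inner_add_left,
      inner_smul_left, RCLike.conj_to_real]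
    exact add_pos_of_nonneg_of_pos (D.jac_props x z z).2 (mul_pos hδ (D.reg_pos x hz))

lemma det_chart {δ : ℝ} (hδ : 0 < δ) (hn : 0 < n) (x : Coord n) :
    0 < LinearMap.det ((fderiv ℝ (D.chart δ) x).comp (D.frame x)).toLinearMap ∧
    |LinearMap.det (fderiv ℝ (D.chart δ) x).toLinearMap| =
      LinearMap.det ((fderiv ℝ (D.chart δ) x).comp (D.frame x)).toLinearMap *
        volDensity C ι x := by
  obtain ⟨hs, hp⟩ := D.jac_chart hδ x
  have hJ := (trace_det_map hn (ContinuousLinearMap.id ℝ (Coord n))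
    ((fderiv ℝ (D.chart δ) x).comp (D.frame x))
    (by simpa using LinearMap.IsPositive.id) hs hp).2.2.1
  refine ⟨hJ, ?_⟩
  have e : (fderiv ℝ (D.chart δ) x).toLinearMap =
      ((fderiv ℝ (D.chart δ) x).comp (D.frame x)).toLinearMap ∘ₗ (D.Wl x).toLinearMap := by
    refine LinearMap.ext fun v => ?_
    show fderiv ℝ (D.chart δ) x v = fderiv ℝ (D.chart δ) x (D.frame x (D.Wl x v))
    rw [D.frame_Wl]
  rw [D.volDensity_eq, e, LinearMap.det_comp, abs_mul, abs_of_pos hJ]

lemma det_chart_ne {δ : ℝ} (hδ : 0 < δ) (hn : 0 < n) (x : Coord n) :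
    LinearMap.det (fderiv ℝ (D.chart δ) x).toLinearMap ≠ 0 := by
  obtain ⟨h1, h2⟩ := D.det_chart hδ hn x
  intro h
  rw [h, abs_zero] at h2
  exact (mul_pos h1 (D.volDensity_pos x)).ne h2

lemma continuous_gradNorm {u : Coord n → ℝ} (hu : ContDiff ℝ 1 u) :
    Continuous (gradNorm C ι u) := by
  have hg : Continuous fun x => (fun i => fderiv ℝ u x (EuclideanSpace.single i 1)) :=
    continuous_pi fun i => (hu.continuous_fderiv one_ne_zero).clm_apply continuous_const
  have hG : Continuous fun x => gram C ι x := by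
    rw [funext D.gram_eq]
    have : Continuous fun x => LinearMap.toMatrix (EuclideanSpace.basisFun (Fin n) ℝ).toBasis
        (EuclideanSpace.basisFun (Fin n) ℝ).toBasis (D.Wl x).toLinearMap := by
      refine continuous_pi fun i => continuous_pi fun j => ?_
      simp only [LinearMap.toMatrix_apply, OrthonormalBasis.coe_toBasis,
        OrthonormalBasis.coe_toBasis_repr_apply, EuclideanSpace.basisFun_repr,
        ContinuousLinearMap.coe_coe]
      exact (EuclideanSpace.proj (𝕜 := ℝ) i).continuous.comp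
        (D.contDiff_Wl.continuous.clm_apply continuous_const)
    exact this.matrix_transpose.matrix_mul this
  have hdet : ∀ x, (gram C ι x).det ≠ 0 := by
    intro x h
    have := D.volDensity_pos x
    rw [volDensity, h, Real.sqrt_zero] at this
    exact lt_irrefl _ this
  have hinv : Continuous fun x => (gram C ι x)⁻¹ := by
    refine continuous_iff_continuousAt.2 fun x => ?_
    exact (continuousAt_matrix_inv _ (by
      rw [Ring.inverse_eq_inv']; exact continuousAt_inv₀ (hdet x))).comp hG.continuousAt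
  exact (hg.dotProduct (hinv.matrix_mulVec hg)).sqrt

lemma gradNorm_nonneg (u : Coord n → ℝ) (x : Coord n) : 0 ≤ gradNorm C ι u x :=
  Real.sqrt_nonneg _

/-- Joint continuity of the moved chart. -/
lemma continuous_moved (δ : ℝ) :
    Continuous fun q : Coord n × Coord n => D.chart δ (D.act (-q.1) q.2) := by
  have h1 : Continuous fun q : Coord n × Coord n => ((-q.1, q.2) : Coord n × Coord n) :=
    continuous_fst.neg.prodMk continuous_snd
  have h2 := D.continuous_act.comp h1
  simp only [Function.comp_def] at h2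
  exact Continuous.comp (g := D.chart δ) (D.contDiff_chart δ).continuous h2

/-- Transvections keep null sets. -/
lemma act_null (a : Coord n) {S : Set (Coord n)} (hS : volume S = 0) :
    volume ((D.act a) ⁻¹' S) = 0 := by
  refine null_preimage (D.contDiff_act_right one_ne_zero a) (fun x h => ?_) hS
  have h2 := D.volDensity_act a x
  rw [ContinuousLinearMap.det, h, abs_zero, zero_mul] at h2
  exact (D.volDensity_pos x).ne h2

/-- The chart points inwards far from the support. -/
lemma exists_radius {δ B : ℝ} (hδ : 0 < δ) (hB : ∀ x, ‖D.reg x‖ ≤ B) {K : Set (Coord n)}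
    (hK : IsCompact K) : ∃ R : ℝ, 0 < R ∧ ∀ a : Coord n, ‖a‖ = R → ∀ x ∈ K,
      ⟪D.chart δ (D.act (-a) x), a⟫ < 0 := by
  obtain ⟨BV, hBV⟩ := D.divV_bounded
  obtain ⟨cc, bb, hcc, hgrow⟩ := D.inner_reg_self
  obtain ⟨Mk, hMk⟩ := hK.isBounded.exists_norm_le
  have hBV0 : 0 ≤ BV := (norm_nonneg _).trans (hBV 0)
  have hB0 : 0 ≤ B := (norm_nonneg _).trans (hB 0)
  have hΦb : ∀ x, ‖D.chart δ x‖ ≤ BV + δ * B := fun x => (norm_add_le _ _).trans (add_le_add (hBV x) (by
    rw [norm_smul, Real.norm_of_nonneg hδ.le]; exact mul_le_mul_of_nonneg_left (hB x) hδ.le))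
  let R : ℝ := |Mk| + (abs ((BV + δ * B) * |Mk|) + |δ * bb| + 1) / (δ * cc)
  have hR : 0 < R := by
    refine add_pos_of_nonneg_of_pos (abs_nonneg _) (div_pos ?_ (mul_pos hδ hcc))
    positivity
  have hout : ∀ a : Coord n, ‖a‖ = R → ∀ x ∈ K, ⟪D.chart δ (D.act (-a) x), a⟫ < 0 := by
    intro a ha x hx
    set X := D.act (-a) x with hX
    have h1 : ‖X + a‖ ≤ |Mk| := by
      have := D.norm_act_sub_le (-a) x
      rw [sub_neg_eq_add] at this
      exact this.trans ((hMk x hx).trans (le_abs_self _))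
    have h2 : R - |Mk| ≤ ‖X‖ := by
      have : ‖a‖ ≤ ‖X + a‖ + ‖X‖ := by
        calc ‖a‖ = ‖(X + a) - X‖ := by rw [add_sub_cancel_left]
          _ ≤ _ := norm_sub_le _ _
      linarith
    have h3 : δ * (cc * ‖X‖ - bb) ≤ ⟪D.chart δ X, X⟫ := by
      show _ ≤ ⟪D.divV X + δ • D.reg X, X⟫
      rw [inner_add_left, inner_smul_left, RCLike.conj_to_real]
      have := mul_le_mul_of_nonneg_left (hgrow X) hδ.le
      linarith [D.inner_divV_self X]
    have h4 : ⟪D.chart δ X, X + a⟫ ≤ (BV + δ * B) * |Mk| :=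
      (real_inner_le_norm _ _).trans
        (mul_le_mul (hΦb X) h1 (norm_nonneg _) (by positivity))
    have h5 : ⟪D.chart δ (D.act (-a) x), a⟫ = ⟪D.chart δ X, X + a⟫ - ⟪D.chart δ X, X⟫ := by
      rw [inner_add_right, add_sub_cancel_left]
    have h6 : δ * cc * (R - |Mk|) = abs ((BV + δ * B) * |Mk|) + |δ * bb| + 1 := by
      simp only [R, add_sub_cancel_left]
      field_simp
    have h7 : δ * cc * (R - |Mk|) ≤ δ * cc * ‖X‖ :=
      mul_le_mul_of_nonneg_left h2 (mul_pos hδ hcc).le
    show ⟪D.chart δ X, a⟫ < 0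
    rw [← hX] at h5
    rw [h5]
    linarith [le_abs_self ((BV + δ * B) * |Mk|), le_abs_self (δ * bb), mul_sub δ (cc * ‖X‖) bb]
  exact ⟨R, hR, hout⟩

/-- The pulled back density of the transported measure. -/
lemma map_density (g : Coord n → ℝ) (hg0 : ∀ x, 0 ≤ g x) (a : Coord n)
    {Φ : Coord n → Coord n} (hΦ : Continuous Φ) {S : Set (Coord n)} (hS : MeasurableSet S) :
    ((volume.withDensity fun x => ENNReal.ofReal (g x * volDensity C ι x)).map
        (fun x => Φ (D.act (-a) x))) S =
      ∫⁻ x in Φ ⁻¹' S, ENNReal.ofReal (g (D.act a x) * volDensity C ι x) := by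
  have hGm : Measurable fun x => Φ (D.act (-a) x) :=
    (hΦ.comp (D.contDiff_act_right (k := 1) one_ne_zero (-a)).continuous).measurable
  have hpre : MeasurableSet (Φ ⁻¹' S) := hΦ.measurable hS
  set P := (fun x => Φ (D.act (-a) x)) ⁻¹' S with hP
  rw [Measure.map_apply hGm hS, withDensity_apply _ (hGm hS),
    ← lintegral_indicator (hGm hS), ← lintegral_indicator hpre]
  have e1 : ∀ y, P.indicator (fun x => ENNReal.ofReal (g x * volDensity C ι x)) y =
      P.indicator (fun y => ENNReal.ofReal (g y)) y * ENNReal.ofReal (volDensity C ι y) := by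
    intro y
    by_cases hy : y ∈ P
    · simp only [indicator_of_mem hy]
      rw [ENNReal.ofReal_mul (hg0 y)]
    · simp [indicator_of_notMem hy]
  rw [lintegral_congr e1, ← D.lintegral_comp_act a]
  refine lintegral_congr fun x => ?_
  have hm : D.act a x ∈ P ↔ x ∈ Φ ⁻¹' S := by
    simp only [hP, mem_preimage, D.act_neg_act]
  by_cases hx : x ∈ Φ ⁻¹' S
  · rw [indicator_of_mem (hm.2 hx), indicator_of_mem hx, ← ENNReal.ofReal_mul (hg0 _)]
  · rw [indicator_of_notMem (fun h => hx (hm.1 h)), indicator_of_notMem hx, zero_mul]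

/-- The flux of a field of length at most one. -/
lemma flux_le {f : Coord n → ℝ} (hf : ContDiff ℝ 1 f) (hc : HasCompactSupport f) (a : Coord n)
    {U : Coord n → Coord n} (hU : ContDiff ℝ 1 U) (hU1 : ∀ x, ‖U x‖ ≤ 1) :
    (∫ x, f (D.act a x) * ((∑ i, ⟪bas i, fderiv ℝ U x (D.frame x (bas i))⟫) +
      ⟪D.divV x, U x⟫) * volDensity C ι x) ≤ ∫ x, gradNorm C ι f x * volDensity C ι x := by
  let v : Coord n → ℝ := fun x => f (D.act a x)
  have hact : ContDiff ℝ 1 (D.act a) := D.contDiff_act_right one_ne_zero a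
  have hv : ContDiff ℝ 1 v := hf.comp hact
  let Kv := D.act (-a) '' tsupport f
  have hKv : IsCompact Kv :=
    IsCompact.image hc (D.contDiff_act_right (k := 1) one_ne_zero (-a)).continuous
  have hvK : ∀ x ∉ Kv, D.act a x ∉ tsupport f := fun x hx h =>
    hx ⟨D.act a x, h, D.act_neg_act a x⟩
  have hvc : HasCompactSupport v :=
    HasCompactSupport.intro hKv fun x hx =>
      show f (D.act a x) = 0 from image_eq_zero_of_notMem_tsupport (hvK x hx)
  have hw := D.continuous_volDensity
  have h := D.action.integral_frame_field hv hvc hU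
  show (∫ x, v x * _ * volDensity C ι x) ≤ _
  rw [← neg_neg (∫ x, v x * _ * volDensity C ι x), ← h, ← integral_neg]
  calc ∫ x, -(fderiv ℝ v x (D.frame x (U x)) * volDensity C ι x)
      ≤ ∫ x, gradNorm C ι f (D.act a x) * volDensity C ι x := by
        refine integral_mono ?_ ?_ fun x => ?_
        · refine Integrable.neg (Continuous.integrable_of_hasCompactSupport
            (((hv.continuous_fderiv one_ne_zero).clm_apply
              (D.contDiff_frame.continuous.clm_apply hU.continuous)).mul hw) ?_)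
          refine HasCompactSupport.intro hvc fun x hx => ?_
          simp [fderiv_of_notMem_tsupport ℝ hx]
        · refine (((D.continuous_gradNorm hf).comp hact.continuous).mul
            hw).integrable_of_hasCompactSupport (HasCompactSupport.intro hKv fun x hx => ?_)
          simp [gradNorm, fderiv_of_notMem_tsupport ℝ (hvK x hx)]
        · rw [← neg_mul]
          refine mul_le_mul_of_nonneg_right ?_ (D.volDensity_pos x).le
          have hd : fderiv ℝ v x (D.frame x (U x)) =
              fderiv ℝ f (D.act a x) (fderiv ℝ (D.act a) x (D.frame x (U x))) := by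
            have := ((hf.differentiable one_ne_zero (D.act a x)).hasFDerivAt.comp x
              (hact.differentiable one_ne_zero x).hasFDerivAt).fderiv
            rw [show fderiv ℝ v x = _ from this]
            rfl
          rw [hd]
          refine (neg_le_abs _).trans ((D.gradNorm_bound f _ _).trans ?_)
          rw [D.norm_Wl_act, D.Wl_frame]
          exact mul_le_of_le_one_right (D.gradNorm_nonneg f _) (hU1 x)
    _ = _ := D.integral_comp_act a (gradNorm C ι f)

/-- The transported measure dominates the density at every point. -/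
lemma density_le {δ : ℝ} (hδ : 0 < δ) (hn0 : 0 < n) {g : Coord n → ℝ} (hg : Continuous g)
    {ν : Measure (Coord n)}
    (hν : ∀ S, MeasurableSet S → ν S = ∫⁻ x in D.chart δ ⁻¹' S, ENNReal.ofReal (g x))
    (x : Coord n) {θ : ℝ} (hθ0 : 0 ≤ θ)
    (hθ : θ * |LinearMap.det (fderiv ℝ (D.chart δ) x).toLinearMap| < g x) :
    ∀ᶠ r in 𝓝[>] (0 : ℝ),
      ENNReal.ofReal θ * volume (ball (D.chart δ x) r) ≤ ν (ball (D.chart δ x) r) := by
  have hΦ := D.contDiff_chart δ
  let ee := (fderiv ℝ (D.chart δ) x).toLinearMap.equivOfDetNeZero (D.det_chart_ne hδ hn0 x)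
    |>.toContinuousLinearEquiv
  have hst : HasStrictFDerivAt (D.chart δ) (ee : Coord n →L[ℝ] Coord n) x :=
    (hΦ.contDiffAt (x := x)).hasStrictFDerivAt one_ne_zero
  let e := hst.toOpenPartialHomeomorph (D.chart δ)
  have hcont : Continuous fun z => g z -
      θ * |(fderiv ℝ (D.chart δ) z).det| :=
    hg.sub (continuous_const.mul
      (ContinuousLinearMap.continuous_det.comp (hΦ.continuous_fderiv one_ne_zero)).abs)
  let U := e.source ∩ {z | 0 < g z - θ * |(fderiv ℝ (D.chart δ) z).det|}
  have hU : IsOpen U := e.open_source.inter (isOpen_lt continuous_const hcont)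
  have hxU : x ∈ U := by
    refine ⟨hst.mem_toOpenPartialHomeomorph_source, ?_⟩
    simp only [Set.mem_setOf_eq, ContinuousLinearMap.det] at hθ ⊢
    linarith
  have himg : IsOpen ((D.chart δ) '' U) := e.isOpen_image_of_subset_source hU inter_subset_left
  obtain ⟨r0, hr0, hball⟩ := Metric.isOpen_iff.1 himg ((D.chart δ) x) ⟨x, hxU, rfl⟩
  filter_upwards [Ioo_mem_nhdsGT hr0] with r hr
  let W := U ∩ (D.chart δ) ⁻¹' ball ((D.chart δ) x) r
  have hW : MeasurableSet W :=
    hU.measurableSet.inter (hΦ.continuous.measurable measurableSet_ball)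
  have hWimg : (D.chart δ) '' W = ball ((D.chart δ) x) r := by
    rw [image_inter_preimage]
    exact inter_eq_right.2 ((ball_subset_ball hr.2.le).trans hball)
  have hcv := lintegral_abs_det_fderiv_eq_addHaar_image (μ := (volume : Measure (Coord n))) hW
    (fun z _ => ((hΦ.differentiable one_ne_zero) z).hasFDerivAt.hasFDerivWithinAt)
    ((e.injOn).mono (inter_subset_left.trans inter_subset_left))
  rw [← hWimg, ← hcv, ← lintegral_const_mul' _ _ ENNReal.ofReal_ne_top, hWimg,
    hν _ measurableSet_ball]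
  refine le_trans ?_ (lintegral_mono_set (inter_subset_right : W ⊆ _))
  refine setLIntegral_mono' hW fun z hz => ?_
  rw [← ENNReal.ofReal_mul hθ0]
  refine ENNReal.ofReal_le_ofReal ?_
  have hzz : 0 < g z - θ * |(fderiv ℝ (D.chart δ) z).det| := hz.1.2
  linarith

omit D in
/-- The arithmetic step of the pointwise bound. -/
lemma pointwise_step (hn : 2 ≤ n) {c η v dd T w : ℝ} (hc : 0 ≤ c) (hη : 0 < η) (hv : 0 ≤ v)
    (hw : 0 ≤ w) (hdd : c * v ^ ((n:ℝ) / (n - 1)) / (1 + η) ≤ dd)
    (hT : (n:ℝ) * dd ^ ((1:ℝ) / n) ≤ T) :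
    (n:ℝ) * (c / (1 + η)) ^ ((1:ℝ) / n) * (v ^ ((n:ℝ) / (n - 1)) * w) ≤ v * T * w := by
  have hn1 : (1 : ℝ) < n := by exact_mod_cast (show 1 < n by omega)
  set p : ℝ := (n : ℝ) / (n - 1) with hp
  set q : ℝ := (1:ℝ) / n with hq
  have hp0 : 0 < p := by rw [hp]; exact div_pos (by linarith) (by linarith)
  have h9 := (mul_le_mul_of_nonneg_left (Real.rpow_le_rpow
      (div_nonneg (mul_nonneg hc (Real.rpow_nonneg hv _)) (by linarith))
      hdd (by positivity : (0:ℝ) ≤ q)) (Nat.cast_nonneg n : (0:ℝ) ≤ n)).trans hT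
  have h10 : (c * v ^ p / (1 + η)) ^ q = (c / (1 + η)) ^ q * v ^ (p * q) := by
    rw [Real.rpow_mul hv, ← Real.mul_rpow (div_nonneg hc (by linarith)) (Real.rpow_nonneg hv _)]
    congr 1
    ring
  rw [h10] at h9
  have h11 : v * v ^ (p * q) = v ^ p := by
    rcases eq_or_lt_of_le hv with h0 | h0
    · rw [← h0, zero_mul, Real.zero_rpow hp0.ne']
    · conv_lhs => rw [← Real.rpow_one v, ← Real.rpow_mul h0.le, one_mul, ← Real.rpow_add h0]
      congr 1
      rw [hp, hq]
      have : (n:ℝ) - 1 ≠ 0 := by linarith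
      have : (n:ℝ) ≠ 0 := by linarith
      field_simp
      ring
  calc (n:ℝ) * (c / (1 + η)) ^ q * (v ^ p * w)
      = v * ((n:ℝ) * ((c / (1 + η)) ^ q * v ^ (p * q))) * w := by rw [← h11]; ring
    _ ≤ v * T * w := mul_le_mul_of_nonneg_right (mul_le_mul_of_nonneg_left h9 hv) hw

/-- The limit of the zero order term. -/
lemma zero_order_limit {δ B : ℝ} (hδ : 0 < δ) (hB : ∀ x, ‖D.reg x‖ ≤ B)
    {v : Coord n → ℝ} (hv : Continuous v) (hvc : HasCompactSupport v) (hv0 : ∀ x, 0 ≤ v x)
    (U : ℕ → Coord n → Coord n) (U' : Coord n → Coord n) (hU : ∀ k, Continuous (U k))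
    (hU1 : ∀ k x, ‖U k x‖ ≤ 1) (hlim : ∀ᵐ x, Tendsto (fun k => U k x) atTop (𝓝 (U' x)))
    (hmon : ∀ᵐ x, 0 ≤ ⟪U' x, D.chart δ x⟫) :
    ∃ l, -(δ * B * ∫ x, v x * volDensity C ι x) ≤ l ∧ Tendsto
      (fun k => ∫ x, v x * ⟪D.divV x, U k x⟫ * volDensity C ι x) atTop (𝓝 l) := by
  obtain ⟨BV, hBV⟩ := D.divV_bounded
  have hBV0 : 0 ≤ BV := (norm_nonneg _).trans (hBV 0)
  have hw := D.continuous_volDensity
  have hw0 : ∀ x, 0 ≤ volDensity C ι x := fun x => (D.volDensity_pos x).le
  have hint : ∀ {g : Coord n → ℝ}, Continuous g →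
      Integrable fun x => v x * g x * volDensity C ι x := by
    intro g hg
    refine ((hv.mul hg).mul hw).integrable_of_hasCompactSupport
      (HasCompactSupport.intro hvc fun x hx => ?_)
    simp [image_eq_zero_of_notMem_tsupport hx]
  have hb : Integrable fun x => v x * BV * volDensity C ι x := hint continuous_const
  have ha : ∀ k, Integrable fun x => v x * ⟪D.divV x, U k x⟫ * volDensity C ι x := fun k =>
    hint (D.contDiff_divV.continuous.inner (hU k))
  have hl : ∀ᵐ x, Tendsto (fun k => v x * ⟪D.divV x, U k x⟫ * volDensity C ι x) atTop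
      (𝓝 (v x * ⟪D.divV x, U' x⟫ * volDensity C ι x)) := by
    filter_upwards [hlim] with x hx
    exact ((tendsto_const_nhds.inner hx).const_mul (v x)).mul_const _
  have hdom : ∀ k x, ‖v x * ⟪D.divV x, U k x⟫ * volDensity C ι x‖ ≤
      v x * BV * volDensity C ι x := by
    intro k x
    rw [Real.norm_eq_abs, abs_mul, abs_mul, abs_of_nonneg (hv0 x), abs_of_nonneg (hw0 x)]
    refine mul_le_mul_of_nonneg_right (mul_le_mul_of_nonneg_left ?_ (hv0 x)) (hw0 x)
    calc |⟪D.divV x, U k x⟫| ≤ ‖D.divV x‖ * ‖U k x‖ := abs_real_inner_le_norm _ _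
      _ ≤ BV * 1 := mul_le_mul (hBV x) (hU1 k x) (norm_nonneg _) hBV0
      _ = BV := mul_one _
  refine ⟨_, ?_, tendsto_integral_of_dominated_convergence _ (fun k => (ha k).1) hb
    (fun k => Eventually.of_forall (hdom k)) hl⟩
  rw [← integral_const_mul, ← integral_neg]
  have hli : Integrable fun x => v x * ⟪D.divV x, U' x⟫ * volDensity C ι x := by
    refine hb.mono' (aestronglyMeasurable_of_tendsto_ae atTop (fun k => (ha k).1) hl) ?_
    filter_upwards [hl] with x hx
    exact le_of_tendsto hx.norm (Eventually.of_forall fun k => hdom k x)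
  refine integral_mono_ae (((hv.mul hw).integrable_of_hasCompactSupport
    (HasCompactSupport.intro hvc fun x hx => by
      simp [image_eq_zero_of_notMem_tsupport hx])).const_mul _).neg hli ?_
  filter_upwards [hlim, hmon] with x hx hxx
  have hT1 : ‖U' x‖ ≤ 1 := le_of_tendsto hx.norm (Eventually.of_forall fun k => hU1 k x)
  rw [chart, inner_add_right, inner_smul_right] at hxx
  have h2 : ⟪U' x, D.reg x⟫ ≤ B :=
    (real_inner_le_norm _ _).trans
      ((mul_le_mul hT1 (hB x) (norm_nonneg _) zero_le_one).trans (one_mul B).le)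
  have h3 : -(δ * B) ≤ ⟪D.divV x, U' x⟫ := by
    rw [real_inner_comm]
    linarith [mul_le_mul_of_nonneg_left h2 hδ.le]
  have := mul_le_mul_of_nonneg_left h3 (mul_nonneg (hv0 x) (hw0 x))
  linarith

/-- The pointwise bound for a limit of monotone fields. -/
lemma limit_lower {δ η c : ℝ} (hδ : 0 < δ) (hn : 2 ≤ n) (hc : 0 ≤ c) (hη : 0 < η)
    {v : Coord n → ℝ} (hv : Continuous v) (hv0 : ∀ x, 0 ≤ v x) {ν : Measure (Coord n)}
    (hν : ∀ S, MeasurableSet S → ν S = ∫⁻ x in D.chart δ ⁻¹' S,
      ENNReal.ofReal (c * v x ^ ((n:ℝ) / (n - 1)) * volDensity C ι x))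
    {x : Coord n} {F : ℕ → Coord n →L[ℝ] Coord n} {A : Coord n →L[ℝ] Coord n}
    (hF : ∀ k, (F k).toLinearMap.IsPositive) (hA : Tendsto F atTop (𝓝 A))
    (hden : ∀ θ : ℝ, 0 ≤ θ →
      (∀ᶠ r in 𝓝[>] (0 : ℝ), ENNReal.ofReal θ * volume (ball (D.chart δ x) r) ≤
        ν (ball (D.chart δ x) r)) →
      θ ≤ (1 + η) * LinearMap.det A.toLinearMap) :
    (n:ℝ) * (c / (1 + η)) ^ ((1:ℝ) / n) * (v x ^ ((n:ℝ) / (n - 1)) * volDensity C ι x) ≤
      v x * (∑ i, ⟪bas i, A (fderiv ℝ (D.chart δ) x (D.frame x (bas i)))⟫) *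
        volDensity C ι x := by
  have hn0 : 0 < n := by omega
  have hn1 : (1 : ℝ) < n := by exact_mod_cast (show 1 < n by omega)
  have hp0 : 0 ≤ (n : ℝ) / (n - 1) := (div_pos (by linarith) (by linarith)).le
  obtain ⟨hJs, hJp⟩ := D.jac_chart hδ x
  have hev : ∀ z : Coord n, Tendsto (fun k => F k z) atTop (𝓝 (A z)) := fun z =>
    ((ContinuousLinearMap.apply ℝ (Coord n) z).continuous.tendsto _).comp hA
  have hApos : A.toLinearMap.IsPositive := by
    refine ⟨fun z w => ?_, fun z => ?_⟩
    · refine tendsto_nhds_unique ((hev z).inner tendsto_const_nhds) ?_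
      have : (fun k => ⟪F k z, w⟫) = fun k => ⟪z, F k w⟫ :=
        funext fun k => (hF k).isSymmetric z w
      rw [this]
      exact tendsto_const_nhds.inner (hev w)
    · exact ge_of_tendsto' (((RCLike.continuous_re (K := ℝ)).tendsto _).comp
        ((hev z).inner tendsto_const_nhds)) fun k => (hF k).re_inner_nonneg_left z
  obtain ⟨-, hdA, hdJ, hineq⟩ := trace_det_map hn0 A
    ((fderiv ℝ (D.chart δ) x).comp (D.frame x)) hApos hJs hJp
  obtain ⟨-, hdetΦ⟩ := D.det_chart hδ hn0 x
  have hwx := D.volDensity_pos x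
  have hw0 : 0 < |LinearMap.det (fderiv ℝ (D.chart δ) x).toLinearMap| :=
    abs_pos.2 (D.det_chart_ne hδ hn0 x)
  have hkey : c * v x ^ ((n:ℝ) / (n - 1)) * volDensity C ι x /
      |LinearMap.det (fderiv ℝ (D.chart δ) x).toLinearMap| ≤
        (1 + η) * LinearMap.det A.toLinearMap := by
    refine le_of_forall_lt_imp_le_of_dense fun θ hθ => ?_
    rcases lt_or_ge θ 0 with hneg | hθ0
    · exact hneg.le.trans (mul_nonneg (by linarith) hdA)
    · exact hden θ hθ0 (D.density_le hδ hn0
        ((continuous_const.mul (hv.rpow_const fun z => Or.inr hp0)).mul D.continuous_volDensity)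
        hν x hθ0 ((lt_div_iff₀ hw0).1 hθ))
  rw [hdetΦ, div_le_iff₀ (mul_pos hdJ hwx)] at hkey
  refine pointwise_step hn hc hη (hv0 x) hwx.le ?_ hineq
  rw [div_le_iff₀ (by linarith)]
  exact le_of_mul_le_mul_right (by linarith) hwx

omit D in
/-- Fatou's lemma in the form used below. -/
lemma fatou_bound {low L : Coord n → ℝ} {a : ℕ → Coord n → ℝ} {Z : ℝ}
    (hlowi : Integrable low) (hlow0 : ∀ x, 0 ≤ low x) (hai : ∀ k, Integrable (a k))
    (ha0 : ∀ k x, 0 ≤ a k x) (hle : ∀ᵐ x, low x ≤ L x)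
    (hlim : ∀ᵐ x, Tendsto (fun k => a k x) atTop (𝓝 (L x)))
    (hev : ∀ᶠ k in atTop, ∫ x, a k x ≤ Z) : ∫ x, low x ≤ Z := by
  obtain ⟨k0, hk0⟩ := hev.exists
  have hZ0 : 0 ≤ Z := (integral_nonneg (ha0 k0)).trans hk0
  refine (ENNReal.ofReal_le_ofReal_iff hZ0).1 ?_
  rw [ofReal_integral_eq_lintegral_ofReal hlowi (Eventually.of_forall hlow0)]
  calc ∫⁻ x, ENNReal.ofReal (low x)
      ≤ ∫⁻ x, liminf (fun k => ENNReal.ofReal (a k x)) atTop := by
        refine lintegral_mono_ae ?_
        filter_upwards [hle, hlim] with x h1 h2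
        rw [(ENNReal.tendsto_ofReal h2).liminf_eq]
        exact ENNReal.ofReal_le_ofReal h1
    _ ≤ liminf (fun k => ∫⁻ x, ENNReal.ofReal (a k x)) atTop :=
        lintegral_liminf_le' fun k => (hai k).1.aemeasurable.ennreal_ofReal
    _ ≤ ENNReal.ofReal Z := by
        refine liminf_le_of_frequently_le' (Eventually.frequently ?_)
        filter_upwards [hev] with k hk
        rw [← ofReal_integral_eq_lintegral_ofReal (hai k) (Eventually.of_forall (ha0 k))]
        exact ENNReal.ofReal_le_ofReal hk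

/-- The inequality for a nonnegative `C¹` function, with error terms. -/
lemma sobolev_approx (hn : 2 ≤ n) {f : Coord n → ℝ} (hf : ContDiff ℝ 1 f)
    (hc : HasCompactSupport f) (hf0 : ∀ x, 0 ≤ f x)
    (hM : 0 < ∫ x, f x ^ ((n : ℝ) / (n - 1)) * volDensity C ι x)
    {B : ℝ} (hB : ∀ x, ‖D.reg x‖ ≤ B)
    {δ η e : ℝ} (hδ : 0 < δ) (hη : 0 < η) (hη1 : η < 1) (he : 0 < e) :
    (n : ℝ) * ((volume (ball (0 : Coord n) 1)).toReal /
          (∫ x, f x ^ ((n : ℝ) / (n - 1)) * volDensity C ι x) / (1 + η)) ^ ((1:ℝ) / n) *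
        (∫ x, f x ^ ((n : ℝ) / (n - 1)) * volDensity C ι x) ≤
      (∫ x, gradNorm C ι f x * volDensity C ι x) +
        δ * B * (∫ x, f x * volDensity C ι x) + e := by
  have hn0 : 0 < n := by omega
  set p : ℝ := (n : ℝ) / (n - 1) with hp
  have hn1 : (1 : ℝ) < n := by exact_mod_cast (show 1 < n by omega)
  have hp0 : 0 < p := by rw [hp]; exact div_pos (by linarith) (by linarith)
  set M := ∫ x, f x ^ p * volDensity C ι x with hMdef
  set ω := (volume (ball (0 : Coord n) 1)).toReal with hω
  have hω0 : 0 < ω := ENNReal.toReal_pos (measure_ball_pos _ _ one_pos).ne' measure_ball_lt_top.ne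
  set c := ω / M with hc0
  have hcpos : 0 < c := div_pos hω0 hM
  have hw : Continuous (volDensity C ι) := D.continuous_volDensity
  have hw0 : ∀ x, 0 ≤ volDensity C ι x := fun x => (D.volDensity_pos x).le
  have hfp : Continuous fun x => f x ^ p := hf.continuous.rpow_const fun x => Or.inr hp0.le
  let dens : Coord n → ℝ≥0∞ := fun x => ENNReal.ofReal (c * f x ^ p * volDensity C ι x)
  have hdens : Measurable dens := ((continuous_const.mul hfp).mul hw).measurable.ennreal_ofReal
  let μ : Measure (Coord n) := volume.withDensity dens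
  let K := tsupport f
  have hK : IsCompact K := hc
  have hμK : μ Kᶜ = 0 := by
    rw [withDensity_apply _ hK.isClosed.measurableSet.compl]
    refine setLIntegral_eq_zero hK.isClosed.measurableSet.compl fun x hx => ?_
    simp [dens, image_eq_zero_of_notMem_tsupport hx, Real.zero_rpow hp0.ne']
  have hintp : Integrable fun x => c * f x ^ p * volDensity C ι x := by
    refine ((continuous_const.mul hfp).mul hw).integrable_of_hasCompactSupport
      (HasCompactSupport.intro hc fun x hx => ?_)
    simp [image_eq_zero_of_notMem_tsupport hx, Real.zero_rpow hp0.ne']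
  have hmass : μ univ = volume (ball (0 : Coord n) 1) := by
    rw [withDensity_apply _ MeasurableSet.univ, setLIntegral_univ,
      ← ofReal_integral_eq_lintegral_ofReal hintp (Eventually.of_forall fun x =>
        mul_nonneg (mul_nonneg hcpos.le (Real.rpow_nonneg (hf0 x) _)) (hw0 x))]
    simp only [mul_assoc, integral_const_mul]
    rw [← hMdef, hc0, div_mul_cancel₀ _ hM.ne', hω, ENNReal.ofReal_toReal measure_ball_lt_top.ne]
  haveI : IsFiniteMeasure μ := ⟨by rw [hmass]; exact measure_ball_lt_top⟩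
  let Φ := D.chart δ
  have hΦ : ContDiff ℝ 1 Φ := D.contDiff_chart δ
  let G : Coord n → Coord n → Coord n := fun a x => Φ (D.act (-a) x)
  have hG : Continuous (fun q : Coord n × Coord n => G q.1 q.2) := D.continuous_moved δ
  have hnull : ∀ a, ∀ S : Set (Coord n), volume S = 0 → volume (G a ⁻¹' S) = 0 := by
    intro a S hS
    have e : G a ⁻¹' S = (D.act (-a)) ⁻¹' ((D.chart δ) ⁻¹' S) := rfl
    rw [e]
    exact D.act_null (-a) (null_preimage (D.contDiff_chart δ) (D.det_chart_ne hδ hn0) hS)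
  have hGm : ∀ a, Measurable (G a) := fun a =>
    (hG.comp (continuous_const.prodMk continuous_id)).measurable
  have hac : ∀ a, μ.map (G a) ≪ volume := by
    intro a
    refine Measure.AbsolutelyContinuous.mk fun S hS hS0 => ?_
    rw [Measure.map_apply (hGm a) hS]
    exact withDensity_absolutelyContinuous _ _ (hnull a S hS0)
  obtain ⟨BV, hBV⟩ := D.divV_bounded
  have hBV0 : 0 ≤ BV := (norm_nonneg _).trans (hBV 0)
  have hB0 : 0 ≤ B := (norm_nonneg _).trans (hB 0)
  obtain ⟨R, hR, hout⟩ := D.exists_radius hδ hB hK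
  obtain ⟨a, -, T, A, Tk, hTk1, hTk2, hTkP, hTT, hTlim, hAlim, hden⟩ :=
    transport_package μ K hK hμK hmass G hG hac R hR hout η hη hη1
  -- the transvected function
  let v : Coord n → ℝ := fun x => f (D.act a x)
  have hact : ContDiff ℝ 1 (D.act a) := D.contDiff_act_right one_ne_zero a
  have hv : ContDiff ℝ 1 v := hf.comp hact
  have hv0 : ∀ x, 0 ≤ v x := fun x => hf0 _
  let Kv := D.act (-a) '' K
  have hKv : IsCompact Kv := hK.image (D.contDiff_act_right (k := 1) one_ne_zero (-a)).continuous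
  have hvK : ∀ x ∉ Kv, v x = 0 := fun x hx => by
    show f (D.act a x) = 0
    exact image_eq_zero_of_notMem_tsupport fun h => hx ⟨D.act a x, h, D.act_neg_act a x⟩
  have hvc : HasCompactSupport v := HasCompactSupport.intro hKv hvK
  have hvp : Continuous fun x => v x ^ p := hv.continuous.rpow_const fun x => Or.inr hp0.le
  have hMv : ∫ x, v x ^ p * volDensity C ι x = M := D.integral_comp_act a (fun y => f y ^ p)
  have hSv : ∫ x, v x * volDensity C ι x = ∫ x, f x * volDensity C ι x :=
    D.integral_comp_act a f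
  let J : Coord n → Coord n →L[ℝ] Coord n := fun x => (fderiv ℝ Φ x).comp (D.frame x)
  have hJc : Continuous J :=
    (hΦ.continuous_fderiv one_ne_zero).clm_comp D.contDiff_frame.continuous
  have hν : ∀ S, MeasurableSet S → μ.map (G a) S =
      ∫⁻ x in Φ ⁻¹' S, ENNReal.ofReal (c * v x ^ p * volDensity C ι x) := fun S hS =>
    D.map_density (fun y => c * f y ^ p)
      (fun y => mul_nonneg hcpos.le (Real.rpow_nonneg (hf0 y) _)) a hΦ.continuous hS
  have pull : ∀ {P : Coord n → Prop}, (∀ᵐ y, P y) → ∀ᵐ x, P (Φ x) := by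
    intro P h
    rw [ae_iff] at h ⊢
    exact null_preimage hΦ (D.det_chart_ne hδ hn0) h
  have hAlim' := pull hAlim
  have hTlim' := pull hTlim
  have hTT' := pull hTT
  have hden' := pull hden
  let tr : ℕ → Coord n → ℝ := fun k x =>
    ∑ i, ⟪bas i, fderiv ℝ (Tk k) (Φ x) (J x (bas i))⟫
  have htr : ∀ k x, 0 ≤ tr k x := fun k x => by
    obtain ⟨hs, hp'⟩ := D.jac_chart hδ x
    exact (trace_det_map hn0 _ (J x) (hTkP k (Φ x)) hs hp').1
  have htrc : ∀ k, Continuous (tr k) := fun k => continuous_finsetSum _ fun i _ =>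
    continuous_const.inner ((((hTk1 k).continuous_fderiv one_ne_zero).comp
      hΦ.continuous).clm_apply (hJc.clm_apply continuous_const))
  let a1 : ℕ → Coord n → ℝ := fun k x => v x * tr k x * volDensity C ι x
  let a2 : ℕ → Coord n → ℝ := fun k x => v x * ⟪D.divV x, Tk k (Φ x)⟫ * volDensity C ι x
  let GI := ∫ x, gradNorm C ι f x * volDensity C ι x
  have hint : ∀ {g : Coord n → ℝ}, Continuous g →
      Integrable fun x => v x * g x * volDensity C ι x := by
    intro g hg
    refine ((hv.continuous.mul hg).mul hw).integrable_of_hasCompactSupport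
      (HasCompactSupport.intro hKv fun x hx => ?_)
    simp [hvK x hx]
  have ha1 : ∀ k, Integrable (a1 k) := fun k => hint (htrc k)
  have ha2 : ∀ k, Integrable (a2 k) := fun k =>
    hint (D.contDiff_divV.continuous.inner ((hTk1 k).continuous.comp hΦ.continuous))
  have hmain : ∀ k, (∫ x, a1 k x) + ∫ x, a2 k x ≤ GI := by
    intro k
    have hTc : ContDiff ℝ 1 (fun x => Tk k (Φ x)) := (hTk1 k).comp hΦ
    have e : ∫ x, v x * ((∑ i, ⟪bas i, fderiv ℝ (fun y => Tk k (Φ y)) x (D.frame x (bas i))⟫) +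
        ⟪D.divV x, Tk k (Φ x)⟫) * volDensity C ι x = (∫ x, a1 k x) + ∫ x, a2 k x := by
      rw [← integral_add (ha1 k) (ha2 k)]
      refine integral_congr_ae (Eventually.of_forall fun x => ?_)
      have hd : fderiv ℝ (fun y => Tk k (Φ y)) x = (fderiv ℝ (Tk k) (Φ x)).comp (fderiv ℝ Φ x) :=
        ((((hTk1 k).differentiable one_ne_zero) _).hasFDerivAt.comp x
          ((hΦ.differentiable one_ne_zero) x).hasFDerivAt).fderiv
      simp only [a1, a2, tr, J, hd, ContinuousLinearMap.comp_apply]
      ring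
    rw [← e]
    exact D.flux_le hf hc a hTc fun x => hTk2 k _
  obtain ⟨l, hl, htend⟩ := D.zero_order_limit hδ hB hv.continuous hvc hv0
    (fun k x => Tk k (Φ x)) (fun x => T (Φ x)) (fun k => (hTk1 k).continuous.comp hΦ.continuous)
    (fun k x => hTk2 k _) hTlim' hTT'
  rw [hSv] at hl
  set q : ℝ := (1:ℝ) / n with hq
  let low : Coord n → ℝ := fun x => (n : ℝ) * (c / (1 + η)) ^ q * (v x ^ p * volDensity C ι x)
  have hlowi : Integrable low := by
    refine (Continuous.integrable_of_hasCompactSupport (hvp.mul hw)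
      (HasCompactSupport.intro hKv fun x hx => ?_)).const_mul _
    simp [hvK x hx, Real.zero_rpow hp0.ne']
  have hlow0 : ∀ x, 0 ≤ low x := fun x => mul_nonneg
    (mul_nonneg (Nat.cast_nonneg n) (Real.rpow_nonneg (div_nonneg hcpos.le (by linarith)) _))
    (mul_nonneg (Real.rpow_nonneg (hv0 x) _) (hw0 x))
  have hle : ∀ᵐ x, low x ≤
      v x * (∑ i, ⟪bas i, A (Φ x) (J x (bas i))⟫) * volDensity C ι x := by
    filter_upwards [hAlim', hden'] with x hAx hdx
    exact D.limit_lower hδ hn hcpos.le hη hv.continuous hv0 hν (fun k => hTkP k (Φ x)) hAx hdx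
  have hlim : ∀ᵐ x, Tendsto (fun k => a1 k x) atTop
      (𝓝 (v x * (∑ i, ⟪bas i, A (Φ x) (J x (bas i))⟫) * volDensity C ι x)) := by
    filter_upwards [hAlim'] with x hx
    refine ((tendsto_finsetSum _ fun i _ => tendsto_const_nhds.inner ?_).const_mul
      (v x)).mul_const _
    exact ((ContinuousLinearMap.apply ℝ (Coord n) (J x (bas i))).continuous.tendsto _).comp hx
  have hev : ∀ᶠ k in atTop, ∫ x, a1 k x ≤
      GI + δ * B * (∫ x, f x * volDensity C ι x) + e := by
    filter_upwards [htend.eventually (lt_mem_nhds (sub_lt_self l he))] with k hk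
    have h0 := hmain k
    linarith
  have := fatou_bound hlowi hlow0 ha1
    (fun k x => mul_nonneg (mul_nonneg (hv0 x) (htr k x)) (hw0 x)) hle hlim hev
  rwa [show ∫ x, low x = (n : ℝ) * (c / (1 + η)) ^ q * M by
    rw [integral_const_mul, hMv]] at this

end Data

end Vale.Agent.P219
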