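import Mathlib
import Vale.Agent.P219.Defs
import Vale.Agent.P219.Ad
import Vale.Agent.P219.Exp

/-!
# P219 : all positive definite matrices form one of the spaces
-/

open Matrix
open scoped RealInnerProductSpace

set_option autoImplicit false

namespace Vale.Agent.P219

/-- Every space of positive definite matrices is covered. -/
theorem exists_posDef_space (N : ℕ) : ∃ (n : ℕ) (ι : Coord n →ₗ[ℝ] Mat N),
    IsLieTriple (1 : Mat N) ι ∧ ∀ A : Mat N, Aᵀ = A → ∃ x, ι x = A := by
  let S : Submodule ℝ (EuclideanSpace ℝ (Idx N)) :=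
    { carrier := {v | ∀ i j, v (i, j) = v (j, i)}
      add_mem' := fun {a b} ha hb i j => by simp [ha i j, hb i j]
      zero_mem' := fun i j => rfl
      smul_mem' := fun c a ha i j => by simp [ha i j] }
  let b := stdOrthonormalBasis ℝ S
  let φ : S →ₗ[ℝ] Mat N :=
    { toFun := fun v => unvec (WithLp.ofLp (v : EuclideanSpace ℝ (Idx N)))
      map_add' := fun u v => by ext i j; simp [unvec]
      map_smul' := fun c u => by ext i j; simp [unvec] }
  let ι : Coord (Module.finrank ℝ S) →ₗ[ℝ] Mat N := φ ∘ₗ b.repr.symm.toLinearEquiv.toLinearMap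
  have hsym : ∀ x, (ι x)ᵀ = ι x := fun x => Matrix.ext fun i j =>
    (b.repr.symm x).2 i j
  have hsurj : ∀ A : Mat N, Aᵀ = A → ∃ x, ι x = A := by
    intro A hA
    have hm : WithLp.toLp 2 (vec A) ∈ S := fun i j => by
      show A j i = A i j
      exact congrFun (congrFun hA i) j
    refine ⟨b.repr ⟨_, hm⟩, ?_⟩
    ext i j
    simp [ι, φ, unvec]
  refine ⟨_, ι, ⟨PosDef.one, hsym, fun x => by simp, fun x y => ?_, fun x y z => hsurj _ ?_⟩, hsurj⟩
  · rw [Matrix.one_mul, show (ι x * ι y).trace = ((ι x)ᵀ * ι y).trace by rw [hsym],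
      ← vec_dotProduct_vec, ← b.repr.symm.inner_map_map x y, Submodule.coe_inner,
      EuclideanSpace.inner_eq_star_dotProduct]
    simp only [ι, φ, LinearMap.comp_apply, LinearMap.coe_mk, AddHom.coe_mk, vec_unvec, star_trivial]
    exact dotProduct_comm _ _
  · simp only [transpose_sub, transpose_mul, hsym]
    simp only [Matrix.mul_sub, Matrix.sub_mul, Matrix.mul_assoc]
    abel

end Vale.Agent.P219
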