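import Mathlib
import Vale.Agent.P219.Defs
import Vale.Agent.P219.Exp
import Vale.Agent.P219.Field
import Vale.Agent.P219.Reg
import Vale.Agent.P219.Core

/-!
# P219 : sharp Sobolev and isoperimetric inequalities on nonpositively curved symmetric spaces
-/

open Matrix MeasureTheory Metric Set Filter Topology
open scoped RealInnerProductSpace ENNReal

set_option autoImplicit false

namespace Vale.Agent.P219

variable {N n : ℕ} {C : Mat N} {ι : Coord n →ₗ[ℝ] Mat N}

lemma gradNorm_of_smul {u v : Coord n → ℝ} {x : Coord n} {c : ℝ}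
    (h : fderiv ℝ v x = c • fderiv ℝ u x) :
    gradNorm C ι v x = |c| * gradNorm C ι u x := by
  set g : Fin n → ℝ := fun i => fderiv ℝ u x (EuclideanSpace.single i 1) with hg
  have e : (fun i => fderiv ℝ v x (EuclideanSpace.single i 1)) = c • g := by
    funext i; simp [h, hg]
  rw [gradNorm, gradNorm, e, ← hg, mulVec_smul, smul_dotProduct, dotProduct_smul, smul_eq_mul,
    smul_eq_mul, ← mul_assoc, Real.sqrt_mul (mul_self_nonneg c), Real.sqrt_mul_self_eq_abs]

namespace Data

variable (D : Data C ι)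
include D

lemma sobolev_nonneg (hn : 2 ≤ n) {f : Coord n → ℝ} (hf : ContDiff ℝ 1 f)
    (hc : HasCompactSupport f) (hf0 : ∀ x, 0 ≤ f x) :
    isoConst n *
        (∫ x, f x ^ ((n : ℝ) / (n - 1)) * volDensity C ι x) ^ (((n : ℝ) - 1) / n) ≤
      ∫ x, gradNorm C ι f x * volDensity C ι x := by
  have hn1 : (1 : ℝ) < n := by exact_mod_cast (show 1 < n by omega)
  set M := ∫ x, f x ^ ((n : ℝ) / (n - 1)) * volDensity C ι x with hMdef
  set ω := (volume (ball (0 : Coord n) 1)).toReal with hω
  have hω0 : 0 < ω := ENNReal.toReal_pos (measure_ball_pos _ _ one_pos).ne' measure_ball_lt_top.ne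
  have hr : 0 < ((n : ℝ) - 1) / n := div_pos (by linarith) (by linarith)
  have hG0 : 0 ≤ ∫ x, gradNorm C ι f x * volDensity C ι x :=
    integral_nonneg fun x => mul_nonneg (Real.sqrt_nonneg _) (D.volDensity_pos x).le
  rcases (show 0 ≤ M from integral_nonneg fun x =>
    mul_nonneg (Real.rpow_nonneg (hf0 x) _) (D.volDensity_pos x).le).eq_or_lt with hM | hM
  · rw [← hM, Real.zero_rpow hr.ne', mul_zero]
    exact hG0
  obtain ⟨B, hB⟩ := D.reg_bounded
  let s : ℕ → ℝ := fun k => 1 / ((k : ℝ) + 2)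
  have hs0 : ∀ k, 0 < s k := fun k => by positivity
  have hs1 : ∀ k, s k < 1 := fun k => by
    rw [div_lt_one (by positivity)]
    have := (Nat.cast_nonneg k : (0:ℝ) ≤ k)
    linarith
  have hs : Tendsto s atTop (𝓝 0) := by
    simp only [s]
    exact tendsto_const_nhds.div_atTop
      (tendsto_atTop_add_const_right _ 2 tendsto_natCast_atTop_atTop)
  set S := ∫ x, f x * volDensity C ι x
  have hle : ∀ k, (n : ℝ) * (ω / M / (1 + s k)) ^ ((1:ℝ) / n) * M ≤
      (∫ x, gradNorm C ι f x * volDensity C ι x) + s k * B * S + s k := fun k =>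
    D.sobolev_approx hn hf hc hf0 hM hB (hs0 k) (hs0 k) (hs1 k) (hs0 k)
  have h1 : Tendsto (fun k => (n : ℝ) * (ω / M / (1 + s k)) ^ ((1:ℝ) / n) * M) atTop
      (𝓝 ((n : ℝ) * (ω / M) ^ ((1:ℝ) / n) * M)) := by
    have h0 : Tendsto (fun k => ω / M / (1 + s k)) atTop (𝓝 (ω / M / (1 + 0))) :=
      tendsto_const_nhds.div (tendsto_const_nhds.add hs) (by norm_num)
    rw [add_zero, div_one] at h0
    exact ((h0.rpow_const (Or.inl (div_pos hω0 hM).ne')).const_mul _).mul_const _
  have h2 : Tendsto (fun k => (∫ x, gradNorm C ι f x * volDensity C ι x) + s k * B * S + s k)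
      atTop (𝓝 (∫ x, gradNorm C ι f x * volDensity C ι x)) := by
    simpa using (((hs.mul_const B).mul_const S).const_add
      (∫ x, gradNorm C ι f x * volDensity C ι x)).add hs
  have h := le_of_tendsto_of_tendsto' h1 h2 hle
  refine le_of_eq_of_le ?_ h
  rw [isoConst, ← hω, Real.div_rpow hω0.le hM.le,
    show ((n : ℝ) - 1) / n = 1 - 1 / n by field_simp, Real.rpow_sub hM, Real.rpow_one]
  field_simp

/-- The sharp Sobolev inequality. -/
theorem sobolev (hn : 2 ≤ n) {u : Coord n → ℝ} (hu : ContDiff ℝ 1 u)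
    (hc : HasCompactSupport u) :
    isoConst n *
        (∫ x, |u x| ^ ((n : ℝ) / (n - 1)) * volDensity C ι x) ^ (((n : ℝ) - 1) / n) ≤
      ∫ x, gradNorm C ι u x * volDensity C ι x := by
  have hn1 : (1 : ℝ) < n := by exact_mod_cast (show 1 < n by omega)
  have hp : 0 < (n : ℝ) / (n - 1) := div_pos (by linarith) (by linarith)
  have hw0 : ∀ x, 0 ≤ volDensity C ι x := fun x => (D.volDensity_pos x).le
  let s : ℕ → ℝ := fun k => 1 / ((k : ℝ) + 1)
  have hs0 : ∀ k, 0 < s k := fun k => by positivity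
  let g : ℕ → Coord n → ℝ := fun k x => Real.sqrt (u x ^ 2 + s k ^ 2) - s k
  have hpos : ∀ k x, 0 < u x ^ 2 + s k ^ 2 := fun k x =>
    add_pos_of_nonneg_of_pos (sq_nonneg _) (pow_pos (hs0 k) 2)
  have hg : ∀ k, ContDiff ℝ 1 (g k) := fun k =>
    (((hu.pow 2).add contDiff_const).sqrt fun x => (hpos k x).ne').sub contDiff_const
  have hgc : ∀ k, HasCompactSupport (g k) := fun k => by
    refine HasCompactSupport.intro hc fun x hx => ?_
    simp [g, image_eq_zero_of_notMem_tsupport hx, Real.sqrt_sq (hs0 k).le]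
  have hg0 : ∀ k x, 0 ≤ g k x := fun k x => by
    have := Real.sqrt_le_sqrt (le_add_of_nonneg_left (sq_nonneg (u x)) :
      s k ^ 2 ≤ u x ^ 2 + s k ^ 2)
    rw [Real.sqrt_sq (hs0 k).le] at this
    exact sub_nonneg.2 this
  have hgle : ∀ k x, g k x ≤ |u x| := fun k x => by
    have : Real.sqrt (u x ^ 2 + s k ^ 2) ≤ |u x| + s k := by
      rw [Real.sqrt_le_left (by positivity)]
      nlinarith [sq_abs (u x), mul_nonneg (abs_nonneg (u x)) (hs0 k).le]
    simp only [g]
    linarith
  have hgrad : ∀ k x, gradNorm C ι (g k) x ≤ gradNorm C ι u x := by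
    intro k x
    let c := u x / Real.sqrt (u x ^ 2 + s k ^ 2)
    have hd : fderiv ℝ (g k) x = c • fderiv ℝ u x := by
      have h1 := ((((hu.differentiable one_ne_zero x).hasFDerivAt.pow 2).add_const (s k ^ 2)).sqrt
        (hpos k x).ne').sub_const (s k)
      rw [show fderiv ℝ (g k) x = _ from h1.fderiv]
      ext v
      simp [c]
      field_simp
    rw [gradNorm_of_smul hd]
    refine mul_le_of_le_one_left (Real.sqrt_nonneg _) ?_
    simp only [c, abs_div, abs_of_pos (Real.sqrt_pos.2 (hpos k x))]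
    rw [div_le_one (Real.sqrt_pos.2 (hpos k x)), ← Real.sqrt_sq_eq_abs]
    exact Real.sqrt_le_sqrt (le_add_of_nonneg_right (sq_nonneg _))
  have hint : ∀ {h : Coord n → ℝ}, ContDiff ℝ 1 h → HasCompactSupport h →
      Integrable fun x => gradNorm C ι h x * volDensity C ι x := by
    intro h h1 h2
    refine ((D.continuous_gradNorm h1).mul D.continuous_volDensity).integrable_of_hasCompactSupport
      (HasCompactSupport.intro h2 fun x hx => ?_)
    simp [gradNorm, fderiv_of_notMem_tsupport ℝ hx]
  have hle : ∀ k, isoConst n *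
      (∫ x, g k x ^ ((n : ℝ) / (n - 1)) * volDensity C ι x) ^ (((n : ℝ) - 1) / n) ≤
        ∫ x, gradNorm C ι u x * volDensity C ι x := fun k =>
    (D.sobolev_nonneg hn (hg k) (hgc k) (hg0 k)).trans
      (integral_mono (hint (hg k) (hgc k)) (hint hu hc) fun x =>
        mul_le_mul_of_nonneg_right (hgrad k x) (hw0 x))
  have hlim : Tendsto (fun k => ∫ x, g k x ^ ((n : ℝ) / (n - 1)) * volDensity C ι x) atTop
      (𝓝 (∫ x, |u x| ^ ((n : ℝ) / (n - 1)) * volDensity C ι x)) := by
    refine tendsto_integral_of_dominated_convergence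
      (fun x => |u x| ^ ((n : ℝ) / (n - 1)) * volDensity C ι x)
      (fun k => (((hg k).continuous.rpow_const fun x => Or.inr hp.le).mul
        D.continuous_volDensity).aestronglyMeasurable) ?_ (fun k => ?_) ?_
    · refine (((hu.continuous.abs).rpow_const fun x => Or.inr hp.le).mul
        D.continuous_volDensity).integrable_of_hasCompactSupport
        (HasCompactSupport.intro hc fun x hx => ?_)
      simp [image_eq_zero_of_notMem_tsupport hx, Real.zero_rpow hp.ne']
    · refine Eventually.of_forall fun x => ?_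
      rw [Real.norm_of_nonneg (mul_nonneg (Real.rpow_nonneg (hg0 k x) _) (hw0 x))]
      exact mul_le_mul_of_nonneg_right (Real.rpow_le_rpow (hg0 k x) (hgle k x) hp.le) (hw0 x)
    · refine Eventually.of_forall fun x => ?_
      have hs : Tendsto s atTop (𝓝 0) := tendsto_one_div_add_atTop_nhds_zero_nat
      have h0 : Tendsto (fun k => g k x) atTop (𝓝 (Real.sqrt (u x ^ 2 + 0 ^ 2) - 0)) :=
        ((tendsto_const_nhds.add (hs.pow 2)).sqrt).sub hs
      rw [sub_zero, zero_pow (two_ne_zero), add_zero, Real.sqrt_sq_eq_abs] at h0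
      exact (h0.rpow_const (Or.inr hp.le)).mul_const _
  exact le_of_tendsto' ((hlim.rpow_const (Or.inr
    (div_nonneg (by linarith) (by linarith)))).const_mul _) hle

/-- The sharp isoperimetric inequality for relaxed perimeters. -/
theorem isoperimetric (hn : 2 ≤ n) {S : Set (Coord n)} (hS : MeasurableSet S)
    (u : ℕ → Coord n → ℝ) (P : ℝ) (hu : ∀ k, ContDiff ℝ 1 (u k))
    (hc : ∀ k, HasCompactSupport (u k))
    (hL : Tendsto (fun k => ∫⁻ x, ENNReal.ofReal
      (|u k x - S.indicator (fun _ => (1:ℝ)) x| * volDensity C ι x)) atTop (𝓝 0))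
    (hP : ∀ k, ∫ x, gradNorm C ι (u k) x * volDensity C ι x ≤ P) :
    (∫⁻ x in S, ENNReal.ofReal (volDensity C ι x)) ≤
      ENNReal.ofReal ((P / isoConst n) ^ ((n : ℝ) / (n - 1))) := by
  have hn1 : (1 : ℝ) < n := by exact_mod_cast (show 1 < n by omega)
  set p : ℝ := (n : ℝ) / (n - 1) with hp
  have hp0 : 0 < p := div_pos (by linarith) (by linarith)
  have hiso : 0 < isoConst n := mul_pos (by linarith) (Real.rpow_pos_of_pos
    (ENNReal.toReal_pos (measure_ball_pos _ _ one_pos).ne' measure_ball_lt_top.ne) _)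
  set w := volDensity C ι with hw
  have hw0 : ∀ x, 0 < w x := D.volDensity_pos
  set μ : Measure (Coord n) := volume.withDensity fun x => ENNReal.ofReal (w x) with hμ
  have hwm : Measurable fun x => ENNReal.ofReal (w x) :=
    D.continuous_volDensity.measurable.ennreal_ofReal
  have hm : TendstoInMeasure μ u atTop (S.indicator fun _ => (1:ℝ)) := by
    refine tendstoInMeasure_of_tendsto_eLpNorm one_ne_zero
      (fun k => (hu k).continuous.aestronglyMeasurable)
      ((measurable_const.indicator hS).aestronglyMeasurable) ?_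
    refine hL.congr fun k => ?_
    rw [eLpNorm_one_eq_lintegral_enorm, hμ, lintegral_withDensity_eq_lintegral_mul _ hwm
      (((hu k).continuous.measurable.sub (measurable_const.indicator hS)).enorm)]
    refine lintegral_congr fun x => ?_
    rw [Pi.mul_apply, Pi.sub_apply, Real.enorm_eq_ofReal_abs, ← ENNReal.ofReal_mul (hw0 x).le,
      mul_comm]
  obtain ⟨ns, -, hns⟩ := hm.exists_seq_tendsto_ae
  have hns' : ∀ᵐ x, Tendsto (fun i => u (ns i) x) atTop (𝓝 (S.indicator (fun _ => (1:ℝ)) x)) := by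
    rw [hμ, ae_withDensity_iff hwm] at hns
    filter_upwards [hns] with x hx
    exact hx (ENNReal.ofReal_pos.2 (hw0 x)).ne'
  have hbd : ∀ i, ∫⁻ x, ENNReal.ofReal (|u (ns i) x| ^ p * w x) ≤
      ENNReal.ofReal ((P / isoConst n) ^ p) := by
    intro i
    have h := (D.sobolev hn (hu (ns i)) (hc (ns i))).trans (hP (ns i))
    have hI : Integrable fun x => |u (ns i) x| ^ p * w x := by
      refine (((hu (ns i)).continuous.abs.rpow_const fun x => Or.inr hp0.le).mul
        D.continuous_volDensity).integrable_of_hasCompactSupport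
        (HasCompactSupport.intro (hc (ns i)) fun x hx => ?_)
      simp [image_eq_zero_of_notMem_tsupport hx, Real.zero_rpow hp0.ne']
    have hI0 : ∀ x, 0 ≤ |u (ns i) x| ^ p * w x := fun x =>
      mul_nonneg (Real.rpow_nonneg (abs_nonneg _) _) (hw0 x).le
    rw [← ofReal_integral_eq_lintegral_ofReal hI (Eventually.of_forall hI0)]
    refine ENNReal.ofReal_le_ofReal ?_
    set I := ∫ x, |u (ns i) x| ^ p * w x
    have hI1 : 0 ≤ I := integral_nonneg hI0
    have h2 : I ^ (((n : ℝ) - 1) / n) ≤ P / isoConst n := by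
      rw [le_div_iff₀' hiso]; exact h
    have h3 := Real.rpow_le_rpow (Real.rpow_nonneg hI1 _) h2 hp0.le
    rwa [← Real.rpow_mul hI1, show ((n : ℝ) - 1) / n * p = 1 by
      rw [hp]
      have : (n:ℝ) - 1 ≠ 0 := by linarith
      have : (n:ℝ) ≠ 0 := by linarith
      field_simp, Real.rpow_one] at h3
  rw [← lintegral_indicator hS]
  calc ∫⁻ x, S.indicator (fun x => ENNReal.ofReal (w x)) x
      ≤ ∫⁻ x, liminf (fun i => ENNReal.ofReal (|u (ns i) x| ^ p * w x)) atTop := by
        refine lintegral_mono_ae ?_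
        filter_upwards [hns'] with x hx
        have h1 := (ENNReal.tendsto_ofReal (((hx.abs).rpow_const (Or.inr hp0.le)).mul_const (w x)))
        rw [h1.liminf_eq]
        by_cases hxS : x ∈ S
        · simp [indicator_of_mem hxS]
        · simp [indicator_of_notMem hxS]
    _ ≤ liminf (fun i => ∫⁻ x, ENNReal.ofReal (|u (ns i) x| ^ p * w x)) atTop :=
        lintegral_liminf_le fun i =>
          (((hu (ns i)).continuous.abs.rpow_const fun x => Or.inr hp0.le).mul
            D.continuous_volDensity).measurable.ennreal_ofReal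
    _ ≤ _ := liminf_le_of_frequently_le' (Eventually.frequently (Eventually.of_forall hbd))

end Data

end Vale.Agent.P219
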